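import Claimed.Agent.R316.B8M.PreAtlas
import Claimed.Agent.R316.S3.Defs
import Claimed.Agent.R316.Pack003
import Claimed.Agent.R316.Pack014_2
import Claimed.Agent.R316.B5.Hol
import Claimed.Agent.R316.CW.MatAlg

/-!
# B8M-ATLAS (M1, holomorphic part): bounded geometry gives a uniformly locally finite atlas

THREE LEAVES (proofs only): B8M-CAUCHY = `exists_cauchy_const`; B8M-UCHART = `norm_fderiv_trans_sq_le`, `UChart.rescale_eq`, `UChart.rescale`;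
B8M-ATLAS = `UChart.affine_eq`, `exists_preatlas` (`exists_gatlas`, `GAtlas.uchart`, `exists_uatlas_of_bddGeom` are proved from them).

Recipes.
* `exists_cauchy_const`: induction on `k`, for all `ρ` and all targets `F`.  `k = 0`: `norm_iteratedFDeriv_zero`, `C = 1`.
  `k + 1`: `‖iteratedFDeriv ℝ (k+1) f c‖ = ‖iteratedFDeriv ℝ k (fderiv ℝ f) c‖` (`norm_iteratedFDeriv_fderiv`); near `c`,
  `fderiv ℝ f = Rs ∘ fderiv ℂ f` with `Rs = ContinuousLinearMap.restrictScalarsL ℂ E F ℝ ℝ`-like map of norm `≤ 1`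
  (`DifferentiableAt.fderiv_restrictScalars`); `iteratedFDeriv` depends only on the germ
  (`Filter.EventuallyEq.iteratedFDeriv_eq`); `ContinuousLinearMap.norm_iteratedFDeriv_comp_left`;
  `g = fderiv ℂ f` is holomorphic on `ball c ρ` (`hol_differentiableOn_fderiv`) and bounded by `M / (ρ/2)` on `ball c (ρ/2)`
  (`scv_norm_fderiv_le` on `ball z (ρ/2) ⊆ ball c ρ`); smoothness `hol_contDiffOn_real`.  `C (k+1) ρ = C k (ρ/2) * 2 / ρ`.
* `norm_fderiv_trans_sq_le`: `IsHForm.compat`: `α Φ z = Jᴴ (α Ψ (τ z)) J`, `J = jac τ z`.  For `v : CE (Fin n)`: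
  `a ‖J v‖² ≤ (Jv)ᴴ α_Ψ (Jv) = vᴴ α_Φ v ≤ b ‖v‖²` (`leM`, `cI`, `Matrix.PosSemidef`), and `fderiv ℂ τ z v = J v` in coordinates;
  `fderiv ℝ τ z = (fderiv ℂ τ z).restrictScalars ℝ` (`CMfd.trans_hasFDerivAt_real`).
* `UChart.rescale_eq`, `UChart.rescale`: `Φ' = Φ ∘ (ρ • ·)` is a holomorphic parametrisation on `ball 0 R` (`CMfd.reparam` or `CMfd.isHol_linear` + `isHol_mono`);
  the transition `Φ' → Φ` is `z ↦ ρ • z`, `jac = ρ • 1`, so `β Φ' z = ρ² • β Φ (ρ • z)` by `IsHForm.compat`, for every Hermitian form `β` (in particular `α`);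
  `iteratedFDeriv` of `y ↦ a (ρ • y)`: `iteratedFDeriv_comp_const_smul`-type lemma, or `ContinuousLinearMap.iteratedFDeriv_comp_right` +
  `norm_compContinuousLinearMap_le`.
* `UChart.affine_eq`: as `UChart.rescale_eq` (`CMfd.isHol_affine`), for an arbitrary Hermitian form `β`.
* `exists_preatlas`: `R = 4 + 7 Λ`, `ρ = r / (2 R)`, `κ = {p : (CE (Fin n) → V) × CE (Fin n) // G.IsCh p.1 ∧ p.2 ∈ ball 0 (r/2)}`, `Ψ p z = p.1 (p.2 + ρ • z)`, `D = {p | p.2 = 0}` (`zero_add`); `centre`: `G.chart`.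
  `ov_open`: `CMfd.isOpen_overlap`; `smooth`: `CMfd.trans_contDiffOn`; `lip` with `L = Λ` (NOT the worse constant of `UChart.rescale`): `norm_fderiv_trans_sq_le` with `b = ρ² Λ`, `a = ρ² / Λ` (`UChart.affine_eq` with `β = α`), `b / a = Λ²`;
  `bound`: `exists_cauchy_const k 1` with `M = R` (`CMfd.compat` gives holomorphy on the overlap, values in `ball 0 R`).
-/

set_option autoImplicit false
set_option maxSynthPendingDepth 3
set_option linter.unusedSectionVars false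

open scoped Topology ContDiff ComplexOrder
open Set Filter Metric

namespace Claimed.Agent.R316.B8M

open Claimed.Agent.R316 Claimed.Agent.R316.S3

/-- **Cauchy estimates for all real derivatives** of a bounded holomorphic map. -/
theorem exists_cauchy_const {E : Type} [NormedAddCommGroup E] [NormedSpace ℂ E] [FiniteDimensional ℂ E]
    (k : ℕ) (ρ : ℝ) (hρ : 0 < ρ) : ∃ C : ℝ, 0 ≤ C ∧
    ∀ (F : Type) [NormedAddCommGroup F] [NormedSpace ℂ F] [FiniteDimensional ℂ F] (f : E → F) (c : E)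
      (M : ℝ), DifferentiableOn ℂ f (ball c ρ) → (∀ z ∈ ball c ρ, ‖f z‖ ≤ M) →
      ‖iteratedFDeriv ℝ k f c‖ ≤ C * M := by
  refine ⟨(k : ℝ) ^ k / ρ ^ k, by positivity, fun F _ _ _ f c M hf hM => ?_⟩
  have h1 : ContDiffAt ℂ k f c :=
    ((hol_contDiffOn isOpen_ball hf).contDiffAt (isOpen_ball.mem_nhds (mem_ball_self hρ))).of_le
      (by exact_mod_cast le_top)
  rw [← h1.restrictScalars_iteratedFDeriv (𝕜 := ℝ), Function.comp_apply,
    ContinuousMultilinearMap.norm_restrictScalars]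
  refine (b5_norm_iteratedFDeriv_le hρ hf hM k).trans (le_of_eq ?_)
  ring

variable {V : Type} [NormedAddCommGroup V] [NormedSpace ℝ V] {n : ℕ}

theorem qf_cI_eq (c : ℝ) (v : CE (Fin n)) : qf (cI c) (fun j => v j) = c * ‖v‖ ^ 2 := by
  unfold cI
  rw [qf_smul, qf_one, EuclideanSpace.norm_sq_eq]

/-- the differential of a transition is controlled by the ratio of the metric bounds in the two charts. -/
theorem norm_fderiv_trans_sq_le {X : CMfd V (Fin n)} {α : HFam V (Fin n)} (hα : IsMetric X α)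
    {Φ Ψ : CE (Fin n) → V} {U W : Set (CE (Fin n))} (hΦ : X.IsHol Φ U) (hΨ : X.IsHol Ψ W) {a b : ℝ}
    (ha : 0 < a) (hb : 0 ≤ b) {z : CE (Fin n)} (hz : z ∈ U ∩ Φ ⁻¹' (Ψ '' W)) (hup : leM (α Φ z) (cI b))
    (hlow : leM (cI a) (α Ψ ((Function.invFunOn Ψ W ∘ Φ) z))) :
    ‖fderiv ℝ (Function.invFunOn Ψ W ∘ Φ) z‖ ^ 2 ≤ b / a := by
  rw [(CMfd.trans_hasFDerivAt_real hΦ hΨ hz).fderiv, ContinuousLinearMap.norm_restrictScalars]
  set τ := Function.invFunOn Ψ W ∘ Φ with hτ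
  set T := fderiv ℂ τ z with hT
  have key : ∀ v : CE (Fin n), a * ‖T v‖ ^ 2 ≤ b * ‖v‖ ^ 2 := by
    intro v
    have h1 : (jac τ z).mulVec (fun j => v j) = fun k => T v k := funext fun k => jac_mulVec τ v k
    have h2 := hα.toIsHForm.compat hΦ hΨ z hz.1 hz.2
    calc a * ‖T v‖ ^ 2 = qf (cI a) (fun k => T v k) := (qf_cI_eq a (T v)).symm
      _ ≤ qf (α Ψ (τ z)) (fun k => T v k) := qf_mono hlow _
      _ = qf (α Φ z) (fun j => v j) := by
          rw [h2, qf_conj, h1]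
          rfl
      _ ≤ qf (cI b) (fun j => v j) := qf_mono hup _
      _ = b * ‖v‖ ^ 2 := qf_cI_eq b v
  have hba : 0 ≤ b / a := by positivity
  have h3 : ‖T‖ ≤ Real.sqrt (b / a) := by
    refine T.opNorm_le_bound (Real.sqrt_nonneg _) fun v => ?_
    rw [← Real.sqrt_sq (norm_nonneg v), ← Real.sqrt_mul hba]
    refine Real.le_sqrt_of_sq_le ?_
    rw [div_mul_eq_mul_div, le_div_iff₀ ha]
    linarith [key v]
  calc ‖T‖ ^ 2 ≤ Real.sqrt (b / a) ^ 2 := by gcongr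
    _ = b / a := Real.sq_sqrt hba

theorem affine_mem_ball {ρ R r : ℝ} (hρ : 0 < ρ) {z₀ : CE (Fin n)} (hR : ‖z₀‖ + ρ * R ≤ r)
    {z : CE (Fin n)} (hz : z ∈ ball (0 : CE (Fin n)) R) : z₀ + ρ • z ∈ ball (0 : CE (Fin n)) r := by
  rw [mem_ball_zero_iff] at hz ⊢
  calc ‖z₀ + ρ • z‖ ≤ ‖z₀‖ + ‖ρ • z‖ := norm_add_le _ _
    _ = ‖z₀‖ + ρ * ‖z‖ := by rw [norm_smul, Real.norm_eq_abs, abs_of_pos hρ]
    _ < ‖z₀‖ + ρ * R := by gcongr
    _ ≤ r := hR

/-- a Hermitian form in a translated and rescaled parametrisation. -/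
theorem hform_affine_eq {X : CMfd V (Fin n)} {r : ℝ} {Φ : CE (Fin n) → V}
    (hΦ : X.IsHol Φ (ball (0 : CE (Fin n)) r)) {ρ R : ℝ} (hρ : 0 < ρ)
    {z₀ : CE (Fin n)} (hR : ‖z₀‖ + ρ * R ≤ r) :
    X.IsHol (fun z => Φ (z₀ + ρ • z)) (ball (0 : CE (Fin n)) R) ∧
    ∀ (β : HFam V (Fin n)), IsHForm X β → ∀ z ∈ ball (0 : CE (Fin n)) R,
      β (fun z => Φ (z₀ + ρ • z)) z = ((ρ ^ 2 : ℝ) : ℂ) • β Φ (z₀ + ρ • z) := by
  set τ : CE (Fin n) → CE (Fin n) := fun z => z₀ + ρ • z with hτ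
  have hd : ∀ z, HasFDerivAt τ (ρ • ContinuousLinearMap.id ℂ (CE (Fin n))) z := fun z =>
    ((hasFDerivAt_id z).const_smul ρ).const_add z₀
  have hmaps : MapsTo τ (ball (0 : CE (Fin n)) R) (ball (0 : CE (Fin n)) r) :=
    fun z hz => affine_mem_ball hρ hR hz
  have hH : X.IsHol (fun z => Φ (z₀ + ρ • z)) (ball (0 : CE (Fin n)) R) := by
    refine X.reparam hΦ τ _ isOpen_ball (fun z _ => (hd z).differentiableAt.differentiableWithinAt)
      ?_ ?_ hmaps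
    · intro z _ w _ h
      have h1 : ρ • z = ρ • w := add_left_cancel h
      exact smul_right_injective _ hρ.ne' h1
    · intro z _
      rw [(hd z).fderiv]
      intro v w h
      exact smul_right_injective _ hρ.ne' h
  refine ⟨hH, fun β hβ z hz => ?_⟩
  have hmem : (fun z => Φ (z₀ + ρ • z)) z ∈ Φ '' ball (0 : CE (Fin n)) r := ⟨τ z, hmaps hz, rfl⟩
  have h1 := hβ.compat hH hΦ z hz hmem
  have h2 : (Function.invFunOn Φ (ball (0 : CE (Fin n)) r) ∘ fun z => Φ (z₀ + ρ • z)) =ᶠ[𝓝 z] τ := by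
    filter_upwards [isOpen_ball.mem_nhds hz] with w hw
    exact CMfd.trans_eq hH hΦ (hmaps hw) rfl
  have h3 : jac τ z = ((ρ : ℝ) : ℂ) • (1 : Matrix (Fin n) (Fin n) ℂ) := by
    ext j k
    show fderiv ℂ τ z (eb k) j = _
    rw [(hd z).fderiv]
    simp [eb_apply, Matrix.one_apply]
  have h4 : Function.invFunOn Φ (ball (0 : CE (Fin n)) r) (Φ (z₀ + ρ • z)) = z₀ + ρ • z :=
    h2.self_of_nhds
  rw [h1, jac_congr h2, h3, h4]
  rw [Matrix.conjTranspose_smul, Matrix.conjTranspose_one, Matrix.smul_mul, Matrix.one_mul,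
    Matrix.mul_smul, Matrix.mul_one, smul_smul]
  congr 1
  simp [sq]

theorem norm_iteratedFDeriv_comp_smul_le {E F : Type} [NormedAddCommGroup E] [NormedSpace ℝ E]
    [NormedAddCommGroup F] [NormedSpace ℝ F] (f : E → F) {ρ : ℝ} (hρ : 0 < ρ) (k : ℕ) (z : E) :
    ‖iteratedFDeriv ℝ k (fun y => f (ρ • y)) z‖ ≤ ρ ^ k * ‖iteratedFDeriv ℝ k f (ρ • z)‖ := by
  set g : E ≃L[ℝ] E := ContinuousLinearEquiv.smulLeft (Units.mk0 ρ hρ.ne') with hg
  have hgv : ∀ y, g y = ρ • y := fun y => rfl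
  have h1 := g.iteratedFDerivWithin_comp_right f uniqueDiffOn_univ (mem_univ (g z)) k
  simp only [preimage_univ, iteratedFDerivWithin_univ] at h1
  have h2 : (fun y => f (ρ • y)) = f ∘ g := rfl
  rw [h2, h1, hgv]
  refine (ContinuousMultilinearMap.norm_compContinuousLinearMap_le _ _).trans ?_
  have h3 : ‖(g : E →L[ℝ] E)‖ ≤ ρ := by
    refine ContinuousLinearMap.opNorm_le_bound _ hρ.le fun v => ?_
    show ‖ρ • v‖ ≤ _
    rw [norm_smul, Real.norm_eq_abs, abs_of_pos hρ]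
  rw [Finset.prod_const, Finset.card_univ, Fintype.card_fin, mul_comm]
  gcongr

/-- the metric in a rescaled chart. -/
theorem UChart.rescale_eq {X : CMfd V (Fin n)} {α : HFam V (Fin n)} (hα : IsMetric X α) {r Λ : ℝ}
    {Ck : ℕ → ℝ} {Φ : CE (Fin n) → V} (hΦ : UChart X α r Λ Ck Φ) {ρ R : ℝ} (hρ : 0 < ρ)
    (hR : ρ * R ≤ r) : X.IsHol (fun z => Φ (ρ • z)) (ball (0 : CE (Fin n)) R) ∧
    ∀ (β : HFam V (Fin n)), IsHForm X β → ∀ z ∈ ball (0 : CE (Fin n)) R,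
      β (fun z => Φ (ρ • z)) z = ((ρ ^ 2 : ℝ) : ℂ) • β Φ (ρ • z) := by
  have h := hform_affine_eq hΦ.isHol hρ (z₀ := 0) (R := R) (by rw [norm_zero, zero_add]; exact hR)
  simpa only [zero_add] using h

theorem leM_cI_of_le {a b : ℝ} (h : a ≤ b) : leM (cI a : Matrix (Fin n) (Fin n) ℂ) (cI b) := by
  unfold leM cI
  rw [← sub_smul, ← Complex.ofReal_sub]
  exact Matrix.PosSemidef.one.smul (by exact_mod_cast sub_nonneg.2 h)

theorem leM_trans' {A B C : Matrix (Fin n) (Fin n) ℂ} (h1 : leM A B) (h2 : leM B C) : leM A C := by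
  unfold leM at *
  have := h1.add h2
  rwa [add_comm, sub_add_sub_cancel] at this

theorem leM_smul' {A B : Matrix (Fin n) (Fin n) ℂ} (h : leM A B) {c : ℝ} (hc : 0 ≤ c) :
    leM (((c : ℝ) : ℂ) • A) (((c : ℝ) : ℂ) • B) := by
  unfold leM at *
  rw [← smul_sub]
  exact h.smul (by exact_mod_cast hc)

theorem smul_cI' (c a : ℝ) : ((c : ℝ) : ℂ) • (cI a : Matrix (Fin n) (Fin n) ℂ) = cI (c * a) := by
  unfold cI
  rw [smul_smul, Complex.ofReal_mul]

/-- rescaling of a uniform chart. -/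
theorem UChart.rescale {X : CMfd V (Fin n)} {α : HFam V (Fin n)} (hα : IsMetric X α) {r Λ : ℝ}
    {Ck : ℕ → ℝ} (hΛ : 0 < Λ) {Φ : CE (Fin n) → V} (hΦ : UChart X α r Λ Ck Φ) {ρ R : ℝ} (hρ : 0 < ρ)
    (hR : ρ * R ≤ r) :
    UChart X α R (Λ * max (ρ ^ 2) (ρ ^ 2)⁻¹) (fun k => ρ ^ (k + 2) * Ck k) (fun z => Φ (ρ • z)) := by
  obtain ⟨hH, heq⟩ := UChart.rescale_eq hα hΦ hρ hR
  have hmem : ∀ z ∈ ball (0 : CE (Fin n)) R, ρ • z ∈ ball (0 : CE (Fin n)) r := by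
    intro z hz
    have := affine_mem_ball hρ (z₀ := 0) (R := R) (r := r) (by rw [norm_zero, zero_add]; exact hR) hz
    rwa [zero_add] at this
  have hρ2 : 0 < ρ ^ 2 := by positivity
  refine ⟨hH, fun z hz => ?_, fun z hz => ?_, fun k j l z hz => ?_⟩
  · rw [heq α hα.toIsHForm z hz]
    refine leM_trans' (leM_cI_of_le ?_) (?_ : leM (cI (ρ ^ 2 * Λ⁻¹)) _)
    · rw [mul_inv, mul_comm]
      gcongr
      rw [inv_le_comm₀ (lt_max_of_lt_left hρ2) hρ2]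
      exact le_max_right _ _
    · rw [← smul_cI']
      exact leM_smul' (hΦ.lower _ (hmem z hz)) hρ2.le
  · rw [heq α hα.toIsHForm z hz]
    refine leM_trans' (?_ : leM _ (cI (ρ ^ 2 * Λ))) (leM_cI_of_le ?_)
    · rw [← smul_cI']
      exact leM_smul' (hΦ.upper _ (hmem z hz)) hρ2.le
    · rw [mul_comm]
      gcongr
      exact le_max_left _ _
  · have h1 : (fun y => α (fun z => Φ (ρ • z)) y j l)
        =ᶠ[𝓝 z] fun y => (fun w => ((ρ ^ 2 : ℝ) : ℂ) • α Φ w j l) (ρ • y) := by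
      filter_upwards [isOpen_ball.mem_nhds hz] with y hy
      rw [heq α hα.toIsHForm y hy]
      rfl
    rw [(Filter.EventuallyEq.iteratedFDeriv ℝ h1 k).self_of_nhds]
    refine (norm_iteratedFDeriv_comp_smul_le (fun w => ((ρ ^ 2 : ℝ) : ℂ) • α Φ w j l) hρ k z).trans ?_
    have h2 : ContDiffAt ℝ k (fun w => α Φ w j l) (ρ • z) :=
      ((hα.smooth hΦ.isHol j l).contDiffAt (isOpen_ball.mem_nhds (hmem z hz))).of_le
        (by exact_mod_cast le_top)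
    rw [iteratedFDeriv_const_smul_apply' h2, norm_smul, Complex.norm_real, Real.norm_eq_abs,
      abs_of_pos hρ2, pow_add, mul_assoc]
    gcongr
    exact hΦ.deriv k j l _ (hmem z hz)

/-- the metric in a translated and rescaled chart. -/
theorem UChart.affine_eq {X : CMfd V (Fin n)} {α : HFam V (Fin n)} (hα : IsMetric X α) {r Λ : ℝ}
    {Ck : ℕ → ℝ} {Φ : CE (Fin n) → V} (hΦ : UChart X α r Λ Ck Φ) {ρ R : ℝ} (hρ : 0 < ρ)
    {z₀ : CE (Fin n)} (hR : ‖z₀‖ + ρ * R ≤ r) :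
    X.IsHol (fun z => Φ (z₀ + ρ • z)) (ball (0 : CE (Fin n)) R) ∧
    ∀ (β : HFam V (Fin n)), IsHForm X β → ∀ z ∈ ball (0 : CE (Fin n)) R,
      β (fun z => Φ (z₀ + ρ • z)) z = ((ρ ^ 2 : ℝ) : ℂ) • β Φ (z₀ + ρ • z) :=
  hform_affine_eq hΦ.isHol hρ hR

/-- bounded geometry gives big charts with controlled transitions: all translated (centre in the half ball) and rescaled distinguished charts. -/
theorem exists_preatlas {X : CMfd V (Fin n)} {α : HFam V (Fin n)} (hα : IsMetric X α)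
    (G : BddGeom X α) : ∃ (B : PreAtlas V (CE (Fin n))) (ρ : ℝ), B.X = X.carrier ∧ 0 < ρ ∧
      ρ * B.R ≤ G.r / 2 ∧
      (∀ k ∈ B.D, ∃ Φ : CE (Fin n) → V, G.IsCh Φ ∧ B.Ψ k = fun z => Φ (ρ • z)) ∧
      ∀ Φ : CE (Fin n) → V, G.IsCh Φ → ∀ z₀ ∈ ball (0 : CE (Fin n)) (G.r / 2),
        ∃ k, B.Ψ k = fun z => Φ (z₀ + ρ • z) := by
  have hΛ := G.Λ_pos
  have hr := G.r_pos
  set R : ℝ := 4 + 7 * G.Λ with hRdef
  have hRpos : 0 < R := by positivity
  set ρ : ℝ := G.r / (2 * R) with hρdef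
  have hρ : 0 < ρ := by positivity
  have hρR : ρ * R = G.r / 2 := by
    rw [hρdef]
    field_simp
  have hρ2 : 0 < ρ ^ 2 := by positivity
  let κ : Type := {p : (CE (Fin n) → V) × CE (Fin n) // G.IsCh p.1 ∧ p.2 ∈ ball (0 : CE (Fin n)) (G.r / 2)}
  let Ψ : κ → CE (Fin n) → V := fun p z => p.1.1 (p.1.2 + ρ • z)
  have hle : ∀ p : κ, ‖p.1.2‖ + ρ * R ≤ G.r := by
    intro p
    have := mem_ball_zero_iff.1 p.2.2
    rw [hρR]
    linarith
  have hH : ∀ p : κ, X.IsHol (Ψ p) (ball (0 : CE (Fin n)) R) := fun p =>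
    (hform_affine_eq (G.uchart _ p.2.1).isHol hρ (hle p)).1
  have hE : ∀ p : κ, ∀ z ∈ ball (0 : CE (Fin n)) R,
      α (Ψ p) z = ((ρ ^ 2 : ℝ) : ℂ) • α p.1.1 (p.1.2 + ρ • z) := fun p =>
    (hform_affine_eq (G.uchart _ p.2.1).isHol hρ (hle p)).2 α hα.toIsHForm
  choose Cc hCc0 hCc using fun m => exists_cauchy_const (E := CE (Fin n)) m 1 one_pos
  refine ⟨{ X := X.carrier, κ := κ, D := {p | p.1.2 = 0}, Ψ := Ψ, R := R, L := G.Λ,
            C := fun m => Cc m * R, centre := ?_, maps := ?_, inj := ?_, cont := ?_, ov_open := ?_,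
            smooth := ?_, lip := ?_, bound := ?_, L_pos := hΛ, R_large := le_rfl }, ρ, rfl, hρ,
            hρR.le, ?_, ?_⟩
  · intro x hx
    obtain ⟨Φ, hΦ, h0⟩ := G.chart x hx
    refine ⟨⟨(Φ, 0), hΦ, mem_ball_self (by positivity)⟩, rfl, ?_⟩
    show Φ (0 + ρ • (0 : CE (Fin n))) = x
    rw [smul_zero, add_zero, h0]
  · exact fun k z hz => CMfd.mem_carrier (hH k) hz
  · exact fun k => (X.isParam (hH k)).injOn
  · exact fun k => (X.isParam (hH k)).smooth.continuousOn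
  · exact fun k l => CMfd.isOpen_overlap (hH k) (hH l)
  · exact fun k l => CMfd.trans_contDiffOn (hH k) (hH l)
  · intro k l z hz
    have hz' : z ∈ ball (0 : CE (Fin n)) R ∩ Ψ k ⁻¹' (Ψ l '' ball (0 : CE (Fin n)) R) := hz
    have h1 : leM (α (Ψ k) z) (cI (ρ ^ 2 * G.Λ)) := by
      rw [hE k z hz'.1, ← smul_cI']
      exact leM_smul' ((G.uchart _ k.2.1).upper _ (affine_mem_ball hρ (hle k) hz'.1)) hρ2.le
    have hm := CMfd.trans_mem (hH k) (hH l) hz'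
    have h2 : leM (cI (ρ ^ 2 * G.Λ⁻¹))
        (α (Ψ l) ((Function.invFunOn (Ψ l) (ball (0 : CE (Fin n)) R) ∘ Ψ k) z)) := by
      rw [hE l _ hm, ← smul_cI']
      exact leM_smul' ((G.uchart _ l.2.1).lower _ (affine_mem_ball hρ (hle l) hm)) hρ2.le
    have h3 := norm_fderiv_trans_sq_le hα (hH k) (hH l) (by positivity) (by positivity) hz' h1 h2
    have h4 : ρ ^ 2 * G.Λ / (ρ ^ 2 * G.Λ⁻¹) = G.Λ ^ 2 := by
      field_simp
    rw [h4] at h3
    exact (pow_le_pow_iff_left₀ (norm_nonneg _) hΛ.le two_ne_zero).1 h3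
  · intro k l m z hz
    have hz' : ball z 1 ⊆ ball (0 : CE (Fin n)) R ∩ Ψ k ⁻¹' (Ψ l '' ball (0 : CE (Fin n)) R) := hz
    refine hCc m _ _ z R ((X.compat (hH k) (hH l)).mono hz') fun w hw => ?_
    exact (mem_ball_zero_iff.1 (CMfd.trans_mem (hH k) (hH l) (hz' hw))).le
  · intro k hk
    refine ⟨k.1.1, k.2.1, ?_⟩
    have hk' : k.1.2 = 0 := hk
    funext z
    show k.1.1 (k.1.2 + ρ • z) = _
    rw [hk', zero_add]
  · intro Φ hΦ z₀ hz₀
    exact ⟨⟨(Φ, z₀), hΦ, hz₀⟩, rfl⟩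

/-- a uniform atlas adapted to a bounded geometry structure: its charts are rescaled distinguished charts, and every distinguished chart is, near every point of its
half ball, a chart of the atlas composed with a transition with bounded derivatives. -/
structure GAtlas {X : CMfd V (Fin n)} {α : HFam V (Fin n)} (G : BddGeom X α)
    (A : UAtlas V (CE (Fin n))) (ρ ρ₁ : ℝ) (Ct : ℕ → ℝ) : Prop where
  carrier : A.X = X.carrier
  ρ_pos : 0 < ρ
  ρ_le : 4 * ρ ≤ G.r / 2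
  ρ₁_pos : 0 < ρ₁
  ρ₁_le : ρ₁ ≤ 1
  chart : ∀ i, ∃ Φ : CE (Fin n) → V, G.IsCh Φ ∧ A.Φ i = fun z => Φ (ρ • z)
  transfer : ∀ Φ : CE (Fin n) → V, G.IsCh Φ → ∀ z₀ ∈ ball (0 : CE (Fin n)) (G.r / 2),
    ∃ (i : A.ι) (τ : CE (Fin n) → CE (Fin n)), ContDiffOn ℝ ∞ τ (ball (0 : CE (Fin n)) 1) ∧
      (∀ z ∈ ball (0 : CE (Fin n)) ρ₁, τ z ∈ ball (0 : CE (Fin n)) 2 ∧
        A.Φ i (τ z) = Φ (z₀ + ρ • z)) ∧
      ∀ m, ∀ z ∈ ball (0 : CE (Fin n)) 1, ‖iteratedFDeriv ℝ m τ z‖ ≤ Ct m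

/-- **M1**. -/
theorem exists_gatlas {X : CMfd V (Fin n)} {α : HFam V (Fin n)} (hα : IsMetric X α)
    (G : BddGeom X α) : ∃ (A : UAtlas V (CE (Fin n))) (ρ ρ₁ : ℝ) (Ct : ℕ → ℝ),
      GAtlas G A ρ ρ₁ Ct := by
  obtain ⟨B, ρ, hX, hρ, hR, hD, hall⟩ := exists_preatlas hα G
  obtain ⟨A, hA, hΦ, htr⟩ := B.exists_uatlas
  have hL := B.L_pos
  have hRl := B.R_large
  refine ⟨A, ρ, min 1 (1 / B.L), B.C, hA.trans hX, hρ, ?_, lt_min one_pos (by positivity),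
    min_le_left _ _, ?_, ?_⟩
  · have : 4 * ρ ≤ ρ * B.R := by nlinarith
    linarith
  · intro i
    obtain ⟨k, hk, hi⟩ := hΦ i
    obtain ⟨Φ, hΦ', hk'⟩ := hD k hk
    exact ⟨Φ, hΦ', hi.trans hk'⟩
  · intro Φ hΦ' z₀ hz₀
    obtain ⟨k, hk⟩ := hall Φ hΦ' z₀ hz₀
    obtain ⟨i, τ, h1, h2, h3⟩ := htr k
    refine ⟨i, τ, h1, fun z hz => ?_, h3⟩
    have := h2 z hz
    rw [hk] at this
    exact this

/-- the charts of an adapted atlas are uniform charts. -/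
theorem GAtlas.uchart {X : CMfd V (Fin n)} {α : HFam V (Fin n)} (hα : IsMetric X α)
    {G : BddGeom X α} {A : UAtlas V (CE (Fin n))} {ρ ρ₁ : ℝ} {Ct : ℕ → ℝ}
    (hA : GAtlas G A ρ ρ₁ Ct) (i : A.ι) :
    UChart X α 3 (G.Λ * max (ρ ^ 2) (ρ ^ 2)⁻¹) (fun k => ρ ^ (k + 2) * G.Ck k) (A.Φ i) := by
  obtain ⟨Φ, hΦ, hi⟩ := hA.chart i
  rw [hi]
  refine UChart.rescale hα G.Λ_pos (G.uchart Φ hΦ) hA.ρ_pos ?_
  have h1 := hA.ρ_le
  have h2 := hA.ρ_pos
  have h3 := G.r_pos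
  linarith

/-- **M1**: a manifold of bounded geometry has a uniformly locally finite atlas of uniform holomorphic charts. -/
theorem exists_uatlas_of_bddGeom {X : CMfd V (Fin n)} {α : HFam V (Fin n)} (hα : IsMetric X α)
    (G : BddGeom X α) : ∃ (A : UAtlas V (CE (Fin n))) (Λ' : ℝ) (Ck' : ℕ → ℝ), A.X = X.carrier ∧
      0 < Λ' ∧ ∀ i, UChart X α 3 Λ' Ck' (A.Φ i) := by
  obtain ⟨A, ρ, ρ₁, Ct, hA⟩ := exists_gatlas hα G
  have h2 := hA.ρ_pos
  exact ⟨A, _, _, hA.carrier, mul_pos G.Λ_pos (lt_max_of_lt_left (by positivity)),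
    fun i => hA.uchart hα i⟩

end Claimed.Agent.R316.B8M
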