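import Claimed.Agent.R316.Pack014_2
import Claimed.Agent.R316.Pack001

/-!
# B8M-BASIC: elementary facts on a uniform atlas, jets under transitions, gluing

PROVED (helper111).

Hints.
* everything about `dom`, `tr` follows from `A.inj`, `A.tr_mem`, `A.tr_eq` (unfold `UAtlas.dom`, `domOf`).
* `tr_lip`: `ball z μ ∩ ball 0 3` is convex and contained in `A.dom i j` (`A.margin`); mean value inequality
  `Convex.norm_image_sub_le_of_norm_fderiv_le` (or `..._fderivWithin_le`) with `norm_fderiv_tr_le`.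
* `norm_fderiv_tr_le` etc.: `norm_iteratedFDeriv_one`, `norm_iteratedFDeriv_fderiv`, `norm_fderiv_iteratedFDeriv`;
  note `iteratedFDeriv` of `fderiv ℝ (A.tr i j)` only depends on the germ.
* `isOpen_off`: `Φ j '' closedBall 0 s` is compact (`A.cont`), hence closed in `V`; the set is
  `ball 0 3 ∩ (Φ i)⁻¹ (Φ j '' closedBall 0 s)ᶜ` (`ContinuousOn.isOpen_inter_preimage`).
* `jet_comp`: `fderiv_comp`; `fderiv ℝ (w ∘ τ) =ᶠ[𝓝 z] fun y => (fderiv ℝ w (τ y)) ∘L (fderiv ℝ τ y)`, then the product rule for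
  `ContinuousLinearMap.comp` (`HasFDerivAt.clm_comp`); `ext` on vectors.
* `rep_glue`: the chosen chart `k`, coordinate `y ∈ ball 0 1` of `x = Φ i z` satisfy `z ∈ A.dom i k`, `A.tr i k z = y` (`tr_unique`).
-/

set_option autoImplicit false
set_option maxSynthPendingDepth 3
set_option linter.unusedSectionVars false

open scoped Topology ContDiff
open Set Filter Metric

namespace Claimed.Agent.R316.B8M

open Claimed.Agent.R316.B8

variable {V E : Type} [NormedAddCommGroup V] [NormedSpace ℝ V]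
  [NormedAddCommGroup E] [NormedSpace ℝ E]

/-! ### jets under composition -/

theorem pullJ_apply (L : E →L[ℝ] E) (Q : E →L[ℝ] E →L[ℝ] E) (J : Jet E) (v w : E) :
    (pullJ L Q J).2.2 v w = J.2.2 (L v) (L w) + J.2.1 (Q v w) := by
  simp [pullJ]

theorem pullJ_add (L : E →L[ℝ] E) (Q : E →L[ℝ] E →L[ℝ] E) (J J' : Jet E) :
    pullJ L Q (J + J') = pullJ L Q J + pullJ L Q J' := by
  refine Prod.ext rfl (Prod.ext ?_ ?_)
  · ext v; simp [pullJ]
  · ext v w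
    simp only [Prod.snd_add, Prod.fst_add, add_apply, pullJ_apply]
    ring

theorem pullJ_smul (L : E →L[ℝ] E) (Q : E →L[ℝ] E →L[ℝ] E) (c : ℝ) (J : Jet E) :
    pullJ L Q (c • J) = c • pullJ L Q J := by
  refine Prod.ext rfl (Prod.ext ?_ ?_)
  · ext v; simp [pullJ]
  · ext v w
    simp only [Prod.smul_snd, Prod.smul_fst, smul_apply, pullJ_apply, smul_eq_mul]
    ring

theorem pullJ_zero (L : E →L[ℝ] E) (Q : E →L[ℝ] E →L[ℝ] E) : pullJ L Q (0 : Jet E) = 0 := by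
  have := pullJ_smul L Q 0 (0 : Jet E)
  simpa using this

theorem pullJ_sub (L : E →L[ℝ] E) (Q : E →L[ℝ] E →L[ℝ] E) (J J' : Jet E) :
    pullJ L Q (J - J') = pullJ L Q J - pullJ L Q J' := by
  have h := pullJ_add L Q J ((-1 : ℝ) • J')
  rw [pullJ_smul] at h
  simpa [sub_eq_add_neg] using h

theorem norm_pullJ_le (L : E →L[ℝ] E) (Q : E →L[ℝ] E →L[ℝ] E) (J : Jet E) :
    ‖pullJ L Q J‖ ≤ (1 + ‖L‖ + ‖L‖ ^ 2 + ‖Q‖) * ‖J‖ := by
  have h0 : ‖J.1‖ ≤ ‖J‖ := norm_fst_le J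
  have h1 : ‖J.2.1‖ ≤ ‖J‖ := (norm_fst_le J.2).trans (norm_snd_le J)
  have h2 : ‖J.2.2‖ ≤ ‖J‖ := (norm_snd_le J.2).trans (norm_snd_le J)
  have hL := norm_nonneg L
  have hQ := norm_nonneg Q
  have hJ := norm_nonneg J
  rw [Prod.norm_def, Prod.norm_def]
  refine max_le ?_ (max_le ?_ ?_)
  · show ‖J.1‖ ≤ _
    nlinarith [mul_nonneg hL hJ, mul_nonneg (sq_nonneg ‖L‖) hJ, mul_nonneg hQ hJ]
  · show ‖J.2.1 ∘L L‖ ≤ _
    have := ContinuousLinearMap.opNorm_comp_le J.2.1 L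
    nlinarith [mul_nonneg hL hJ, mul_nonneg (sq_nonneg ‖L‖) hJ, mul_nonneg hQ hJ,
      mul_le_mul_of_nonneg_right h1 hL]
  · refine ContinuousLinearMap.opNorm_le_bound _ (by positivity) fun v => ?_
    refine ContinuousLinearMap.opNorm_le_bound _ (by positivity) fun w => ?_
    rw [pullJ_apply]
    have e1 : ‖J.2.2 (L v) (L w)‖ ≤ ‖J‖ * (‖L‖ * ‖v‖) * (‖L‖ * ‖w‖) := by
      refine (ContinuousLinearMap.le_opNorm₂ _ _ _).trans ?_
      gcongr
      · exact L.le_opNorm v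
      · exact L.le_opNorm w
    have e2 : ‖J.2.1 (Q v w)‖ ≤ ‖J‖ * (‖Q‖ * ‖v‖ * ‖w‖) := by
      refine (ContinuousLinearMap.le_opNorm _ _).trans ?_
      gcongr
      exact ContinuousLinearMap.le_opNorm₂ _ _ _
    have hvw : 0 ≤ ‖v‖ * ‖w‖ := by positivity
    calc ‖J.2.2 (L v) (L w) + J.2.1 (Q v w)‖ ≤ ‖J‖ * (‖L‖ * ‖v‖) * (‖L‖ * ‖w‖)
          + ‖J‖ * (‖Q‖ * ‖v‖ * ‖w‖) := (norm_add_le _ _).trans (add_le_add e1 e2)
      _ = (‖L‖ ^ 2 + ‖Q‖) * ‖J‖ * (‖v‖ * ‖w‖) := by ring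
      _ ≤ (1 + ‖L‖ + ‖L‖ ^ 2 + ‖Q‖) * ‖J‖ * (‖v‖ * ‖w‖) := by gcongr; linarith
      _ = (1 + ‖L‖ + ‖L‖ ^ 2 + ‖Q‖) * ‖J‖ * ‖v‖ * ‖w‖ := by ring

/-- `pullJ` as a continuous linear map. -/
theorem exists_pullJ_clm (L : E →L[ℝ] E) (Q : E →L[ℝ] E →L[ℝ] E) :
    ∃ T : Jet E →L[ℝ] Jet E, ∀ J, T J = pullJ L Q J := by
  refine ⟨LinearMap.mkContinuous ⟨⟨pullJ L Q, pullJ_add L Q⟩, pullJ_smul L Q⟩
    (1 + ‖L‖ + ‖L‖ ^ 2 + ‖Q‖) (norm_pullJ_le L Q), fun J => rfl⟩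

/-- pure second order jets: `pullJ (0,0,ξ ⊗ ξ) = (0,0,(ξ∘L) ⊗ (ξ∘L))`. -/
theorem pullJ_topJ_sqB (L : E →L[ℝ] E) (Q : E →L[ℝ] E →L[ℝ] E) (ξ : E →L[ℝ] ℝ) :
    pullJ L Q (topJ (sqB ξ)) = topJ (sqB (ξ ∘L L)) := by
  refine Prod.ext rfl (Prod.ext ?_ ?_)
  · ext v; simp [pullJ, topJ]
  · ext v w
    rw [pullJ_apply]
    simp [topJ, sqB]

/-- jets only depend on the germ. -/
theorem jet_congr_nhds {u v : ℝ → E → ℝ} {t : ℝ} {z : E} (h : u t =ᶠ[𝓝 z] v t) :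
    jet u t z = jet v t z := by
  have h1 : fderiv ℝ (u t) =ᶠ[𝓝 z] fderiv ℝ (v t) := h.fderiv
  simp only [jet, D1, D2]
  rw [h.eq_of_nhds, h1.eq_of_nhds, h1.fderiv_eq]

/-- **chain rule for 2-jets**. -/
theorem jet_comp {τ : E → E} {w : ℝ → E → ℝ} {t : ℝ} {z : E} (hτ : ContDiffAt ℝ 2 τ z)
    (hw : ContDiffAt ℝ 2 (w t) (τ z)) :
    jet (fun t y => w t (τ y)) t z
      = pullJ (fderiv ℝ τ z) (fderiv ℝ (fderiv ℝ τ) z) (jet w t (τ z)) := by
  have hτd : ∀ᶠ y in 𝓝 z, DifferentiableAt ℝ τ y := by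
    have := hτ.eventually (by simp)
    exact this.mono fun y hy => hy.differentiableAt (by norm_num)
  have hwd : ∀ᶠ y in 𝓝 (τ z), DifferentiableAt ℝ (w t) y := by
    have := hw.eventually (by simp)
    exact this.mono fun y hy => hy.differentiableAt (by norm_num)
  have hwd' : ∀ᶠ y in 𝓝 z, DifferentiableAt ℝ (w t) (τ y) := hτ.continuousAt.eventually hwd
  have he : fderiv ℝ (fun y => w t (τ y)) =ᶠ[𝓝 z]
      fun y => (fderiv ℝ (w t) (τ y)) ∘L (fderiv ℝ τ y) := by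
    filter_upwards [hτd, hwd'] with y h1 h2
    exact fderiv_comp y h2 h1
  have hτ1 : DifferentiableAt ℝ (fderiv ℝ τ) z :=
    (hτ.fderiv_right (m := 1) (by norm_num)).differentiableAt (by norm_num)
  have hw1 : DifferentiableAt ℝ (fderiv ℝ (w t)) (τ z) :=
    (hw.fderiv_right (m := 1) (by norm_num)).differentiableAt (by norm_num)
  have hτ0 : DifferentiableAt ℝ τ z := hτ.differentiableAt (by norm_num)
  refine Prod.ext rfl (Prod.ext ?_ ?_)
  · show fderiv ℝ (fun y => w t (τ y)) z = _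
    exact he.eq_of_nhds
  · show fderiv ℝ (fderiv ℝ (fun y => w t (τ y))) z = _
    rw [he.fderiv_eq]
    have h1 : HasFDerivAt (fun y => fderiv ℝ (w t) (τ y))
        ((fderiv ℝ (fderiv ℝ (w t)) (τ z)) ∘L (fderiv ℝ τ z)) z :=
      hw1.hasFDerivAt.comp z hτ0.hasFDerivAt
    have h2 := h1.clm_comp hτ1.hasFDerivAt
    rw [h2.fderiv]
    ext v v'
    rw [pullJ_apply]
    simp [jet, D1, D2]
    ring


namespace UAtlas

variable (A : UAtlas V E)

/-! ### domains and transitions -/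

theorem dom_subset (i j : A.ι) : A.dom i j ⊆ ball (0 : E) 3 := fun _ hz => hz.1

theorem isOpen_dom (i j : A.ι) : IsOpen (A.dom i j) := A.dom_open i j

theorem mem_dom_iff {i j : A.ι} {z : E} :
    z ∈ A.dom i j ↔ z ∈ ball (0 : E) 3 ∧ ∃ w ∈ ball (0 : E) 3, A.Φ j w = A.Φ i z := Iff.rfl

theorem tr_mem_ball {i j : A.ι} {z : E} (hz : z ∈ A.dom i j) : A.tr i j z ∈ ball (0 : E) 3 :=
  A.tr_mem i j z hz

theorem Φ_tr {i j : A.ι} {z : E} (hz : z ∈ A.dom i j) : A.Φ j (A.tr i j z) = A.Φ i z :=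
  A.tr_eq i j z hz

theorem tr_unique {i j : A.ι} {z w : E} (hz : z ∈ ball (0 : E) 3) (hw : w ∈ ball (0 : E) 3)
    (h : A.Φ j w = A.Φ i z) : z ∈ A.dom i j ∧ A.tr i j z = w := by
  have hd : z ∈ A.dom i j := ⟨hz, w, hw, h⟩
  exact ⟨hd, A.inj j (A.tr_mem_ball hd) hw ((A.Φ_tr hd).trans h.symm)⟩

theorem mem_dom_self {i : A.ι} {z : E} (hz : z ∈ ball (0 : E) 3) : z ∈ A.dom i i :=
  ⟨hz, z, hz, rfl⟩

theorem tr_self {i : A.ι} {z : E} (hz : z ∈ ball (0 : E) 3) : A.tr i i z = z :=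
  (A.tr_unique hz hz rfl).2

theorem tr_mem_dom {i j : A.ι} {z : E} (hz : z ∈ A.dom i j) : A.tr i j z ∈ A.dom j i :=
  (A.tr_unique (A.tr_mem_ball hz) hz.1 (A.Φ_tr hz).symm).1

theorem tr_tr {i j : A.ι} {z : E} (hz : z ∈ A.dom i j) : A.tr j i (A.tr i j z) = z :=
  (A.tr_unique (A.tr_mem_ball hz) hz.1 (A.Φ_tr hz).symm).2

theorem tr_cocycle {i j k : A.ι} {z : E} (hz : z ∈ A.dom i j) (hz' : A.tr i j z ∈ A.dom j k) :
    z ∈ A.dom i k ∧ A.tr i k z = A.tr j k (A.tr i j z) :=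
  A.tr_unique hz.1 (A.tr_mem_ball hz') ((A.Φ_tr hz').trans (A.Φ_tr hz))

theorem mem_nb_of_mem_dom {i j : A.ι} {z : E} (hz : z ∈ A.dom i j) : j ∈ A.nb i :=
  A.mem_nb i j ⟨z, hz⟩

/-- every point of a chart lies in the unit ball of some chart. -/
theorem exists_chart {i : A.ι} {z : E} (hz : z ∈ ball (0 : E) 3) :
    ∃ j, z ∈ A.dom i j ∧ A.tr i j z ∈ ball (0 : E) 1 := by
  obtain ⟨j, w, hw, h⟩ := A.cover _ (A.maps i hz)
  obtain ⟨h1, h2⟩ := A.tr_unique hz (ball_subset_ball (by norm_num) hw) h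
  exact ⟨j, h1, h2 ▸ hw⟩

theorem rep_eq {G : Type*} (u : ℝ → V → G) {i j : A.ι} {z : E} (hz : z ∈ A.dom i j) (t : ℝ) :
    A.rep i u t z = A.rep j u t (A.tr i j z) := by
  show u t _ = u t _
  rw [A.Φ_tr hz]

theorem rep0_eq {G : Type*} (g : V → G) {i j : A.ι} {z : E} (hz : z ∈ A.dom i j) :
    A.rep0 i g z = A.rep0 j g (A.tr i j z) := by
  show g _ = g _
  rw [A.Φ_tr hz]

theorem rep_eventuallyEq {G : Type*} (u : ℝ → V → G) {i j : A.ι} {z : E} (hz : z ∈ A.dom i j) (t : ℝ) :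
    A.rep i u t =ᶠ[𝓝 z] fun y => A.rep j u t (A.tr i j y) := by
  filter_upwards [(A.isOpen_dom i j).mem_nhds hz] with y hy
  exact A.rep_eq u hy t

theorem tr_contDiffAt {i j : A.ι} {z : E} (hz : z ∈ A.dom i j) : ContDiffAt ℝ ∞ (A.tr i j) z :=
  (A.tr_smooth i j).contDiffAt ((A.isOpen_dom i j).mem_nhds hz)

theorem tr_continuousOn (i j : A.ι) : ContinuousOn (A.tr i j) (A.dom i j) :=
  (A.tr_smooth i j).continuousOn

theorem norm_fderiv_tr_le {i j : A.ι} {z : E} (hz : z ∈ A.dom i j) :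
    ‖fderiv ℝ (A.tr i j) z‖ ≤ A.Cτ 1 := by
  have := A.tr_bound i j 1 z hz
  rwa [norm_iteratedFDeriv_one] at this

theorem norm_fderiv2_tr_le {i j : A.ι} {z : E} (hz : z ∈ A.dom i j) :
    ‖fderiv ℝ (fderiv ℝ (A.tr i j)) z‖ ≤ A.Cτ 2 := by
  have := A.tr_bound i j 2 z hz
  rwa [← norm_iteratedFDeriv_fderiv, norm_iteratedFDeriv_one] at this

theorem norm_fderiv3_tr_le {i j : A.ι} {z : E} (hz : z ∈ A.dom i j) :
    ‖fderiv ℝ (fderiv ℝ (fderiv ℝ (A.tr i j))) z‖ ≤ A.Cτ 3 := by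
  have := A.tr_bound i j 3 z hz
  rwa [← norm_iteratedFDeriv_fderiv, ← norm_iteratedFDeriv_fderiv, norm_iteratedFDeriv_one] at this

/-- the margin neighbourhood. -/
theorem margin_subset {i j : A.ι} {z : E} (hz : z ∈ A.dom i j) (h : ‖A.tr i j z‖ ≤ 5 / 2) :
    ball z A.μ ∩ ball (0 : E) 3 ⊆ A.dom i j := fun z' hz' =>
  A.margin i j z hz h z' hz'.2 (by simpa [dist_eq_norm] using hz'.1)

theorem tr_lip {i j : A.ι} {z z' z'' : E} (hz : z ∈ A.dom i j) (h : ‖A.tr i j z‖ ≤ 5 / 2)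
    (hz' : z' ∈ ball z A.μ ∩ ball (0 : E) 3) (hz'' : z'' ∈ ball z A.μ ∩ ball (0 : E) 3) :
    ‖A.tr i j z' - A.tr i j z''‖ ≤ A.Cτ 1 * ‖z' - z''‖ := by
  have hsub := A.margin_subset hz h
  exact Convex.norm_image_sub_le_of_norm_fderiv_le
    (fun y hy => (A.tr_contDiffAt (hsub hy)).differentiableAt (by simp))
    (fun y hy => A.norm_fderiv_tr_le (hsub hy))
    ((convex_ball z A.μ).inter (convex_ball 0 3)) hz'' hz'

/-- the part of the chart `i` off the compact set `Φ j (closedBall 0 s)` is relatively open. -/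
theorem isOpen_off [FiniteDimensional ℝ E] (i j : A.ι) {s : ℝ} (hs : s < 3) :
    IsOpen {z | z ∈ ball (0 : E) 3 ∧ ¬ (z ∈ A.dom i j ∧ ‖A.tr i j z‖ ≤ s)} := by
  have : ProperSpace E := FiniteDimensional.proper_real E
  have hK : IsCompact (A.Φ j '' closedBall (0 : E) s) :=
    (isCompact_closedBall 0 s).image_of_continuousOn
      ((A.cont j).mono (closedBall_subset_ball hs))
  have hopen := (A.cont i).isOpen_inter_preimage isOpen_ball hK.isClosed.isOpen_compl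
  convert hopen using 1
  ext z
  simp only [mem_ofPred_eq, mem_inter_iff, mem_preimage, mem_compl_iff]
  refine and_congr_right fun hz => not_congr ⟨?_, ?_⟩
  · rintro ⟨h1, h2⟩
    exact ⟨A.tr i j z, by simpa using h2, A.Φ_tr h1⟩
  · rintro ⟨w, hw, h⟩
    obtain ⟨h1, h2⟩ := A.tr_unique hz (closedBall_subset_ball hs hw) h
    exact ⟨h1, by rw [h2]; simpa using hw⟩

/-! ### jets in different charts -/

theorem pull_add (i j : A.ι) (z : E) (J J' : Jet E) :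
    A.pull i j z (J + J') = A.pull i j z J + A.pull i j z J' := pullJ_add _ _ _ _

theorem pull_sub (i j : A.ι) (z : E) (J J' : Jet E) :
    A.pull i j z (J - J') = A.pull i j z J - A.pull i j z J' := pullJ_sub _ _ _ _

theorem pull_smul (i j : A.ι) (z : E) (c : ℝ) (J : Jet E) :
    A.pull i j z (c • J) = c • A.pull i j z J := pullJ_smul _ _ _ _

theorem pull_zero (i j : A.ι) (z : E) : A.pull i j z 0 = 0 := pullJ_zero _ _

/-- the constant in `norm_pull_le`. -/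
noncomputable def Cp : ℝ := 1 + A.Cτ 1 + A.Cτ 1 ^ 2 + A.Cτ 2

theorem Cτ_nonneg [Nonempty A.ι] (k : ℕ) : 0 ≤ A.Cτ k := by
  obtain ⟨i⟩ := ‹Nonempty A.ι›
  exact (norm_nonneg _).trans (A.tr_bound i i k 0 (A.mem_dom_self (by simp)))

theorem one_le_Cp [Nonempty A.ι] : 1 ≤ A.Cp := by
  have h1 := A.Cτ_nonneg 1
  have h2 := A.Cτ_nonneg 2
  unfold Cp
  nlinarith [sq_nonneg (A.Cτ 1)]

theorem norm_pull_le {i j : A.ι} {z : E} (hz : z ∈ A.dom i j) (J : Jet E) :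
    ‖A.pull i j z J‖ ≤ A.Cp * ‖J‖ := by
  refine (norm_pullJ_le _ _ J).trans ?_
  have h1 := A.norm_fderiv_tr_le hz
  have h2 := A.norm_fderiv2_tr_le hz
  unfold Cp
  gcongr

theorem jet_rep {u : ℝ → V → ℝ} {i j : A.ι} {z : E} {t : ℝ} (hz : z ∈ A.dom i j)
    (hu : ContDiffOn ℝ 2 (A.rep j u t) (ball (0 : E) 3)) :
    jet (A.rep i u) t z = A.pull i j z (jet (A.rep j u) t (A.tr i j z)) := by
  rw [jet_congr_nhds (v := fun t y => A.rep j u t (A.tr i j y)) (A.rep_eventuallyEq u hz t)]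
  exact jet_comp ((A.tr_contDiffAt hz).of_le (WithTop.coe_le_coe.2 le_top))
    (hu.contDiffAt (isOpen_ball.mem_nhds (A.tr_mem_ball hz)))


theorem fderiv_tr_comp {i j : A.ι} {z : E} (hz : z ∈ A.dom i j) :
    (fderiv ℝ (A.tr j i) (A.tr i j z)) ∘L (fderiv ℝ (A.tr i j) z) = ContinuousLinearMap.id ℝ E := by
  have h1 : HasFDerivAt (A.tr i j) (fderiv ℝ (A.tr i j) z) z :=
    ((A.tr_contDiffAt hz).differentiableAt (by simp)).hasFDerivAt
  have h2 : HasFDerivAt (A.tr j i) (fderiv ℝ (A.tr j i) (A.tr i j z)) (A.tr i j z) :=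
    ((A.tr_contDiffAt (A.tr_mem_dom hz)).differentiableAt (by simp)).hasFDerivAt
  have h3 := h2.comp z h1
  have h4 : (A.tr j i ∘ A.tr i j) =ᶠ[𝓝 z] id := by
    filter_upwards [(A.isOpen_dom i j).mem_nhds hz] with y hy
    exact A.tr_tr hy
  exact (h3.congr_of_eventuallyEq h4.symm).unique (hasFDerivAt_id z)

/-- the pull backs along `i → j` and `j → i` are inverse to each other. -/
theorem pull_pull {i j : A.ι} {z : E} (hz : z ∈ A.dom i j) (J : Jet E) :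
    A.pull i j z (A.pull j i (A.tr i j z) J) = J := by
  obtain ⟨a, p, H⟩ := J
  have hL := A.fderiv_tr_comp hz
  have hLv : ∀ v, fderiv ℝ (A.tr j i) (A.tr i j z) (fderiv ℝ (A.tr i j) z v) = v := fun v => by
    have := congrArg (fun T : E →L[ℝ] E => T v) hL
    simpa using this
  -- the linear function `p` as a test function
  have hp : ∀ y, ContDiffAt ℝ 2 (fun x : E => p x) y := fun y => p.contDiff.contDiffAt
  have hjp : ∀ y, jet (fun (_ : ℝ) (x : E) => p x) 0 y = (p y, p, 0) := by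
    intro y
    refine Prod.ext rfl (Prod.ext ?_ ?_)
    · show fderiv ℝ (fun x : E => p x) y = p
      exact p.fderiv
    · show fderiv ℝ (fderiv ℝ (fun x : E => p x)) y = 0
      have : fderiv ℝ (fun x : E => p x) = fun _ => p := by
        funext x
        exact p.fderiv
      rw [this]
      simp
  have e1 : jet (fun (_ : ℝ) y => p (A.tr j i y)) 0 (A.tr i j z)
      = A.pull j i (A.tr i j z) (p z, p, 0) := by
    have := jet_comp (w := fun (_ : ℝ) (x : E) => p x) (t := 0)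
      ((A.tr_contDiffAt (A.tr_mem_dom hz)).of_le (WithTop.coe_le_coe.2 le_top)) (hp _)
    rw [this, hjp, A.tr_tr hz]
    rfl
  have e2 : jet (fun (_ : ℝ) y => p (A.tr j i (A.tr i j y))) 0 z
      = A.pull i j z (A.pull j i (A.tr i j z) (p z, p, 0)) := by
    have hc : ContDiffAt ℝ 2 (fun y => p (A.tr j i y)) (A.tr i j z) :=
      (hp _).comp _ ((A.tr_contDiffAt (A.tr_mem_dom hz)).of_le (WithTop.coe_le_coe.2 le_top))
    have := jet_comp (w := fun (_ : ℝ) y => p (A.tr j i y)) (t := 0)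
      ((A.tr_contDiffAt hz).of_le (WithTop.coe_le_coe.2 le_top)) hc
    rw [this, e1]
    rfl
  have e3 : jet (fun (_ : ℝ) y => p (A.tr j i (A.tr i j y))) 0 z = (p z, p, 0) := by
    rw [← hjp z]
    apply jet_congr_nhds
    filter_upwards [(A.isOpen_dom i j).mem_nhds hz] with y hy
    rw [A.tr_tr hy]
  have e4 : A.pull i j z (A.pull j i (A.tr i j z) (p z, p, 0)) = (p z, p, 0) := e2.symm.trans e3
  have e5 : A.pull i j z (A.pull j i (A.tr i j z) (a - p z, 0, H)) = (a - p z, 0, H) := by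
    refine Prod.ext rfl (Prod.ext ?_ ?_)
    · ext v
      simp [pull, pullJ]
    · ext v w
      simp only [pull]
      rw [pullJ_apply, pullJ_apply]
      simp [pullJ, hLv]
  have e6 : ((a, p, H) : Jet E) = (p z, p, 0) + (a - p z, 0, H) := by
    simp
  rw [e6, pull_add, pull_add, e4, e5]

theorem norm_le_norm_pull {i j : A.ι} {z : E} (hz : z ∈ A.dom i j) (J : Jet E) :
    ‖J‖ ≤ A.Cp * ‖A.pull i j z J‖ := by
  have h := A.pull_pull (A.tr_mem_dom hz) J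
  rw [A.tr_tr hz] at h
  calc ‖J‖ = ‖A.pull j i (A.tr i j z) (A.pull i j z J)‖ := by rw [h]
    _ ≤ _ := A.norm_pull_le (A.tr_mem_dom hz) _

/-! ### gluing -/

theorem rep_glue {G : Type*} [Zero G] {I : Set ℝ} {g : A.ι → ℝ → E → G} (hg : A.Compat I g)
    (i : A.ι) {t : ℝ} (ht : t ∈ I) {z : E} (hz : z ∈ ball (0 : E) 3) :
    A.rep i (A.glue g) t z = g i t z := by
  have hx : A.Φ i z ∈ A.X := A.maps i hz
  show A.glue g t (A.Φ i z) = _
  unfold glue
  rw [dif_pos hx]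
  obtain ⟨h1, h2⟩ := (A.cover _ hx).choose_spec.choose_spec
  obtain ⟨h3, h4⟩ := A.tr_unique hz (ball_subset_ball (by norm_num) h1) h2
  rw [hg i _ t ht z h3, h4]

/-- the chart representations of a function are compatible. -/
theorem compat_rep {G : Type*} (I : Set ℝ) (u : ℝ → V → G) : A.Compat I (fun i => A.rep i u) :=
  fun _ _ t _ _ hz => A.rep_eq u hz t

/-- `P (jet u)` is a function on the manifold. -/
theorem compat_op {I : Set ℝ} {P : A.ι → Op E} (hP : A.CompatL I P) {u : ℝ → V → ℝ}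
    (hu : ∀ i, ∀ t ∈ I, ContDiffOn ℝ 2 (A.rep i u t) (ball (0 : E) 3)) :
    A.Compat I (fun i t z => P i t z (jet (A.rep i u) t z)) := by
  intro i j t ht z hz
  show P i t z (jet (A.rep i u) t z) = P j t (A.tr i j z) (jet (A.rep j u) t (A.tr i j z))
  rw [A.jet_rep hz (hu j t ht), hP i j t ht z hz]

/-- `F (t, x, jet u)` is a function on the manifold. -/
theorem compat_nl {I : Set ℝ} {δ : ℝ} {F : A.ι → ℝ → E → Jet E → ℝ} (hF : A.CompatN I δ F)
    {u : ℝ → V → ℝ} (hu : ∀ i, ∀ t ∈ I, ContDiffOn ℝ 2 (A.rep i u t) (ball (0 : E) 3))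
    (hj : ∀ i, ∀ t ∈ I, ∀ z ∈ ball (0 : E) 3, ‖jet (A.rep i u) t z‖ < δ) :
    A.Compat I (fun i t z => F i t z (jet (A.rep i u) t z)) := by
  intro i j t ht z hz
  show F i t z (jet (A.rep i u) t z) = F j t (A.tr i j z) (jet (A.rep j u) t (A.tr i j z))
  have h1 := hj i t ht z hz.1
  rw [A.jet_rep hz (hu j t ht)] at h1 ⊢
  exact hF i j t ht z hz _ (hj j t ht _ (A.tr_mem_ball hz)) h1

/-- the linearisation at the zero jet of a nonlinear operator is a linear operator on the manifold. -/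
theorem compatL_fderiv {I : Set ℝ} {δ : ℝ} (hδ : 0 < δ) {F : A.ι → ℝ → E → Jet E → ℝ}
    (hF : A.CompatN I δ F)
    (hd : ∀ i, ∀ t ∈ I, ∀ z ∈ ball (0 : E) 3, DifferentiableAt ℝ (F i t z) 0) :
    A.CompatL I (fun i t z => fderiv ℝ (F i t z) 0) := by
  intro i j t ht z hz J
  obtain ⟨T, hT⟩ := exists_pullJ_clm (fderiv ℝ (A.tr i j) z) (fderiv ℝ (fderiv ℝ (A.tr i j)) z)
  have hT' : ∀ J, T J = A.pull i j z J := hT
  have hT0 : T 0 = 0 := map_zero T
  have h1 : HasFDerivAt (F i t z) (fderiv ℝ (F i t z) 0) (T 0) := by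
    rw [hT0]
    exact (hd i t ht z hz.1).hasFDerivAt
  have h2 : HasFDerivAt (F i t z ∘ T) ((fderiv ℝ (F i t z) 0) ∘L T) 0 := h1.comp 0 T.hasFDerivAt
  have h3 : (F i t z ∘ T) =ᶠ[𝓝 0] F j t (A.tr i j z) := by
    have o1 : ∀ᶠ J : Jet E in 𝓝 0, ‖J‖ < δ := by
      have := ball_mem_nhds (0 : Jet E) hδ
      filter_upwards [this] with J hJ
      simpa using hJ
    have o2 : ∀ᶠ J : Jet E in 𝓝 0, ‖T J‖ < δ := by
      have hc : ContinuousAt T 0 := T.continuous.continuousAt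
      have := hc.eventually (by rw [hT0]; exact o1)
      exact this
    filter_upwards [o1, o2] with J h1 h2
    show F i t z (T J) = _
    rw [hT'] at h2 ⊢
    exact hF i j t ht z hz J h1 h2
  have h4 := (h2.congr_of_eventuallyEq h3.symm).fderiv
  show fderiv ℝ (F i t z) 0 (A.pull i j z J) = fderiv ℝ (F j t (A.tr i j z)) 0 J
  rw [h4, ← hT']
  rfl

end UAtlas

end Claimed.Agent.R316.B8M
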