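import Claimed.Agent.R316.Pack014_2
import Claimed.Agent.R316.Pack001

/-!
# B8M-SM: calculus of `SmB` (smooth functions with bounded derivatives on sets with unique derivatives)

TWO LEAVES (proofs only): B8M-SM-A (section `General`), B8M-SM-B (section `Product`).

`SmB Q g C` : `ContDiffOn ℝ ∞ g Q` and `‖iteratedFDerivWithin ℝ k g Q q‖ ≤ C k` on `Q`.  The sets are `ball`, `Icc 0 T ×ˢ U` (`U` open, `0 < T`): always `UniqueDiffOn ℝ Q`.

Hints.
* `SmB.subset`: `ContDiffOn.mono`; for `q ∈ Q'`: `iteratedFDerivWithin ℝ k g Q' q = iteratedFDerivWithin ℝ k g Q q`: `(hg.ftaylorSeriesWithin hQ).mono h` is a Taylor series on `Q'`;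
  `HasFTaylorSeriesUpToOn.eq_iteratedFDerivWithin_of_uniqueDiffOn`.
* `SmB.lip`: `Convex.norm_image_sub_le_of_norm_fderivWithin_le`, `norm_iteratedFDerivWithin_one`.
* `SmB.fderivWithin`: `ContDiffOn.fderivWithin`, `norm_iteratedFDerivWithin_fderivWithin`.
* `SmB.clm_comp`: `ContinuousLinearMap.norm_iteratedFDerivWithin_comp_left`.
* `exists_SmB_comp_gen`: `norm_iteratedFDerivWithin_comp_le` with `D = max 1 (max_{1 ≤ i ≤ n} c i)`, `C = max_{i ≤ n} C i`.
* `exists_SmB_bilin`: `ContinuousLinearMap.norm_iteratedFDerivWithin_le_of_bilinear_of_le_one`.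
* `Product`: `Q = I ×ˢ U`, `hQ = hI.prod hU.uniqueDiffOn`.  For `(t,w) ∈ Q`: `fun w' => f (t, w')` is `f ∘ (fun w' => (t, w'))`, so
  `fderiv ℝ (fun w' => f (t,w')) w = (fderivWithin ℝ f Q (t,w)) ∘L ContinuousLinearMap.inr ℝ ℝ W` (chain rule within, `U` open), i.e. `= Rinr (fderivWithin ℝ f Q (t,w))` with the continuous
  linear map `Rinr = (ContinuousLinearMap.compL ℝ W (ℝ × W) G).flip (inr)` of norm `≤ 1`; then `SmB.fderivWithin` + `SmB.clm_comp`.
  Time derivative: `fderivWithin ℝ f Q (t,w) (1, 0)`, evaluation is a continuous linear map of norm `≤ 1`.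
  `SmB.slice`: `iteratedFDerivWithin` of `f ∘ (w' ↦ (t,w'))`: induction with `SmB.fderiv_snd`, or `ContinuousLinearMap.iteratedFDerivWithin_comp_right` after a translation.
-/

set_option autoImplicit false
set_option maxSynthPendingDepth 3
set_option linter.unusedSectionVars false

open scoped Topology ContDiff
open Set Filter Metric

namespace Claimed.Agent.R316.B8M

open Claimed.Agent.R316.B8

section General

variable {W W' G G₁ G₂ G₃ : Type*} [NormedAddCommGroup W] [NormedSpace ℝ W]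
  [NormedAddCommGroup W'] [NormedSpace ℝ W'] [NormedAddCommGroup G] [NormedSpace ℝ G]
  [NormedAddCommGroup G₁] [NormedSpace ℝ G₁] [NormedAddCommGroup G₂] [NormedSpace ℝ G₂]
  [NormedAddCommGroup G₃] [NormedSpace ℝ G₃]

theorem SmB.mono {Q : Set W} {g : W → G} {C C' : ℕ → ℝ} (h : SmB Q g C) (hC : ∀ k, C k ≤ C' k) :
    SmB Q g C' := ⟨h.smooth, fun k q hq => (h.bdd k q hq).trans (hC k)⟩

theorem SmB.congr {Q : Set W} {g g' : W → G} {C : ℕ → ℝ} (h : SmB Q g C) (he : ∀ q ∈ Q, g' q = g q) :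
    SmB Q g' C := by
  refine ⟨h.smooth.congr he, fun k q hq => ?_⟩
  rw [iteratedFDerivWithin_congr (fun x hx => he x hx) hq k]
  exact h.bdd k q hq

theorem SmB.subset {Q Q' : Set W} {g : W → G} {C : ℕ → ℝ} (h : SmB Q g C) (hQ : UniqueDiffOn ℝ Q)
    (hQ' : UniqueDiffOn ℝ Q') (hs : Q' ⊆ Q) : SmB Q' g C := by
  refine ⟨h.smooth.mono hs, fun k q hq => ?_⟩
  rw [iteratedFDerivWithin_subset hs hQ' hQ (h.smooth.of_le (by exact_mod_cast le_top)) hq]
  exact h.bdd k q (hs hq)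

theorem SmB.norm_le {Q : Set W} {g : W → G} {C : ℕ → ℝ} (h : SmB Q g C) {q : W} (hq : q ∈ Q) :
    ‖g q‖ ≤ C 0 := by
  have := h.bdd 0 q hq
  rwa [norm_iteratedFDerivWithin_zero] at this

theorem SmB.nonneg {Q : Set W} {g : W → G} {C : ℕ → ℝ} (h : SmB Q g C) {q : W} (hq : q ∈ Q) (k : ℕ) :
    0 ≤ C k := (norm_nonneg _).trans (h.bdd k q hq)

/-- a derivative within `Q` of norm `≤ C 1` (no unique differentiability needed). -/
theorem SmB.exists_hasFDerivWithinAt {Q : Set W} {g : W → G} {C : ℕ → ℝ} (h : SmB Q g C) {q : W}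
    (hq : q ∈ Q) : ∃ A : W →L[ℝ] G, HasFDerivWithinAt g A Q q ∧ ‖A‖ ≤ C 1 := by
  have hd : DifferentiableWithinAt ℝ g Q q :=
    (h.smooth q hq).differentiableWithinAt (by simp)
  have h1 : ‖fderivWithin ℝ (iteratedFDerivWithin ℝ 0 g Q) Q q‖ ≤ C 1 := by
    rw [norm_fderivWithin_iteratedFDerivWithin]
    exact h.bdd 1 q hq
  have e0 : iteratedFDerivWithin ℝ 0 g Q = (continuousMultilinearCurryFin0 ℝ W G).symm ∘ g :=
    iteratedFDerivWithin_zero_eq_comp
  have hd0 : DifferentiableWithinAt ℝ (iteratedFDerivWithin ℝ 0 g Q) Q q := by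
    rw [e0]
    exact ((continuousMultilinearCurryFin0 ℝ W G).symm :
      G →L[ℝ] ContinuousMultilinearMap ℝ (fun _ : Fin 0 => W) G).differentiableAt.comp_differentiableWithinAt
        q hd
  have h2 := hd0.hasFDerivWithinAt
  have h3 := ((continuousMultilinearCurryFin0 ℝ W G :
      ContinuousMultilinearMap ℝ (fun _ : Fin 0 => W) G →L[ℝ] G).hasFDerivAt
        (x := iteratedFDerivWithin ℝ 0 g Q q)).comp_hasFDerivWithinAt q h2
  refine ⟨_, HasFDerivWithinAt.congr h3 (fun x _ => ?_) ?_, ?_⟩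
  · simp [e0]
  · simp [e0]
  · refine (ContinuousLinearMap.opNorm_comp_le _ _).trans ?_
    have h4 : ‖(continuousMultilinearCurryFin0 ℝ W G :
      ContinuousMultilinearMap ℝ (fun _ : Fin 0 => W) G →L[ℝ] G)‖ ≤ 1 :=
      (continuousMultilinearCurryFin0 ℝ W G).toLinearIsometry.norm_toContinuousLinearMap_le
    calc _ ≤ 1 * ‖fderivWithin ℝ (iteratedFDerivWithin ℝ 0 g Q) Q q‖ :=
          mul_le_mul_of_nonneg_right h4 (norm_nonneg _)
      _ ≤ C 1 := by rw [one_mul]; exact h1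

theorem SmB.norm_fderivWithin_le {Q : Set W} {g : W → G} {C : ℕ → ℝ} (h : SmB Q g C)
    (hQ : UniqueDiffOn ℝ Q) {q : W} (hq : q ∈ Q) : ‖fderivWithin ℝ g Q q‖ ≤ C 1 := by
  rw [← norm_iteratedFDerivWithin_one g (hQ q hq)]
  exact h.bdd 1 q hq

theorem SmB.lip {Q : Set W} {g : W → G} {C : ℕ → ℝ} (h : SmB Q g C) (hc : Convex ℝ Q) {p q : W}
    (hp : p ∈ Q) (hq : q ∈ Q) : ‖g p - g q‖ ≤ C 1 * ‖p - q‖ := by
  choose! A hA hAn using fun x (hx : x ∈ Q) => h.exists_hasFDerivWithinAt hx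
  exact hc.norm_image_sub_le_of_norm_hasFDerivWithin_le hA hAn hq hp

theorem SmB.fderivWithin {Q : Set W} {g : W → G} {C : ℕ → ℝ} (h : SmB Q g C)
    (hQ : UniqueDiffOn ℝ Q) : SmB Q (fderivWithin ℝ g Q) (fun k => C (k + 1)) := by
  refine ⟨h.smooth.fderivWithin hQ (by simp), fun k q hq => ?_⟩
  rw [norm_iteratedFDerivWithin_fderivWithin hQ hq]
  exact h.bdd (k + 1) q hq

theorem SmB.clm_comp {Q : Set W} {g : W → G} {C : ℕ → ℝ} (h : SmB Q g C) (hQ : UniqueDiffOn ℝ Q)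
    (L : G →L[ℝ] G₁) : SmB Q (fun q => L (g q)) (fun k => ‖L‖ * C k) := by
  refine ⟨L.contDiff.comp_contDiffOn h.smooth, fun k q hq => ?_⟩
  refine (L.norm_iteratedFDerivWithin_comp_left (h.smooth q hq) hQ hq
    (by exact_mod_cast le_top)).trans ?_
  exact mul_le_mul_of_nonneg_left (h.bdd k q hq) (norm_nonneg _)

/-- composition with a contraction. -/
theorem SmB.clm_comp_le_one {Q : Set W} {g : W → G} {C : ℕ → ℝ} (h : SmB Q g C)
    (hQ : UniqueDiffOn ℝ Q) (L : G →L[ℝ] G₁) (hL : ‖L‖ ≤ 1) : SmB Q (fun q => L (g q)) C := by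
  refine ⟨(h.clm_comp hQ L).smooth, fun k q hq => ((h.clm_comp hQ L).bdd k q hq).trans ?_⟩
  calc ‖L‖ * C k ≤ 1 * C k := mul_le_mul_of_nonneg_right hL (h.nonneg hq k)
    _ = C k := one_mul _

theorem SmB.add {Q : Set W} {g g' : W → G} {C C' : ℕ → ℝ} (h : SmB Q g C) (h' : SmB Q g' C')
    (hQ : UniqueDiffOn ℝ Q) : SmB Q (fun q => g q + g' q) (fun k => C k + C' k) := by
  refine ⟨h.smooth.add h'.smooth, fun k q hq => ?_⟩
  rw [fun_iteratedFDerivWithin_add_apply ((h.smooth q hq).of_le (by exact_mod_cast le_top))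
    ((h'.smooth q hq).of_le (by exact_mod_cast le_top)) hQ hq]
  exact (norm_add_le _ _).trans (add_le_add (h.bdd k q hq) (h'.bdd k q hq))

theorem SmB.sub {Q : Set W} {g g' : W → G} {C C' : ℕ → ℝ} (h : SmB Q g C) (h' : SmB Q g' C')
    (hQ : UniqueDiffOn ℝ Q) : SmB Q (fun q => g q - g' q) (fun k => C k + C' k) := by
  refine ⟨h.smooth.sub h'.smooth, fun k q hq => ?_⟩
  rw [fun_iteratedFDerivWithin_sub_apply ((h.smooth q hq).of_le (by exact_mod_cast le_top))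
    ((h'.smooth q hq).of_le (by exact_mod_cast le_top)) hQ hq]
  exact (norm_sub_le _ _).trans (add_le_add (h.bdd k q hq) (h'.bdd k q hq))

theorem SmB.prodMk {Q : Set W} {g : W → G} {g' : W → G₁} {C C' : ℕ → ℝ} (h : SmB Q g C)
    (h' : SmB Q g' C') (hQ : UniqueDiffOn ℝ Q) :
    SmB Q (fun q => (g q, g' q)) (fun k => C k + C' k) := by
  have h1 := h.clm_comp_le_one hQ (ContinuousLinearMap.inl ℝ G G₁) (ContinuousLinearMap.norm_inl_le_one ℝ G G₁)
  have h2 := h'.clm_comp_le_one hQ (ContinuousLinearMap.inr ℝ G G₁) (ContinuousLinearMap.norm_inr_le_one ℝ G G₁)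
  refine (h1.add h2 hQ).congr (fun q _ => ?_)
  simp

/-- on an open set `iteratedFDerivWithin = iteratedFDeriv`. -/
theorem SmB.iteratedFDeriv_le {Q : Set W} {g : W → G} {C : ℕ → ℝ} (h : SmB Q g C) (hQ : IsOpen Q)
    (k : ℕ) {q : W} (hq : q ∈ Q) : ‖iteratedFDeriv ℝ k g q‖ ≤ C k := by
  rw [← iteratedFDerivWithin_of_isOpen k hQ hq]
  exact h.bdd k q hq

theorem SmB.of_isOpen {Q : Set W} {g : W → G} {C : ℕ → ℝ} (hQ : IsOpen Q)
    (hs : ContDiffOn ℝ ∞ g Q) (hb : ∀ k, ∀ q ∈ Q, ‖iteratedFDeriv ℝ k g q‖ ≤ C k) : SmB Q g C := by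
  refine ⟨hs, fun k q hq => ?_⟩
  rw [iteratedFDerivWithin_of_isOpen k hQ hq]
  exact hb k q hq

/-- a continuous affine map. -/
theorem SmB.affine (Q : Set W) (hQ : UniqueDiffOn ℝ Q) (L : W →L[ℝ] G) (c : G) {b : ℝ}
    (hb : ∀ q ∈ Q, ‖L q + c‖ ≤ b) :
    SmB Q (fun q => L q + c) (fun k => if k = 0 then b else if k = 1 then ‖L‖ else 0) := by
  have hsm : ContDiff ℝ ∞ (fun q => L q + c) := L.contDiff.add contDiff_const
  refine ⟨hsm.contDiffOn, fun k q hq => ?_⟩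
  have hfd : ∀ x ∈ Q, _root_.fderivWithin ℝ (fun q => L q + c) Q x = L := by
    intro x hx
    have h1 : HasFDerivWithinAt (fun q => L q + c) L Q x := (L.hasFDerivWithinAt).add_const c
    exact h1.fderivWithin (hQ x hx)
  rcases k with _ | k
  · simp only [if_true]
    rw [norm_iteratedFDerivWithin_zero]
    exact hb q hq
  · rw [← norm_iteratedFDerivWithin_fderivWithin hQ hq,
      iteratedFDerivWithin_congr (f := fun _ => L) (fun x hx => hfd x hx) hq k]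
    rcases k with _ | k
    · simp [norm_iteratedFDerivWithin_zero]
    · rw [iteratedFDerivWithin_succ_const]
      simp

/-- composition. -/
theorem exists_SmB_comp_gen (c C : ℕ → ℝ) : ∃ C' : ℕ → ℝ,
    ∀ (Q' : Set W') (Q : Set W) (φ : W' → W) (g : W → G), UniqueDiffOn ℝ Q' → UniqueDiffOn ℝ Q →
      MapsTo φ Q' Q → SmB Q' φ c → SmB Q g C → SmB Q' (fun q => g (φ q)) C' := by
  refine ⟨fun n => (n.factorial : ℝ) * (∑ i ∈ Finset.range (n + 1), |C i|)
    * (1 + ∑ i ∈ Finset.range (n + 1), |c i|) ^ n, ?_⟩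
  intro Q' Q φ g hQ' hQ hm hφ hg
  refine ⟨hg.smooth.comp hφ.smooth hm, fun n q hq => ?_⟩
  apply norm_iteratedFDerivWithin_comp_le hg.smooth hφ.smooth (by exact_mod_cast le_top) hQ hQ' hm hq
  · intro i hi
    refine (hg.bdd i _ (hm hq)).trans ((le_abs_self _).trans ?_)
    exact Finset.single_le_sum (f := fun i => |C i|) (fun j _ => abs_nonneg _)
      (Finset.mem_range.2 (by omega))
  · intro i hi1 hi
    have h1 : c i ≤ 1 + ∑ i ∈ Finset.range (n + 1), |c i| := by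
      have := Finset.single_le_sum (f := fun i => |c i|) (fun j _ => abs_nonneg _)
        (Finset.mem_range.2 (by omega : i < n + 1))
      have h2 := le_abs_self (c i)
      linarith
    have h3 : 1 ≤ 1 + ∑ i ∈ Finset.range (n + 1), |c i| := by
      have : 0 ≤ ∑ i ∈ Finset.range (n + 1), |c i| := Finset.sum_nonneg (fun j _ => abs_nonneg _)
      linarith
    refine (hφ.bdd i q hq).trans (h1.trans ?_)
    exact le_self_pow₀ h3 (by omega)

/-- bilinear operations. -/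
theorem exists_SmB_bilin (C₁ C₂ : ℕ → ℝ) : ∃ C' : ℕ → ℝ,
    ∀ (Q : Set W) (B : G₁ →L[ℝ] G₂ →L[ℝ] G₃) (f : W → G₁) (g : W → G₂), UniqueDiffOn ℝ Q → ‖B‖ ≤ 1 →
      SmB Q f C₁ → SmB Q g C₂ → SmB Q (fun q => B (f q) (g q)) C' := by
  refine ⟨fun n => ∑ i ∈ Finset.range (n + 1), (n.choose i : ℝ) * C₁ i * C₂ (n - i), ?_⟩
  intro Q B f g hQ hB hf hg
  refine ⟨B.isBoundedBilinearMap.contDiff.comp_contDiffOn (hf.smooth.prodMk hg.smooth),
    fun n q hq => ?_⟩
  refine (B.norm_iteratedFDerivWithin_le_of_bilinear_of_le_one hf.smooth hg.smooth hQ hq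
    (by exact_mod_cast le_top) hB).trans ?_
  apply Finset.sum_le_sum
  intro i _
  apply mul_le_mul _ (hg.bdd _ q hq) (norm_nonneg _)
  · exact mul_nonneg (Nat.cast_nonneg _) (hf.nonneg hq i)
  · exact mul_le_mul_of_nonneg_left (hf.bdd i q hq) (Nat.cast_nonneg _)

/-- application of an operator valued function. -/
theorem exists_SmB_clm_apply (C₁ C₂ : ℕ → ℝ) : ∃ C' : ℕ → ℝ,
    ∀ (Q : Set W) (f : W → G₁ →L[ℝ] G₂) (g : W → G₁), UniqueDiffOn ℝ Q →
      SmB Q f C₁ → SmB Q g C₂ → SmB Q (fun q => f q (g q)) C' := by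
  obtain ⟨C', hC'⟩ := exists_SmB_bilin (W := W) (G₁ := G₁ →L[ℝ] G₂) (G₂ := G₁) (G₃ := G₂) C₁ C₂
  refine ⟨C', fun Q f g hQ hf hg => ?_⟩
  exact hC' Q (ContinuousLinearMap.id ℝ (G₁ →L[ℝ] G₂)) f g hQ ContinuousLinearMap.norm_id_le hf hg

end General

section Product

variable {W G : Type*} [NormedAddCommGroup W] [NormedSpace ℝ W]
  [NormedAddCommGroup G] [NormedSpace ℝ G]

/-- the derivative of `w' ↦ f (t, w')`. -/
theorem SmB.hasFDerivAt_snd {I : Set ℝ} {U : Set W} (hU : IsOpen U) {f : ℝ × W → G}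
    {t : ℝ} (ht : t ∈ I) {w : W} (hw : w ∈ U) {A : ℝ × W →L[ℝ] G}
    (hA : HasFDerivWithinAt f A (I ×ˢ U) (t, w)) :
    HasFDerivAt (fun w' => f (t, w')) (A ∘L ContinuousLinearMap.inr ℝ ℝ W) w := by
  have h1 : HasFDerivWithinAt (fun w' : W => ((t, w') : ℝ × W)) (ContinuousLinearMap.inr ℝ ℝ W) U w :=
    (hasFDerivAt_prodMk_right t w).hasFDerivWithinAt
  have h2 : HasFDerivWithinAt (fun w' => f (t, w')) (A ∘L ContinuousLinearMap.inr ℝ ℝ W) U w :=
    HasFDerivWithinAt.comp (g := f) (f := fun w' : W => ((t, w') : ℝ × W)) w hA h1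
      (fun w' hw' => ⟨ht, hw'⟩)
  exact h2.hasFDerivAt (hU.mem_nhds hw)

/-- the derivative of `s ↦ f (s, w)`. -/
theorem SmB.hasDerivWithinAt_fst {I : Set ℝ} {U : Set W} {f : ℝ × W → G}
    {t : ℝ} {w : W} (hw : w ∈ U) {A : ℝ × W →L[ℝ] G}
    (hA : HasFDerivWithinAt f A (I ×ˢ U) (t, w)) :
    HasDerivWithinAt (fun s => f (s, w)) (A (1, 0)) I t := by
  have h1 : HasFDerivWithinAt (fun s : ℝ => ((s, w) : ℝ × W)) (ContinuousLinearMap.inl ℝ ℝ W) I t :=
    (hasFDerivAt_prodMk_left t w).hasFDerivWithinAt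
  have h2 : HasFDerivWithinAt (fun s => f (s, w)) (A ∘L ContinuousLinearMap.inl ℝ ℝ W) I t :=
    HasFDerivWithinAt.comp (g := f) (f := fun s : ℝ => ((s, w) : ℝ × W)) t hA h1
      (fun s hs => ⟨hs, hw⟩)
  have h3 := h2.hasDerivWithinAt
  simpa using h3

/-- differentiability in the space variable. -/
theorem SmB.differentiableAt_snd {I : Set ℝ} {U : Set W} (hU : IsOpen U) {f : ℝ × W → G}
    {C : ℕ → ℝ} (h : SmB (I ×ˢ U) f C) {t : ℝ} (ht : t ∈ I) {w : W} (hw : w ∈ U) :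
    DifferentiableAt ℝ (fun w' => f (t, w')) w := by
  obtain ⟨A, hA, -⟩ := h.exists_hasFDerivWithinAt (q := (t, w)) ⟨ht, hw⟩
  exact (SmB.hasFDerivAt_snd hU ht hw hA).differentiableAt

/-- the partial derivative in the space variable. -/
theorem SmB.fderiv_snd {I : Set ℝ} (hI : UniqueDiffOn ℝ I) {U : Set W} (hU : IsOpen U)
    {f : ℝ × W → G} {C : ℕ → ℝ} (h : SmB (I ×ˢ U) f C) :
    SmB (I ×ˢ U) (fun q => fderiv ℝ (fun w' => f (q.1, w')) q.2) (fun k => C (k + 1)) := by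
  have hQ : UniqueDiffOn ℝ (I ×ˢ U) := hI.prod hU.uniqueDiffOn
  have h1 := (h.fderivWithin hQ).clm_comp_le_one hQ
    ((ContinuousLinearMap.compL ℝ W (ℝ × W) G).flip (ContinuousLinearMap.inr ℝ ℝ W)) (by
      refine (ContinuousLinearMap.le_opNorm _ _).trans ?_
      rw [ContinuousLinearMap.opNorm_flip]
      calc ‖ContinuousLinearMap.compL ℝ W (ℝ × W) G‖ * ‖ContinuousLinearMap.inr ℝ ℝ W‖ ≤ 1 * 1 :=
            mul_le_mul (ContinuousLinearMap.norm_compL_le ℝ W (ℝ × W) G)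
              (ContinuousLinearMap.norm_inr_le_one ℝ ℝ W) (norm_nonneg _) zero_le_one
        _ = 1 := one_mul 1)
  refine h1.congr (fun q hq => ?_)
  have hd : DifferentiableWithinAt ℝ f (I ×ˢ U) q := (h.smooth q hq).differentiableWithinAt (by simp)
  have h2 := SmB.hasFDerivAt_snd (t := q.1) (w := q.2) hU hq.1 hq.2 hd.hasFDerivWithinAt
  rw [h2.fderiv]
  rfl

/-- the time derivative. -/
theorem SmB.exists_dt {I : Set ℝ} (hI : UniqueDiffOn ℝ I) {U : Set W} (hU : IsOpen U)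
    {f : ℝ × W → G} {C : ℕ → ℝ} (h : SmB (I ×ˢ U) f C) :
    ∃ ft : ℝ × W → G, SmB (I ×ˢ U) ft (fun k => C (k + 1)) ∧
      ∀ t ∈ I, ∀ w ∈ U, HasDerivWithinAt (fun s => f (s, w)) (ft (t, w)) I t := by
  have hQ : UniqueDiffOn ℝ (I ×ˢ U) := hI.prod hU.uniqueDiffOn
  refine ⟨fun q => _root_.fderivWithin ℝ f (I ×ˢ U) q (1, 0), ?_, ?_⟩
  · exact (h.fderivWithin hQ).clm_comp_le_one hQ
      (ContinuousLinearMap.apply ℝ G ((1, 0) : ℝ × W)) (by
        refine ContinuousLinearMap.opNorm_le_bound _ zero_le_one (fun A => ?_)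
        rw [ContinuousLinearMap.apply_apply, one_mul]
        refine (A.le_opNorm _).trans ?_
        have : ‖((1, 0) : ℝ × W)‖ = 1 := by simp [Prod.norm_def]
        rw [this, mul_one])
  · intro t ht w hw
    have hd : DifferentiableWithinAt ℝ f (I ×ˢ U) (t, w) :=
      (h.smooth (t, w) ⟨ht, hw⟩).differentiableWithinAt (by simp)
    exact SmB.hasDerivWithinAt_fst hw hd.hasFDerivWithinAt

open scoped Pointwise in
/-- translates of sets with unique derivatives. -/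
theorem uniqueDiffOn_vadd' {Q : Set W} (hQ : UniqueDiffOn ℝ Q) (a : W) : UniqueDiffOn ℝ (a +ᵥ Q) := by
  have e : a +ᵥ Q = (fun z => a + z) '' Q := rfl
  rw [e]
  exact hQ.image (f' := fun _ => ContinuousLinearMap.id ℝ W)
    (fun x _ => ((hasFDerivAt_id x).const_add a).hasFDerivWithinAt)
    (fun x _ => Function.surjective_id.denseRange)

open scoped Pointwise in
/-- time slices. -/
theorem SmB.slice {I : Set ℝ} (hI : UniqueDiffOn ℝ I) {U : Set W} (hU : IsOpen U) {f : ℝ × W → G}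
    {C : ℕ → ℝ} (h : SmB (I ×ˢ U) f C) {t : ℝ} (ht : t ∈ I) : SmB U (fun w => f (t, w)) C := by
  have hQ : UniqueDiffOn ℝ (I ×ˢ U) := hI.prod hU.uniqueDiffOn
  have hι : ContDiff ℝ ∞ (fun w : W => ((t, w) : ℝ × W)) := contDiff_const.prodMk contDiff_id
  refine ⟨h.smooth.comp hι.contDiffOn (fun w hw => ⟨ht, hw⟩), fun k w hw => ?_⟩
  -- translate, then compose with `inr`
  obtain ⟨Q₀, hQ₀⟩ : ∃ Q₀ : Set (ℝ × W), Q₀ = (-((t, 0) : ℝ × W)) +ᵥ (I ×ˢ U) := ⟨_, rfl⟩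
  have hback : ((t, 0) : ℝ × W) +ᵥ Q₀ = I ×ˢ U := by
    rw [hQ₀, vadd_vadd, add_neg_cancel, zero_vadd]
  have hmemQ₀ : ∀ z : ℝ × W, z ∈ Q₀ ↔ ((t, 0) : ℝ × W) + z ∈ I ×ˢ U := by
    intro z
    rw [hQ₀, Set.mem_vadd_set_iff_neg_vadd_mem]
    simp
  have hQ₀u : UniqueDiffOn ℝ Q₀ := by
    rw [hQ₀]; exact uniqueDiffOn_vadd' hQ _
  have hpre : (ContinuousLinearMap.inr ℝ ℝ W) ⁻¹' Q₀ = U := by
    ext w'
    rw [Set.mem_preimage, hmemQ₀]
    simp [ht]
  have hf₀ : ContDiffOn ℝ ∞ (fun z => f (((t, 0) : ℝ × W) + z)) Q₀ :=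
    h.smooth.comp (contDiff_const.add contDiff_id).contDiffOn (fun z hz => (hmemQ₀ z).1 hz)
  have e1 : (fun w => f (t, w)) = (fun z => f (((t, 0) : ℝ × W) + z)) ∘ (ContinuousLinearMap.inr ℝ ℝ W) := by
    funext w'
    simp
  have h1 := (ContinuousLinearMap.inr ℝ ℝ W).iteratedFDerivWithin_comp_right hf₀ hQ₀u
    (by rw [hpre]; exact hU.uniqueDiffOn) (x := w) (by rw [← Set.mem_preimage, hpre]; exact hw)
    (i := k) (by exact_mod_cast le_top)
  rw [hpre, ← e1] at h1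
  rw [h1]
  refine (ContinuousMultilinearMap.norm_compContinuousLinearMap_le _ _).trans ?_
  rw [iteratedFDerivWithin_comp_add_left, hback]
  have h2 : ‖iteratedFDerivWithin ℝ k f (I ×ˢ U) (((t, 0) : ℝ × W) + (ContinuousLinearMap.inr ℝ ℝ W) w)‖ ≤ C k := by
    apply h.bdd
    simp [ht, hw]
  have h3 : ∏ _i : Fin k, ‖ContinuousLinearMap.inr ℝ ℝ W‖ ≤ 1 :=
    Finset.prod_le_one (fun _ _ => norm_nonneg _) (fun _ _ => ContinuousLinearMap.norm_inr_le_one ℝ ℝ W)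
  calc _ ≤ C k * 1 := mul_le_mul h2 h3 (Finset.prod_nonneg (fun _ _ => norm_nonneg _))
        ((norm_nonneg _).trans h2)
    _ = C k := mul_one _

/-- Lipschitz in time (`I` convex). -/
theorem SmB.lip_time {I : Set ℝ} (hI : Convex ℝ I) {U : Set W} {f : ℝ × W → G}
    {C : ℕ → ℝ} (h : SmB (I ×ˢ U) f C) (_hU : IsOpen U) {t s : ℝ} (ht : t ∈ I) (hs : s ∈ I) {w : W}
    (hw : w ∈ U) : ‖f (t, w) - f (s, w)‖ ≤ C 1 * |t - s| := by
  choose! A hA hAn using fun x (hx : x ∈ I ×ˢ U) => h.exists_hasFDerivWithinAt hx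
  have h1 : ∀ τ ∈ I, HasDerivWithinAt (fun s => f (s, w)) (A (τ, w) (1, 0)) I τ :=
    fun τ hτ => SmB.hasDerivWithinAt_fst hw (hA (τ, w) ⟨hτ, hw⟩)
  have h2 : ∀ τ ∈ I, ‖A (τ, w) (1, 0)‖ ≤ C 1 := by
    intro τ hτ
    refine ((A (τ, w)).le_opNorm _).trans ?_
    have : ‖((1, 0) : ℝ × W)‖ = 1 := by simp [Prod.norm_def]
    rw [this, mul_one]
    exact hAn (τ, w) ⟨hτ, hw⟩
  have := hI.norm_image_sub_le_of_norm_hasDerivWithin_le h1 h2 hs ht
  simpa [Real.norm_eq_abs] using this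

/-- a time independent function. -/
theorem SmB.static {I : Set ℝ} (hI : UniqueDiffOn ℝ I) {U : Set W} (hU : IsOpen U) {g : W → G}
    {C : ℕ → ℝ} (h : SmB U g C) : SmB (I ×ˢ U) (fun q : ℝ × W => g q.2) C := by
  have hQ : UniqueDiffOn ℝ (I ×ˢ U) := hI.prod hU.uniqueDiffOn
  have hpre : (ContinuousLinearMap.snd ℝ ℝ W) ⁻¹' U = univ ×ˢ U := by
    ext q; simp
  have hQ1 : UniqueDiffOn ℝ ((univ : Set ℝ) ×ˢ U) := uniqueDiffOn_univ.prod hU.uniqueDiffOn
  have h1 : SmB ((univ : Set ℝ) ×ˢ U) (fun q : ℝ × W => g q.2) C := by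
    refine ⟨h.smooth.comp contDiff_snd.contDiffOn (fun q hq => hq.2), fun k q hq => ?_⟩
    have h2 := (ContinuousLinearMap.snd ℝ ℝ W).iteratedFDerivWithin_comp_right h.smooth
      hU.uniqueDiffOn (by rw [hpre]; exact hQ1) (x := q) hq.2 (i := k) (by exact_mod_cast le_top)
    rw [hpre] at h2
    have e : (fun q : ℝ × W => g q.2) = g ∘ (ContinuousLinearMap.snd ℝ ℝ W) := rfl
    rw [e, h2]
    refine (ContinuousMultilinearMap.norm_compContinuousLinearMap_le _ _).trans ?_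
    have h3 : ‖iteratedFDerivWithin ℝ k g U ((ContinuousLinearMap.snd ℝ ℝ W) q)‖ ≤ C k := h.bdd k _ hq.2
    have h4 : ∏ _i : Fin k, ‖ContinuousLinearMap.snd ℝ ℝ W‖ ≤ 1 :=
      Finset.prod_le_one (fun _ _ => norm_nonneg _) (fun _ _ => ContinuousLinearMap.norm_snd_le ℝ ℝ W)
    calc _ ≤ C k * 1 := mul_le_mul h3 h4 (Finset.prod_nonneg (fun _ _ => norm_nonneg _))
          ((norm_nonneg _).trans h3)
      _ = C k := mul_one _
  exact h1.subset hQ1 hQ (Set.prod_mono (subset_univ _) subset_rfl)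

/-- a smooth bounded function is in `Y` (on a convex open set). -/
theorem SmB.YB {E : Type*} [NormedAddCommGroup E] [NormedSpace ℝ E] {I : Set ℝ}
    (hI : UniqueDiffOn ℝ I) {U : Set E} (hU : IsOpen U) (hc : Convex ℝ U) {f : ℝ → E → G}
    {C : ℕ → ℝ} (h : SmB (I ×ˢ U) (fun q : ℝ × E => f q.1 q.2) C) {α : ℝ} (hα : 0 < α) (hα1 : α ≤ 1) :
    B8.YB α I U f (2 * C 0 + C 1) := by
  refine ⟨h.smooth.continuousOn, fun t ht x hx => ?_, fun t ht => ?_⟩
  · have h0 := h.norm_le (q := (t, x)) ⟨ht, hx⟩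
    have h1 := h.nonneg (q := (t, x)) ⟨ht, hx⟩ 1
    have h2 := h.nonneg (q := (t, x)) ⟨ht, hx⟩ 0
    simp only at h0
    linarith
  · have hs := h.slice hI hU ht
    rcases U.eq_empty_or_nonempty with hE | ⟨x₀, hx₀⟩
    · intro x hx; rw [hE] at hx; exact absurd hx (Set.notMem_empty x)
    · exact HolB.of_lip hα hα1 (fun x hx => hs.norm_le hx) (fun x hx y hy => hs.lip hc hx hy)
        (hs.nonneg hx₀ 1)

/-- a smooth bounded function is in `C^{2+α}` (on a convex open set). -/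
theorem SmB.C2aB {E : Type*} [NormedAddCommGroup E] [NormedSpace ℝ E] {U : Set E} (hU : IsOpen U)
    (hc : Convex ℝ U) {g : E → ℝ} {C : ℕ → ℝ} (h : SmB U g C) {α : ℝ} (hα : 0 < α) (hα1 : α ≤ 1) :
    B8.C2aB α U g (C 0 + C 1 + 2 * C 2 + C 3) := by
  have hQ : UniqueDiffOn ℝ U := hU.uniqueDiffOn
  have h1 : SmB U (fderiv ℝ g) (fun k => C (k + 1)) :=
    (h.fderivWithin hQ).congr (fun q hq => (fderivWithin_of_isOpen hU hq).symm)
  have h2 : SmB U (fderiv ℝ (fderiv ℝ g)) (fun k => C (k + 1 + 1)) :=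
    (h1.fderivWithin hQ).congr (fun q hq => (fderivWithin_of_isOpen hU hq).symm)
  rcases U.eq_empty_or_nonempty with hE | ⟨x₀, hx₀⟩
  · have hno : ∀ x, x ∉ U := fun x hx => by rw [hE] at hx; exact Set.notMem_empty x hx
    exact ⟨fun x hx => absurd hx (hno x), fun x hx => absurd hx (hno x),
      fun x hx => absurd hx (hno x), fun x hx => absurd hx (hno x),
      fun x hx => absurd hx (hno x)⟩
  have n0 := h.nonneg hx₀ 0
  have n1 := h.nonneg hx₀ 1
  have n2 := h.nonneg hx₀ 2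
  have n3 := h.nonneg hx₀ 3
  refine ⟨h.smooth.of_le (by norm_cast), fun x hx => ?_, fun x hx => ?_, fun x hx => ?_, ?_⟩
  · have := h.norm_le hx; linarith
  · have := h1.norm_le hx; linarith
  · have := h2.norm_le hx; linarith
  · have h3 : HolB α U (fderiv ℝ (fderiv ℝ g)) (2 * C 2 + C 3) :=
      HolB.of_lip hα hα1 (fun x hx => h2.norm_le hx) (fun x hx y hy => h2.lip hc hx hy) n3
    exact h3.mono (by linarith)

end Product

end Claimed.Agent.R316.B8M
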