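import Claimed.Agent.R316.B8M.Basic
import Claimed.Agent.R316.B8M.Sm

/-!
# B8M-COMP: the classes `YB`, `C21`, `XB`, `C2aB`, `SmB` under composition with a map with bounded derivatives

PROVED (helper111; `exists_SmB_comp` from `Sm.lean`).  Purely in `E`, no atlas.  `τ : D → S'`, `D` open and CONVEX, `‖D^k τ‖ ≤ c` on `D` for `k = 1,2,3`.

Recipes.
* `τ` is `c`-Lipschitz on `D` (`B8.lip_of_fderiv`), so `‖g (τ x) - g (τ y)‖ ≤ K (c ‖x-y‖)^α ≤ max 1 c * K ‖x-y‖^α`.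
* jets: `jet_comp` (`Basic.lean`): `D(w∘τ) = Dw(τ) ∘ Dτ`, `D²(w∘τ) = D²w(τ)(Dτ,Dτ) + Dw(τ) D²τ`.
  Hölder seminorm of a product: `B8.HolB.clm_apply` style estimates; `Dτ, D²τ` are bounded by `c` and `c`-Lipschitz, hence
  `[·]_α ≤ 3c` (`B8.HolB.of_lip`); `Dw ∘ τ` is bounded by `K` and `K c`-Lipschitz on the convex set `D`.
  It may be convenient to write `pullJ L Q J` as a sum of continuous multilinear expressions and to prove one lemma
  `‖pullJ L Q J - pullJ L' Q' J'‖ ≤ (1 + ‖L‖ + ‖L‖^2 + ‖Q‖) ‖J - J'‖ + (1 + ‖L‖ + ‖L'‖) ‖J'‖ (‖L - L'‖ + ‖Q - Q'‖)`.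
* continuity on `I ×ˢ D`: compose with the continuous map `(t,x) ↦ (t, τ x)`.
* `SmB.comp`: `norm_iteratedFDerivWithin_comp_le` / `norm_iteratedFDeriv_comp_le` with `D = max 1 (max_{i ≤ n} c i)`; on open
  sets `iteratedFDerivWithin = iteratedFDeriv` (`iteratedFDerivWithin_of_isOpen`).
-/

set_option autoImplicit false
set_option maxSynthPendingDepth 3
set_option linter.unusedSectionVars false

open scoped Topology ContDiff
open Set Filter Metric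

namespace Claimed.Agent.R316.B8M

open Claimed.Agent.R316.B8

variable {E : Type} [NormedAddCommGroup E] [NormedSpace ℝ E]
variable {G : Type*} [NormedAddCommGroup G] [NormedSpace ℝ G]

/-- hypotheses on the inner map. -/
structure Inner (τ : E → E) (D S' : Set E) (c : ℝ) : Prop where
  isOpen : IsOpen D
  convex : Convex ℝ D
  isOpen' : IsOpen S'
  smooth : ContDiffOn ℝ ∞ τ D
  maps : MapsTo τ D S'
  d1 : ∀ z ∈ D, ‖fderiv ℝ τ z‖ ≤ c
  d2 : ∀ z ∈ D, ‖fderiv ℝ (fderiv ℝ τ) z‖ ≤ c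
  d3 : ∀ z ∈ D, ‖fderiv ℝ (fderiv ℝ (fderiv ℝ τ)) z‖ ≤ c

theorem Inner.mono {τ : E → E} {D S' : Set E} {c c' : ℝ} (h : Inner τ D S' c) (hc : c ≤ c') :
    Inner τ D S' c' :=
  ⟨h.isOpen, h.convex, h.isOpen', h.smooth, h.maps, fun z hz => (h.d1 z hz).trans hc,
    fun z hz => (h.d2 z hz).trans hc, fun z hz => (h.d3 z hz).trans hc⟩

theorem Inner.contDiffAt {τ : E → E} {D S' : Set E} {c : ℝ} (h : Inner τ D S' c) {z : E}
    (hz : z ∈ D) : ContDiffAt ℝ ∞ τ z := h.smooth.contDiffAt (h.isOpen.mem_nhds hz)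

theorem Inner.differentiableAt {τ : E → E} {D S' : Set E} {c : ℝ} (h : Inner τ D S' c) {z : E}
    (hz : z ∈ D) : DifferentiableAt ℝ τ z := (h.contDiffAt hz).differentiableAt (by simp)

theorem Inner.lip {τ : E → E} {D S' : Set E} {c : ℝ} (h : Inner τ D S' c) :
    ∀ x ∈ D, ∀ y ∈ D, ‖τ x - τ y‖ ≤ c * ‖x - y‖ :=
  lip_of_fderiv h.isOpen h.convex (h.smooth.differentiableOn (by simp)) h.d1

theorem Inner.lip1 {τ : E → E} {D S' : Set E} {c : ℝ} (h : Inner τ D S' c) :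
    ∀ x ∈ D, ∀ y ∈ D, ‖fderiv ℝ τ x - fderiv ℝ τ y‖ ≤ c * ‖x - y‖ :=
  lip_of_fderiv h.isOpen h.convex
    ((h.smooth.fderiv_of_isOpen h.isOpen (m := ∞) (by simp)).differentiableOn (by simp)) h.d2

theorem Inner.lip2 {τ : E → E} {D S' : Set E} {c : ℝ} (h : Inner τ D S' c) :
    ∀ x ∈ D, ∀ y ∈ D, ‖fderiv ℝ (fderiv ℝ τ) x - fderiv ℝ (fderiv ℝ τ) y‖ ≤ c * ‖x - y‖ :=
  lip_of_fderiv h.isOpen h.convex
    (((h.smooth.fderiv_of_isOpen h.isOpen (m := ∞) (by simp)).fderiv_of_isOpen h.isOpen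
      (m := ∞) (by simp)).differentiableOn (by simp)) h.d3

theorem Inner.continuousOn_prod {τ : E → E} {D S' : Set E} {c : ℝ} (h : Inner τ D S' c)
    (I : Set ℝ) : ContinuousOn (fun q : ℝ × E => ((q.1, τ q.2) : ℝ × E)) (I ×ˢ D) :=
  continuousOn_fst.prodMk (h.smooth.continuousOn.comp continuousOn_snd fun _ hq => hq.2)

theorem Inner.mapsTo_prod {τ : E → E} {D S' : Set E} {c : ℝ} (h : Inner τ D S' c)
    (I : Set ℝ) : MapsTo (fun q : ℝ × E => ((q.1, τ q.2) : ℝ × E)) (I ×ˢ D) (I ×ˢ S') :=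
  fun _ hq => ⟨hq.1, h.maps hq.2⟩

theorem HolB.comp_inner {τ : E → E} {D S' : Set E} {c α K : ℝ} {g : E → G}
    (h : Inner τ D S' c) (hα : 0 < α) (hα1 : α ≤ 1) (hK : 0 ≤ K) (hg : HolB α S' g K) :
    HolB α D (fun z => g (τ z)) (max 1 c * K) := by
  intro x hx y hy
  have hc : 0 ≤ c := (norm_nonneg _).trans (h.d1 x hx)
  have hd : 0 ≤ ‖x - y‖ := norm_nonneg _
  have h1 : c ^ α ≤ max 1 c := by
    rcases le_total c 1 with h | h
    · exact (Real.rpow_le_one hc h hα.le).trans (le_max_left _ _)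
    · refine le_trans ?_ (le_max_right _ _)
      have := Real.rpow_le_rpow_of_exponent_le h hα1
      rwa [Real.rpow_one] at this
  calc ‖g (τ x) - g (τ y)‖ ≤ K * ‖τ x - τ y‖ ^ α := hg _ (h.maps hx) _ (h.maps hy)
    _ ≤ K * (c * ‖x - y‖) ^ α := by
        gcongr
        exact h.lip x hx y hy
    _ = K * (c ^ α * ‖x - y‖ ^ α) := by rw [Real.mul_rpow hc hd]
    _ ≤ K * (max 1 c * ‖x - y‖ ^ α) := by gcongr
    _ = max 1 c * K * ‖x - y‖ ^ α := by ring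

theorem YB.comp_inner {τ : E → E} {D S' : Set E} {c α K : ℝ} {I : Set ℝ} {f : ℝ → E → G}
    (h : Inner τ D S' c) (hα : 0 < α) (hα1 : α ≤ 1) (hK : 0 ≤ K) (hf : YB α I S' f K) :
    YB α I D (fun t z => f t (τ z)) (max 1 c * K) := by
  refine ⟨hf.cont.comp (h.continuousOn_prod I) (h.mapsTo_prod I), fun t ht z hz => ?_,
    fun t ht => HolB.comp_inner h hα hα1 hK (hf.hol t ht)⟩
  refine (hf.sup t ht _ (h.maps hz)).trans ?_
  nlinarith [le_max_left 1 c]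

theorem bilinearComp_eq (H : Bil E) (L : E →L[ℝ] E) :
    H.bilinearComp L L = ((ContinuousLinearMap.compL ℝ E E ℝ).flip L) ∘L (H ∘L L) := by
  ext v w
  simp

theorem continuous_pullJ : Continuous (fun q : (E →L[ℝ] E) × (E →L[ℝ] E →L[ℝ] E) × Jet E =>
    pullJ q.1 q.2.1 q.2.2) := by
  unfold pullJ
  simp only [bilinearComp_eq]
  refine Continuous.prodMk (by fun_prop) (Continuous.prodMk ?_ ?_)
  · exact Continuous.clm_comp (by fun_prop) (by fun_prop)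
  · refine Continuous.add ?_ ?_
    · refine Continuous.clm_comp ?_ (Continuous.clm_comp (by fun_prop) (by fun_prop))
      exact (ContinuousLinearMap.compL ℝ E E ℝ).flip.continuous.comp (by fun_prop)
    · refine Continuous.clm_comp ?_ (by fun_prop)
      exact (ContinuousLinearMap.compL ℝ E E ℝ).continuous.comp (by fun_prop)

theorem Inner.jet_comp {τ : E → E} {D S' : Set E} {c : ℝ} (h : Inner τ D S' c) {w : ℝ → E → ℝ}
    {t : ℝ} (hw : ContDiffOn ℝ 2 (w t) S') {z : E} (hz : z ∈ D) :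
    jet (fun t y => w t (τ y)) t z
      = pullJ (fderiv ℝ τ z) (fderiv ℝ (fderiv ℝ τ) z) (jet w t (τ z)) :=
  B8M.jet_comp ((h.contDiffAt hz).of_le (WithTop.coe_le_coe.2 le_top))
    (hw.contDiffAt (h.isOpen'.mem_nhds (h.maps hz)))

theorem C21.comp_inner {τ : E → E} {D S' : Set E} {c : ℝ} {I : Set ℝ} {w wt : ℝ → E → ℝ}
    (h : Inner τ D S' c) (hw : C21 I S' w wt) :
    C21 I D (fun t z => w t (τ z)) (fun t z => wt t (τ z)) := by
  have hj : ContinuousOn (fun q : ℝ × E => jet (fun t z => w t (τ z)) q.1 q.2) (I ×ˢ D) := by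
    have h1 : ContinuousOn (fun q : ℝ × E => pullJ (fderiv ℝ τ q.2) (fderiv ℝ (fderiv ℝ τ) q.2)
        (jet w q.1 (τ q.2))) (I ×ˢ D) := by
      refine continuous_pullJ.comp_continuousOn (ContinuousOn.prodMk ?_ (ContinuousOn.prodMk ?_ ?_))
      · exact (h.smooth.continuousOn_fderiv_of_isOpen h.isOpen (by simp)).comp continuousOn_snd
          fun _ hq => hq.2
      · exact ((h.smooth.fderiv_of_isOpen h.isOpen (m := ∞) (by simp)).continuousOn_fderiv_of_isOpen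
          h.isOpen (by simp)).comp continuousOn_snd fun _ hq => hq.2
      · exact (jet_continuousOn hw).comp (h.continuousOn_prod I) (h.mapsTo_prod I)
    exact h1.congr fun q hq => h.jet_comp (hw.c2 q.1 hq.1) hq.2
  refine ⟨fun t ht => (hw.c2 t ht).comp (h.smooth.of_le (WithTop.coe_le_coe.2 le_top)) h.maps,
    fun t ht x hx => hw.dt t ht _ (h.maps hx),
    hw.cont0.comp (h.continuousOn_prod I) (h.mapsTo_prod I), ?_, ?_,
    hw.contt.comp (h.continuousOn_prod I) (h.mapsTo_prod I)⟩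
  · exact (continuous_fst.comp continuous_snd).comp_continuousOn hj
  · exact (continuous_snd.comp continuous_snd).comp_continuousOn hj


theorem norm_pullJ_sub_le (L L' : E →L[ℝ] E) (Q Q' : E →L[ℝ] E →L[ℝ] E) (J : Jet E) :
    ‖pullJ L Q J - pullJ L' Q' J‖ ≤ (1 + ‖L‖ + ‖L'‖) * ‖J‖ * (‖L - L'‖ + ‖Q - Q'‖) := by
  have h1 : ‖J.2.1‖ ≤ ‖J‖ := (norm_fst_le J.2).trans (norm_snd_le J)
  have h2 : ‖J.2.2‖ ≤ ‖J‖ := (norm_snd_le J.2).trans (norm_snd_le J)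
  have hL := norm_nonneg L
  have hL' := norm_nonneg L'
  have hJ := norm_nonneg J
  have hdL := norm_nonneg (L - L')
  have hdQ := norm_nonneg (Q - Q')
  have hpos : 0 ≤ (1 + ‖L‖ + ‖L'‖) * ‖J‖ * (‖L - L'‖ + ‖Q - Q'‖) := by positivity
  rw [Prod.norm_def, Prod.norm_def]
  refine max_le ?_ (max_le ?_ ?_)
  · show ‖J.1 - J.1‖ ≤ _
    simpa using hpos
  · show ‖J.2.1 ∘L L - J.2.1 ∘L L'‖ ≤ _
    rw [← ContinuousLinearMap.comp_sub]
    refine (ContinuousLinearMap.opNorm_comp_le _ _).trans ?_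
    calc ‖J.2.1‖ * ‖L - L'‖ ≤ ‖J‖ * ‖L - L'‖ := by gcongr
      _ ≤ (1 + ‖L‖ + ‖L'‖) * ‖J‖ * (‖L - L'‖ + ‖Q - Q'‖) := by
        have : ‖J‖ * ‖L - L'‖ ≤ ‖J‖ * (‖L - L'‖ + ‖Q - Q'‖) := by gcongr; linarith
        have h3 : 0 ≤ ‖J‖ * (‖L - L'‖ + ‖Q - Q'‖) := by positivity
        nlinarith
  · refine ContinuousLinearMap.opNorm_le_bound _ hpos fun v => ?_
    refine ContinuousLinearMap.opNorm_le_bound _ (by positivity) fun w => ?_
    show ‖(pullJ L Q J).2.2 v w - (pullJ L' Q' J).2.2 v w‖ ≤ _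
    rw [pullJ_apply, pullJ_apply]
    have e : J.2.2 (L v) (L w) + J.2.1 (Q v w) - (J.2.2 (L' v) (L' w) + J.2.1 (Q' v w))
        = J.2.2 ((L - L') v) (L w) + J.2.2 (L' v) ((L - L') w) + J.2.1 ((Q - Q') v w) := by
      simp only [sub_apply, map_sub]
      ring
    rw [e]
    have e1 : ‖J.2.2 ((L - L') v) (L w)‖ ≤ ‖J‖ * (‖L - L'‖ * ‖v‖) * (‖L‖ * ‖w‖) := by
      refine (ContinuousLinearMap.le_opNorm₂ _ _ _).trans ?_
      gcongr
      · exact (L - L').le_opNorm v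
      · exact L.le_opNorm w
    have e2 : ‖J.2.2 (L' v) ((L - L') w)‖ ≤ ‖J‖ * (‖L'‖ * ‖v‖) * (‖L - L'‖ * ‖w‖) := by
      refine (ContinuousLinearMap.le_opNorm₂ _ _ _).trans ?_
      gcongr
      · exact L'.le_opNorm v
      · exact (L - L').le_opNorm w
    have e3 : ‖J.2.1 ((Q - Q') v w)‖ ≤ ‖J‖ * (‖Q - Q'‖ * ‖v‖ * ‖w‖) := by
      refine (ContinuousLinearMap.le_opNorm _ _).trans ?_
      gcongr
      exact ContinuousLinearMap.le_opNorm₂ _ _ _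
    have hvw : 0 ≤ ‖v‖ * ‖w‖ := by positivity
    calc ‖J.2.2 ((L - L') v) (L w) + J.2.2 (L' v) ((L - L') w) + J.2.1 ((Q - Q') v w)‖
        ≤ ‖J‖ * (‖L - L'‖ * ‖v‖) * (‖L‖ * ‖w‖) + ‖J‖ * (‖L'‖ * ‖v‖) * (‖L - L'‖ * ‖w‖)
          + ‖J‖ * (‖Q - Q'‖ * ‖v‖ * ‖w‖) :=
          (norm_add₃_le).trans (add_le_add (add_le_add e1 e2) e3)
      _ = ‖J‖ * ((‖L‖ + ‖L'‖) * ‖L - L'‖ + ‖Q - Q'‖) * (‖v‖ * ‖w‖) := by ring
      _ ≤ ‖J‖ * ((1 + ‖L‖ + ‖L'‖) * (‖L - L'‖ + ‖Q - Q'‖)) * (‖v‖ * ‖w‖) := by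
          gcongr
          nlinarith [mul_nonneg hL hdQ, mul_nonneg hL' hdQ]
      _ = (1 + ‖L‖ + ‖L'‖) * ‖J‖ * (‖L - L'‖ + ‖Q - Q'‖) * ‖v‖ * ‖w‖ := by ring

/-- Lipschitz bound of `g ∘ τ` (`S'` need not be convex). -/
theorem Inner.lip_comp {τ : E → E} {D S' : Set E} {c K : ℝ} (h : Inner τ D S' c) {g : E → G}
    (hg : DifferentiableOn ℝ g S') (hK : SupB S' (fderiv ℝ g) K) :
    ∀ x ∈ D, ∀ y ∈ D, ‖g (τ x) - g (τ y)‖ ≤ K * c * ‖x - y‖ := by
  have hd : ∀ z ∈ D, HasFDerivAt (fun z => g (τ z)) ((fderiv ℝ g (τ z)) ∘L (fderiv ℝ τ z)) z := by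
    intro z hz
    exact ((hg _ (h.maps hz)).differentiableAt (h.isOpen'.mem_nhds (h.maps hz))).hasFDerivAt.comp z
      (h.differentiableAt hz).hasFDerivAt
  refine lip_of_fderiv h.isOpen h.convex (fun z hz => (hd z hz).differentiableAt.differentiableWithinAt)
    fun z hz => ?_
  rw [(hd z hz).fderiv]
  refine (ContinuousLinearMap.opNorm_comp_le _ _).trans ?_
  exact mul_le_mul (hK _ (h.maps hz)) (h.d1 z hz) (norm_nonneg _)
    ((norm_nonneg _).trans (hK _ (h.maps hz)))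

/-- the `X` norm of `w ∘ τ`. -/
theorem exists_XB_comp_inner (c α : ℝ) (hα : 0 < α) (hα1 : α ≤ 1) : ∃ C : ℝ, 0 ≤ C ∧
    ∀ (τ : E → E) (D S' : Set E) (I : Set ℝ) (w wt : ℝ → E → ℝ) (K : ℝ), Inner τ D S' c → 0 ≤ K →
      C21 I S' w wt → XB α I S' w wt K →
      XB α I D (fun t z => w t (τ z)) (fun t z => wt t (τ z)) (C * K) := by
  obtain ⟨c₀, hc₀⟩ : ∃ c₀, c₀ = max c 0 := ⟨_, rfl⟩
  have hc0 : 0 ≤ c₀ := hc₀ ▸ le_max_right _ _
  obtain ⟨C₁, hC₁⟩ : ∃ C₁, C₁ = 1 + c₀ + c₀ ^ 2 + c₀ := ⟨_, rfl⟩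
  have hC₁1 : 1 ≤ C₁ := by rw [hC₁]; nlinarith [sq_nonneg c₀]
  refine ⟨C₁ * (3 + c₀) + (1 + c₀ + c₀) * (6 * c₀), by positivity, ?_⟩
  intro τ D S' I w wt K h' hK hw hX
  have h : Inner τ D S' c₀ := h'.mono (hc₀ ▸ le_max_left _ _)
  have hCK : C₁ * K ≤ (C₁ * (3 + c₀) + (1 + c₀ + c₀) * (6 * c₀)) * K := by
    refine mul_le_mul_of_nonneg_right ?_ hK
    nlinarith [mul_nonneg hc0 hc0]
  have hKK : K ≤ C₁ * K := by nlinarith
  have hmax : max 1 c₀ ≤ 3 + c₀ := max_le (by linarith) (by linarith)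
  have hjn : ∀ t ∈ I, ∀ z ∈ D, ‖jet (fun t z => w t (τ z)) t z‖ ≤ C₁ * K := by
    intro t ht z hz
    rw [h.jet_comp (hw.c2 t ht) hz]
    refine (norm_pullJ_le _ _ _).trans ?_
    have h1 := h.d1 z hz
    have h2 := h.d2 z hz
    have h3 := hX.jet_sup t ht _ (h.maps hz)
    rw [hC₁]
    gcongr
  refine ⟨fun t ht z hz => ?_, fun t ht z hz => ?_, fun t ht z hz => ?_, fun t ht z hz => ?_,
    fun t ht => ?_, fun t ht => ?_⟩
  · exact ((norm_jet_le_iff.mp (hjn t ht z hz)).1).trans hCK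
  · exact ((norm_jet_le_iff.mp (hjn t ht z hz)).2.1).trans hCK
  · exact ((norm_jet_le_iff.mp (hjn t ht z hz)).2.2).trans hCK
  · exact (hX.bt t ht _ (h.maps hz)).trans (hKK.trans hCK)
  · -- the Hölder seminorm of the second derivatives
    have hc2 := hw.c2 t ht
    have hd0 : DifferentiableOn ℝ (w t) S' := hc2.differentiableOn (by norm_num)
    have hd1 : DifferentiableOn ℝ (fderiv ℝ (w t)) S' :=
      (hc2.fderiv_of_isOpen h.isOpen' (m := 1) (by norm_num)).differentiableOn (by norm_num)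
    have hKc : 0 ≤ K * c₀ := mul_nonneg hK hc0
    have H0 : HolB α D (fun z => w t (τ z)) (2 * K + K * c₀) :=
      HolB.of_lip hα hα1 (fun z hz => hX.b0 t ht _ (h.maps hz)) (h.lip_comp hd0 (hX.b1 t ht)) hKc
    have H1 : HolB α D (fun z => fderiv ℝ (w t) (τ z)) (2 * K + K * c₀) :=
      HolB.of_lip hα hα1 (fun z hz => hX.b1 t ht _ (h.maps hz)) (h.lip_comp hd1 (hX.b2 t ht)) hKc
    have H2 : HolB α D (fun z => D2 w t (τ z)) (max 1 c₀ * K) :=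
      HolB.comp_inner h hα hα1 hK (hX.h2 t ht)
    have HL : HolB α D (fderiv ℝ τ) (2 * c₀ + c₀) := HolB.of_lip hα hα1 h.d1 h.lip1 hc0
    have HQ : HolB α D (fderiv ℝ (fderiv ℝ τ)) (2 * c₀ + c₀) := HolB.of_lip hα hα1 h.d2 h.lip2 hc0
    intro x hx y hy
    have hr : 0 ≤ ‖x - y‖ ^ α := Real.rpow_nonneg (norm_nonneg _) _
    have hJ : ‖jet w t (τ x) - jet w t (τ y)‖ ≤ (3 + c₀) * K * ‖x - y‖ ^ α := by
      have e : jet w t (τ x) - jet w t (τ y) = (w t (τ x) - w t (τ y),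
        D1 w t (τ x) - D1 w t (τ y), D2 w t (τ x) - D2 w t (τ y)) := rfl
      rw [e, Prod.norm_def, Prod.norm_def]
      have hKr : 0 ≤ K * ‖x - y‖ ^ α := mul_nonneg hK hr
      refine max_le ?_ (max_le ?_ ?_)
      · refine (H0 x hx y hy).trans ?_
        nlinarith
      · refine le_trans (H1 x hx y hy) ?_
        nlinarith
      · refine le_trans (H2 x hx y hy) ?_
        nlinarith
    have e1 : D2 (fun t z => w t (τ z)) t x - D2 (fun t z => w t (τ z)) t y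
        = (jet (fun t z => w t (τ z)) t x - jet (fun t z => w t (τ z)) t y).2.2 := rfl
    rw [e1]
    refine ((norm_snd_le _).trans (norm_snd_le _)).trans ?_
    rw [h.jet_comp hc2 hx, h.jet_comp hc2 hy]
    have e2 : pullJ (fderiv ℝ τ x) (fderiv ℝ (fderiv ℝ τ) x) (jet w t (τ x))
        - pullJ (fderiv ℝ τ y) (fderiv ℝ (fderiv ℝ τ) y) (jet w t (τ y))
        = pullJ (fderiv ℝ τ x) (fderiv ℝ (fderiv ℝ τ) x) (jet w t (τ x) - jet w t (τ y))
          + (pullJ (fderiv ℝ τ x) (fderiv ℝ (fderiv ℝ τ) x) (jet w t (τ y))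
            - pullJ (fderiv ℝ τ y) (fderiv ℝ (fderiv ℝ τ) y) (jet w t (τ y))) := by
      rw [pullJ_sub]
      abel
    rw [e2]
    have b1 : ‖pullJ (fderiv ℝ τ x) (fderiv ℝ (fderiv ℝ τ) x) (jet w t (τ x) - jet w t (τ y))‖
        ≤ C₁ * ((3 + c₀) * K * ‖x - y‖ ^ α) := by
      refine (norm_pullJ_le _ _ _).trans ?_
      have h1 := h.d1 x hx
      have h2 := h.d2 x hx
      rw [hC₁]
      gcongr
    have b2 : ‖pullJ (fderiv ℝ τ x) (fderiv ℝ (fderiv ℝ τ) x) (jet w t (τ y))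
            - pullJ (fderiv ℝ τ y) (fderiv ℝ (fderiv ℝ τ) y) (jet w t (τ y))‖
        ≤ (1 + c₀ + c₀) * K * ((2 * c₀ + c₀) * ‖x - y‖ ^ α + (2 * c₀ + c₀) * ‖x - y‖ ^ α) := by
      refine (norm_pullJ_sub_le _ _ _ _ _).trans ?_
      have h1 := h.d1 x hx
      have h2 := h.d1 y hy
      have h3 := hX.jet_sup t ht _ (h.maps hy)
      have h4 := HL x hx y hy
      have h5 := HQ x hx y hy
      gcongr
    refine (norm_add_le _ _).trans ((add_le_add b1 b2).trans (le_of_eq ?_))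
    ring
  · refine (HolB.comp_inner h hα hα1 hK (hX.ht t ht)).mono ?_
    refine mul_le_mul_of_nonneg_right ?_ hK
    nlinarith [mul_nonneg hc0 hc0]

theorem exists_C2aB_comp_inner (c α : ℝ) (hα : 0 < α) (hα1 : α ≤ 1) : ∃ C : ℝ, 0 ≤ C ∧
    ∀ (τ : E → E) (D S' : Set E) (g : E → ℝ) (K : ℝ), Inner τ D S' c → 0 ≤ K →
      C2aB α S' g K → C2aB α D (fun z => g (τ z)) (C * K) := by
  obtain ⟨C, hC, h⟩ := exists_XB_comp_inner (E := E) c α hα hα1
  refine ⟨C, hC, fun τ D S' g K hτ hK hg => ?_⟩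
  have h1 : C21 (univ : Set ℝ) S' (fun _ => g) (fun _ _ => 0) := C21.static hτ.isOpen' hg.c2
  have h2 := h τ D S' univ _ _ K hτ hK h1 (XB.static hg hK)
  exact XB.slice (C21.comp_inner hτ h1) h2 (mem_univ 0)

/-- smooth functions with bounded derivatives, composed with a smooth map with bounded derivatives
(`D`, `S'` open). -/
theorem exists_SmB_comp (c C : ℕ → ℝ) : ∃ C' : ℕ → ℝ,
    ∀ (τ : E → E) (D S' : Set E) (g : E → G), IsOpen D → IsOpen S' → MapsTo τ D S' → SmB D τ c →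
      SmB S' g C → SmB D (fun z => g (τ z)) C' := by
  obtain ⟨C', h⟩ := exists_SmB_comp_gen (W := E) (W' := E) (G := G) c C
  exact ⟨C', fun τ D S' g hD hS' hm hτ hg =>
    h D S' τ g hD.uniqueDiffOn hS'.uniqueDiffOn hm hτ hg⟩

/-- joint smoothness in `(t,z)` is preserved. -/
theorem contDiffOn_comp_inner {τ : E → E} {D S' : Set E} {I : Set ℝ} {f : ℝ → E → G}
    (hτ : ContDiffOn ℝ ∞ τ D) (hm : MapsTo τ D S')
    (hf : ContDiffOn ℝ ∞ (fun q : ℝ × E => f q.1 q.2) (I ×ˢ S')) :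
    ContDiffOn ℝ ∞ (fun q : ℝ × E => f q.1 (τ q.2)) (I ×ˢ D) := by
  have h1 : ContDiffOn ℝ ∞ (fun q : ℝ × E => ((q.1, τ q.2) : ℝ × E)) (I ×ˢ D) :=
    contDiffOn_fst.prodMk (hτ.comp contDiffOn_snd fun _ hq => hq.2)
  exact hf.comp h1 fun _ hq => ⟨hq.1, hm hq.2⟩

end Claimed.Agent.R316.B8M
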