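import Claimed.Agent.R316.B8M.Reg

/-!
# B8M-CONT (M8): continuation of solutions of fully nonlinear parabolic equations on a uniform atlas

`u_t = F(t,x,jet u)`, `u(0) = 0` on `[0,T] × X`.

* `𝒢 i t z ⊆ Jet E`: the ADMISSIBLE jets (chosen by the consumer, e.g. `{J | α - t Ric α + levi J > 0}`); solutions of the class have admissible jets.
* `A.SolCl F 𝒢 T' u ut`: `u` is a solution on `[0,T']`, smooth with ALL space-time derivatives bounded in the charts of the atlas (`A.SmST`), time derivative `ut`, admissible jets, `u(0) = 0`.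
* `A.shiftF F t₀ g i s z J = F i (t₀ + s) z (jet g (z) + J)`: the equation for `ũ(s) = u(t₀ + s) - g`, `g = u(t₀)`.
* `A.Good F 𝒢 T σ δ lam CF t₀ g`: the shifted nonlinearity satisfies the hypotheses `A.NLHyp` of short time existence on the `δ`-tube with the constants `(δ, lam, CF)`, on `[0, min σ (T - t₀)]` (`σ > 0` chosen by the consumer), and the tube consists of admissible jets.
* **`continuation`**: if `Good` holds at `(0, 0)` and at `(T', u T')` for EVERY solution of the class on `[0,T']`, `0 < T' < T`, with constants independent of `T'` and `u`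
  (this is where the a priori estimates of the consumer enter), then a solution of the class exists on `[0,T]`.

Everything in this file is PROVED.

Recipes.  `(ε₀, K)` from `A.exists_short_time α δ lam CF`, `ε = min ε₀ σ`, `C_r` from `A.exists_reg α δ (δ/2) lam K Tm=ε₀`; `exists_short_time` is always used with `T₀ = min σ (T - t₀)`, so that `min ε₀ T₀ = min ε (T - t₀)`.
* `solCl_start`: `A.exists_short_time` for `A.shiftF F 0 0`; note `A.shiftF F 0 0 i s z J = F i (0 + s) z (jet 0 + J) = F i s z J` (`zero_add`, jet of the zero function is `0`); `A.exists_reg`.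
* `SolCl.shift`: for `0 < a < T'`, `w s = u (a + s) - u a` solves the equation of `A.shiftF F a (u a)` on `[0, T' - a]` (`B8.jet_sub`/`jet_add` in the charts).
* `solCl_extend` (OVERLAP + UNIQUENESS, no matching of derivatives at a junction).  Let `K_u` with `A.XM α (Icc 0 T') u ut K_u` (`A.exists_XM_of_SmST`), `C_t` from `A.exists_jet_time`.
  Choose `0 < η ≤ min (T'/2) (ε/2)` with `C_t K_u η^{α/(2+α)} < δ`; `a = T' - η > 0`.  `Good a (u a)` by the hypothesis applied to `SolCl.restrict`.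
  `ũ` on `[0,τ]`, `τ = min ε (T - a) > η`, from `A.exists_short_time` for `A.shiftF F a (u a)`; smooth by `A.exists_reg`.  On `[0,η]`: `w s = u (a+s) - u a` and `ũ` solve the same equation, jets `< δ` (`exists_jet_time`, resp. `δ/2`), same initial
  values: `A.short_unique` gives `w = ũ` on `A.X`.  `û = catT T' u (fun t x => u a x + ũ (t - a) x)`, `ût = catT T' ut (fun t x => ũt (t - a) x)`.  Then `û t x = u a x + ũ (t - a) x` for ALL `t ∈ [a, a+τ]`, `x ∈ A.X`, and `û = u` on `[0,T']`: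
  `A.SmST` on `[0,T']` and on `[a, a+τ]` (`SmST.add_static`, `SmST.congr`), hence on `[0, a+τ]` (`SmST.union`, constants: pointwise max).  The derivative in time, the equation and the admissibility are checked separately on the two (overlapping, relatively
  open) pieces.  `a + τ = min (a + ε) T ≥ min (T' + ε/2) T`.
* `exists_NLHyp_shift`.  COMPAT: `jet g_i (z) = A.pull i j z (jet g_j (tr z))` (`A.jet_rep`), `A.pull_add`, then `CompatN` of `F` on the `δ₀`-tube (`‖jet g_j + J‖ < K + δ`, `‖jet g_i + pull J‖ < K + δ`).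
  SMOOTH: `exists_SmB_comp_gen` with the inner map `(s,z,J) ↦ (t₀ + s, z, jet g_i z + J)` (`SmB.prodMk`, `SmB.affine`, `SmB.static`; `z ↦ jet g_i z` is `SmB` with constants `Cg k + Cg (k+1) + Cg (k+2)`: `SmB.fderivWithin` twice, `fderivWithin_of_isOpen`; order `0` is bounded by `max T (max 3 δ₀)`).
  ELL: `fderiv ℝ (fun J => F i t z (c + J)) J = fderiv ℝ (F i t z) (c + J)` (`fderiv_comp_add_left`).
* `continuation`: induction on `n`: a solution of the class exists on `[0, min (ε + n ε/2) T]`... (`solCl_start`, `solCl_extend`, if the end point is already `T` stop); `n ≥ 2T/ε`.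
-/

set_option autoImplicit false
set_option maxSynthPendingDepth 3
set_option linter.unusedSectionVars false

open scoped Topology ContDiff
open Set Filter Metric

namespace Claimed.Agent.R316.B8M

open Claimed.Agent.R316.B8

variable {V E : Type} [NormedAddCommGroup V] [NormedSpace ℝ V]
  [NormedAddCommGroup E] [InnerProductSpace ℝ E] [FiniteDimensional ℝ E]

theorem SmB.jet_static {g : E → ℝ} {C : ℕ → ℝ} (h : SmB (ball (0 : E) 3) g C) :
    SmB (ball (0 : E) 3) (fun z => jet (fun _ => g) 0 z)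
      (fun k => C k + (C (k + 1) + C (k + 1 + 1))) := by
  have hU : UniqueDiffOn ℝ (ball (0 : E) 3) := isOpen_ball.uniqueDiffOn
  have h1' : SmB (ball (0 : E) 3) (fderiv ℝ g) (fun k => C (k + 1)) :=
    (h.fderivWithin hU).congr (fun q hq => (fderivWithin_of_isOpen isOpen_ball hq).symm)
  have h2' : SmB (ball (0 : E) 3) (fderiv ℝ (fderiv ℝ g)) (fun k => C (k + 1 + 1)) :=
    (h1'.fderivWithin hU).congr (fun q hq => (fderivWithin_of_isOpen isOpen_ball hq).symm)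
  exact h.prodMk (h1'.prodMk h2' hU) hU

namespace UAtlas

variable (A : UAtlas V E)

/-- the nonlinearity for `ũ(s) = u(t₀ + s) - g`. -/
noncomputable def shiftF (F : A.ι → ℝ → E → Jet E → ℝ) (t₀ : ℝ) (g : V → ℝ) :
    A.ι → ℝ → E → Jet E → ℝ :=
  fun i s z J => F i (t₀ + s) z (jet (fun _ => A.rep0 i g) 0 z + J)

/-- solutions of the class on `[0,T']`. -/
structure SolCl (F : A.ι → ℝ → E → Jet E → ℝ) (𝒢 : A.ι → ℝ → E → Set (Jet E)) (T' : ℝ)
    (u ut : ℝ → V → ℝ) : Prop where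
  sm : ∃ C : ℕ → ℝ, A.SmST (Icc 0 T') u C
  dt : ∀ t ∈ Icc 0 T', ∀ x ∈ A.X, HasDerivWithinAt (fun s => u s x) (ut t x) (Icc 0 T') t
  adm : ∀ i, ∀ t ∈ Icc 0 T', ∀ z ∈ ball (0 : E) 3, jet (A.rep i u) t z ∈ 𝒢 i t z
  sol : A.SolN (Icc 0 T') F u ut
  init : ∀ x ∈ A.X, u 0 x = 0

/-- the restart condition at time `t₀` with initial function `g`. -/
structure Good (F : A.ι → ℝ → E → Jet E → ℝ) (𝒢 : A.ι → ℝ → E → Set (Jet E)) (T σ δ lam : ℝ)
    (CF : ℕ → ℝ) (t₀ : ℝ) (g : V → ℝ) : Prop where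
  hyp : A.NLHyp (min σ (T - t₀)) δ lam CF (A.shiftF F t₀ g)
  adm : ∀ i, ∀ s ∈ Icc 0 (min σ (T - t₀)), ∀ z ∈ ball (0 : E) 3, ∀ J ∈ ball (0 : Jet E) δ,
    jet (fun _ => A.rep0 i g) 0 z + J ∈ 𝒢 i (t₀ + s) z

variable {A}
variable {F : A.ι → ℝ → E → Jet E → ℝ} {𝒢 : A.ι → ℝ → E → Set (Jet E)}

theorem SolCl.restrict {T' T'' : ℝ} {u ut : ℝ → V → ℝ} (h : A.SolCl F 𝒢 T' u ut) (h0 : 0 < T'')
    (h1 : T'' ≤ T') : A.SolCl F 𝒢 T'' u ut := by
  have hsub : Icc (0 : ℝ) T'' ⊆ Icc 0 T' := Icc_subset_Icc le_rfl h1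
  obtain ⟨C, hC⟩ := h.sm
  exact ⟨⟨C, fun i => (hC i).subset
      ((uniqueDiffOn_Icc (h0.trans_le h1)).prod isOpen_ball.uniqueDiffOn)
      ((uniqueDiffOn_Icc h0).prod isOpen_ball.uniqueDiffOn) (Set.prod_mono hsub subset_rfl)⟩,
    fun t ht x hx => (h.dt t (hsub ht) x hx).mono hsub,
    fun i t ht z hz => h.adm i t (hsub ht) z hz, fun i t ht z hz => h.sol i t (hsub ht) z hz,
    h.init⟩

theorem SolCl.c21M {T' : ℝ} {u ut : ℝ → V → ℝ} (h : A.SolCl F 𝒢 T' u ut) (hT' : 0 < T') :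
    A.C21M (Icc 0 T') u ut := by
  obtain ⟨C, hC⟩ := h.sm
  obtain ⟨K, _, hK⟩ := A.exists_XM_of_SmST (1 / 2) C (by norm_num) (by norm_num)
  exact (hK T' u ut hT' hC h.dt).1

theorem jet_rep0_zero (i : A.ι) (z : E) : jet (fun _ : ℝ => A.rep0 i (0 : V → ℝ)) 0 z = 0 := by
  have h0 : A.rep0 i (0 : V → ℝ) = fun _ => (0 : ℝ) := rfl
  simp [jet, D1, D2, h0]

/-- the shifted function solves the shifted equation. -/
theorem SolCl.shift {T' a : ℝ} {u ut : ℝ → V → ℝ} (h : A.SolCl F 𝒢 T' u ut) (ha : 0 ≤ a)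
    (haT : a < T') :
    A.C21M (Icc 0 (T' - a)) (fun s x => u (a + s) x - u a x) (fun s x => ut (a + s) x) ∧
    A.SolN (Icc 0 (T' - a)) (A.shiftF F a (u a)) (fun s x => u (a + s) x - u a x)
      (fun s x => ut (a + s) x) := by
  have hT' : 0 < T' := lt_of_le_of_lt ha haT
  have hC := h.c21M hT'
  have hsub : Icc (0 : ℝ) (T' - a) ⊆ {t | a + t ∈ Icc (0 : ℝ) T'} :=
    fun t ht => ⟨by linarith [ht.1], by linarith [ht.2]⟩
  have haI : a ∈ Icc (0 : ℝ) T' := ⟨ha, haT.le⟩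
  constructor
  · intro i
    have h1 := ((hC i).shift (t₀ := a)).subset hsub subset_rfl
    have h2 : C21 (Icc 0 (T' - a)) (ball (0 : E) 3) (fun _ => A.rep i u a) (fun _ _ => 0) :=
      C21.static isOpen_ball ((hC i).c2 a haI)
    refine (h1.sub isOpen_ball h2).congr isOpen_ball (fun t _ x _ => rfl) (fun t _ x _ => ?_)
    simp [rep, shiftT]
  · intro i t ht z hz
    have h3 := h.sol i (a + t) (hsub ht) z hz
    have hj : jet (A.rep i (fun s x => u (a + s) x - u a x)) t z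
        = jet (A.rep i u) (a + t) z - jet (fun _ => A.rep0 i (u a)) 0 z :=
      jet_sub (u := shiftT a (A.rep i u)) (v := fun _ => A.rep0 i (u a)) isOpen_ball hz
        ((hC i).c2 (a + t) (hsub ht)) ((hC i).c2 a haI)
    simp only [shiftF]
    rw [hj, add_sub_cancel]
    exact h3

variable (A)

/-- the first step. -/
theorem solCl_start (α σ δ lam : ℝ) (CF : ℕ → ℝ) (hα : 0 < α) (hα1 : α < 1) (hσ : 0 < σ)
    (hδ : 0 < δ) (hlam : 0 < lam) : ∃ ε : ℝ, 0 < ε ∧
    ∀ (T : ℝ) (F : A.ι → ℝ → E → Jet E → ℝ) (𝒢 : A.ι → ℝ → E → Set (Jet E)), 0 < T →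
      A.Good F 𝒢 T σ δ lam CF 0 0 → ∃ u ut : ℝ → V → ℝ, A.SolCl F 𝒢 (min ε T) u ut := by
  obtain ⟨ε₀, K, hε₀, hK, hshort⟩ := A.exists_short_time α δ lam CF hα hα1 hδ hlam
  obtain ⟨Cr, hCr⟩ := A.exists_reg α δ (δ / 2) lam K ε₀ CF hα hα1 (by linarith) hlam hε₀
  refine ⟨min ε₀ σ, lt_min hε₀ hσ, ?_⟩
  intro T F 𝒢 hT hG
  have hT₀ : 0 < min σ (T - 0) := lt_min hσ (by linarith)
  obtain ⟨u, ut, hu, hX, hj, h0, hsol⟩ := hshort (min σ (T - 0)) _ hT₀ hG.hyp
  have hτ : min ε₀ (min σ (T - 0)) = min (min ε₀ σ) T := by rw [sub_zero, min_assoc]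
  rw [hτ] at hu hX hj hsol
  have hτ0 : 0 < min (min ε₀ σ) T := lt_min (lt_min hε₀ hσ) hT
  have hτT₀ : min (min ε₀ σ) T ≤ min σ (T - 0) := by
    rw [sub_zero]
    exact le_min ((min_le_left _ _).trans (min_le_right _ _)) (min_le_right _ _)
  have hτε : min (min ε₀ σ) T ≤ ε₀ := (min_le_left _ _).trans (min_le_left _ _)
  refine ⟨u, ut, ⟨Cr, hCr _ _ _ u ut hτ0 hτT₀ hτε hG.hyp hu hX hj (fun x _ => h0 x) hsol⟩, ?_, ?_, ?_,
    fun x _ => h0 x⟩
  · intro t ht x hx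
    obtain ⟨i, z, hz, rfl⟩ := A.cover x hx
    exact (hu i).dt t ht z (ball_subset_ball (by norm_num) hz)
  · intro i t ht z hz
    have hJ : jet (A.rep i u) t z ∈ ball (0 : Jet E) δ := by
      rw [mem_ball_zero_iff]
      exact lt_of_le_of_lt (hj i t ht z hz) (by linarith)
    have := hG.adm i t ⟨ht.1, ht.2.trans hτT₀⟩ z hz _ hJ
    rwa [jet_rep0_zero, zero_add, zero_add] at this
  · intro i t ht z hz
    have := hsol i t ht z hz
    simp only [shiftF] at this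
    rwa [jet_rep0_zero, zero_add, zero_add] at this

theorem hasDerivWithinAt_Icc_union {f : ℝ → ℝ} {f' a b b' c t : ℝ} (h2 : b' < b)
    (ht : t ∈ Icc a c) (h : t ∈ Icc a b → HasDerivWithinAt f f' (Icc a b) t)
    (h' : t ∈ Icc b' c → HasDerivWithinAt f f' (Icc b' c) t) :
    HasDerivWithinAt f f' (Icc a c) t := by
  rcases lt_or_ge t b with hlt | hge
  · refine (h ⟨ht.1, hlt.le⟩).mono_of_mem_nhdsWithin ?_
    have hs : Icc a c ∩ Iio b ⊆ Icc a b := fun s hs => ⟨hs.1.1, le_of_lt hs.2⟩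
    exact Filter.mem_of_superset (inter_mem_nhdsWithin _ (Iio_mem_nhds hlt)) hs
  · refine (h' ⟨(h2.trans_le hge).le, ht.2⟩).mono_of_mem_nhdsWithin ?_
    have hs : Icc a c ∩ Ioi b' ⊆ Icc b' c := fun s hs => ⟨le_of_lt hs.2, hs.1.2⟩
    exact Filter.mem_of_superset (inter_mem_nhdsWithin _ (Ioi_mem_nhds (h2.trans_le hge))) hs

theorem hasDerivWithinAt_shift_Icc {f : ℝ → ℝ} {f' a τ c t : ℝ}
    (h : HasDerivWithinAt f f' (Icc 0 τ) (t - a)) (hc : c ≤ a + τ) :
    HasDerivWithinAt (fun s => f (s - a)) f' (Icc a c) t := by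
  have h1 : HasDerivWithinAt (fun s : ℝ => s - a) 1 (Icc a c) t :=
    (hasDerivWithinAt_id t _).sub_const a
  have hm : MapsTo (fun s : ℝ => s - a) (Icc a c) (Icc 0 τ) :=
    fun s hs => ⟨by linarith [hs.1], by linarith [hs.2]⟩
  have := HasDerivWithinAt.scomp t h h1 hm
  simpa [Function.comp_def] using this

theorem exists_small_rpow {θ c δ m : ℝ} (hθ : 0 < θ) (hc : 0 ≤ c) (hδ : 0 < δ) (hm : 0 < m) :
    ∃ η : ℝ, 0 < η ∧ η ≤ m ∧ c * η ^ θ < δ := by
  have hy : 0 < (δ / (c + 1)) ^ (1 / θ) := by positivity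
  refine ⟨min m ((δ / (c + 1)) ^ (1 / θ)), lt_min hm hy, min_le_left _ _, ?_⟩
  have h1 : (min m ((δ / (c + 1)) ^ (1 / θ))) ^ θ ≤ ((δ / (c + 1)) ^ (1 / θ)) ^ θ :=
    Real.rpow_le_rpow (lt_min hm hy).le (min_le_right _ _) hθ.le
  have h2 : ((δ / (c + 1)) ^ (1 / θ)) ^ θ = δ / (c + 1) := by
    rw [← Real.rpow_mul (by positivity), one_div, inv_mul_cancel₀ hθ.ne', Real.rpow_one]
  calc c * (min m ((δ / (c + 1)) ^ (1 / θ))) ^ θ ≤ c * (δ / (c + 1)) :=
        mul_le_mul_of_nonneg_left (h1.trans h2.le) hc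
    _ < δ := by
        rw [← mul_div_assoc, div_lt_iff₀ (by positivity)]
        nlinarith

theorem jet_eq_of_slice_eq {u v : ℝ → E → ℝ} {t s : ℝ} (h : u t = v s) (z : E) :
    jet u t z = jet v s z := by
  simp [jet, D1, D2, h]

/-- extension by a definite amount of time. -/
theorem solCl_extend (α σ δ lam : ℝ) (CF : ℕ → ℝ) (hα : 0 < α) (hα1 : α < 1) (hσ : 0 < σ)
    (hδ : 0 < δ) (hlam : 0 < lam) : ∃ ε : ℝ, 0 < ε ∧
    ∀ (T T' : ℝ) (F : A.ι → ℝ → E → Jet E → ℝ) (𝒢 : A.ι → ℝ → E → Set (Jet E)) (u ut : ℝ → V → ℝ),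
      0 < T' → T' < T → A.SolCl F 𝒢 T' u ut →
      (∀ T'', 0 < T'' → T'' ≤ T' → A.Good F 𝒢 T σ δ lam CF T'' (u T'')) →
      ∃ u' ut' : ℝ → V → ℝ, A.SolCl F 𝒢 (min (T' + ε) T) u' ut' := by
  obtain ⟨ε₀, K, hε₀, hK, hshort⟩ := A.exists_short_time α δ lam CF hα hα1 hδ hlam
  obtain ⟨Cr, hCr⟩ := A.exists_reg α δ (δ / 2) lam K ε₀ CF hα hα1 (by linarith) hlam hε₀
  have hε₁ : 0 < min ε₀ σ := lt_min hε₀ hσ
  refine ⟨min ε₀ σ / 2, by positivity, ?_⟩
  intro T T' F 𝒢 u ut hT' hT'T hu hGood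
  have hC21 := hu.c21M hT'
  obtain ⟨Cu, hCu⟩ := hu.sm
  obtain ⟨Ku, hKu0, hKu⟩ := A.exists_XM_of_SmST α Cu hα hα1.le
  have hXu := (hKu T' u ut hT' hCu hu.dt).2
  obtain ⟨Ct, hCt0, hCt⟩ := A.exists_jet_time α T' hα hα1.le hT'
  have hθ : 0 < α / (2 + α) := by positivity
  obtain ⟨η, hη0, hηm, hηδ⟩ := exists_small_rpow hθ (mul_nonneg hCt0 hKu0) hδ
    (lt_min (half_pos hT') (half_pos hε₁))
  have hη1 : η ≤ T' / 2 := hηm.trans (min_le_left _ _)
  have hη2 : η ≤ min ε₀ σ / 2 := hηm.trans (min_le_right _ _)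
  obtain ⟨a, ha⟩ : ∃ a, a = T' - η := ⟨_, rfl⟩
  have ha0 : 0 < a := by linarith
  have haT' : a < T' := by linarith
  have haI : a ∈ Icc (0 : ℝ) T' := ⟨ha0.le, haT'.le⟩
  have hG := hGood a ha0 haT'.le
  have hT₀ : 0 < min σ (T - a) := lt_min hσ (by linarith)
  obtain ⟨v, vt, hv, hXv, hjv, hv0, hsolv⟩ := hshort (min σ (T - a)) _ hT₀ hG.hyp
  obtain ⟨τ, hτ⟩ : ∃ τ, τ = min ε₀ (min σ (T - a)) := ⟨_, rfl⟩
  rw [← hτ] at hv hXv hjv hsolv
  have hτ0 : 0 < τ := by rw [hτ]; exact lt_min hε₀ hT₀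
  have hτT₀ : τ ≤ min σ (T - a) := by rw [hτ]; exact min_le_right _ _
  have hτε : τ ≤ ε₀ := by rw [hτ]; exact min_le_left _ _
  have hητ : η < τ := by
    rw [hτ]
    have h1 : min ε₀ σ ≤ ε₀ := min_le_left _ _
    have h2 : min ε₀ σ ≤ σ := min_le_right _ _
    refine lt_min (by linarith) (lt_min (by linarith) (by linarith))
  have hsmv : A.SmST (Icc 0 τ) v Cr :=
    hCr _ τ _ v vt hτ0 hτT₀ hτε hG.hyp hv hXv hjv (fun x _ => hv0 x) hsolv
  obtain ⟨hw, hsolw⟩ := hu.shift ha0.le haT'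
  have hηeq : T' - a = η := by linarith
  rw [hηeq] at hw hsolw
  have hsubη : Icc (0 : ℝ) η ⊆ Icc 0 τ := Icc_subset_Icc le_rfl hητ.le
  have huniq : ∀ t ∈ Icc 0 η, ∀ x ∈ A.X, u (a + t) x - u a x = v t x := by
    refine A.short_unique hT₀ (hητ.le.trans hτT₀) hlam.le hG.hyp hw
      (fun i => (hv i).subset hsubη subset_rfl) ?_ ?_ hsolw
      (fun i t ht z hz => hsolv i t (hsubη ht) z hz) ?_
    · intro i t ht z hz
      have hat : a + t ∈ Icc (0 : ℝ) T' := ⟨by linarith [ht.1], by linarith [ht.2]⟩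
      have hj : jet (A.rep i (fun s x => u (a + s) x - u a x)) t z
          = jet (A.rep i u) (a + t) z - jet (A.rep i u) a z :=
        jet_sub (u := shiftT a (A.rep i u)) (v := fun _ => A.rep i u a) isOpen_ball hz
          ((hC21 i).c2 (a + t) hat) ((hC21 i).c2 a haI)
      rw [hj]
      have h1 := hCt T' Ku u ut le_rfl hKu0 hC21 hXu i (a + t) hat a haI z hz
      have h2 : |a + t - a| ≤ η := by
        rw [add_sub_cancel_left, abs_of_nonneg ht.1]
        exact ht.2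
      calc ‖jet (A.rep i u) (a + t) z - jet (A.rep i u) a z‖
          ≤ Ct * Ku * |a + t - a| ^ (α / (2 + α)) := h1
        _ ≤ Ct * Ku * η ^ (α / (2 + α)) := by gcongr
        _ < δ := hηδ
    · intro i t ht z hz
      exact lt_of_le_of_lt (hjv i t (hsubη ht) z hz) (by linarith)
    · intro x _
      simp [hv0 x]
  have hvdt : ∀ t ∈ Icc 0 τ, ∀ x ∈ A.X, HasDerivWithinAt (fun s => v s x) (vt t x) (Icc 0 τ) t := by
    intro t ht x hx
    obtain ⟨i, z, hz, rfl⟩ := A.cover x hx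
    exact (hv i).dt t ht z (ball_subset_ball (by norm_num) hz)
  obtain ⟨U, hU⟩ : ∃ U : ℝ → V → ℝ, U = catT T' u (fun t x => u a x + v (t - a) x) := ⟨_, rfl⟩
  obtain ⟨Ut, hUt⟩ : ∃ Ut : ℝ → V → ℝ, Ut = catT T' ut (fun t x => vt (t - a) x) := ⟨_, rfl⟩
  obtain ⟨T₁, hT₁⟩ : ∃ T₁, T₁ = min (T' + min ε₀ σ / 2) T := ⟨_, rfl⟩
  rw [← hT₁]
  have hT₁τ : T₁ ≤ a + τ := by
    rw [hT₁, hτ, ← min_assoc, ← min_add_add_left]
    refine min_le_min (by linarith) (by linarith)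
  have hT'T₁ : T' < T₁ := by rw [hT₁]; exact lt_min (by linarith) hT'T
  have hT₁0 : 0 < T₁ := hT'.trans hT'T₁
  have F2 : ∀ t ≤ T', U t = u t := fun t ht => by rw [hU]; exact catT_of_le _ _ ht
  have F2t : ∀ t ≤ T', Ut t = ut t := fun t ht => by rw [hUt]; exact catT_of_le _ _ ht
  have F4 : ∀ t, T' < t → U t = fun x => u a x + v (t - a) x :=
    fun t ht => by rw [hU]; exact catT_of_lt _ _ ht
  have F4t : ∀ t, T' < t → Ut t = fun x => vt (t - a) x :=
    fun t ht => by rw [hUt]; exact catT_of_lt _ _ ht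
  have F0 : ∀ t ∈ Icc a T', ∀ x ∈ A.X, u t x = u a x + v (t - a) x := by
    intro t ht x hx
    have := huniq (t - a) ⟨by linarith [ht.1], by linarith [ht.2]⟩ x hx
    rw [add_sub_cancel] at this
    linarith
  have F1 : ∀ t ∈ Icc a (a + τ), ∀ x ∈ A.X, U t x = u a x + v (t - a) x := by
    intro t ht x hx
    rcases le_or_gt t T' with h | h
    · rw [F2 t h]
      exact F0 t ⟨ht.1, h⟩ x hx
    · rw [F4 t h]
  have F3 : ∀ t ∈ Icc a (a + τ), ∀ x ∈ A.X, Ut t x = vt (t - a) x := by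
    intro t ht x hx
    rcases le_or_gt t T' with h | h
    · rw [F2t t h]
      have htI : t ∈ Icc a T' := ⟨ht.1, h⟩
      have h1 : HasDerivWithinAt (fun s => u s x) (ut t x) (Icc a T') t :=
        (hu.dt t ⟨ha0.le.trans ht.1, h⟩ x hx).mono (Icc_subset_Icc ha0.le le_rfl)
      have h2 : HasDerivWithinAt (fun s => u s x) (vt (t - a) x) (Icc a T') t := by
        have h3 := (hasDerivWithinAt_shift_Icc (c := T')
          (hvdt (t - a) ⟨by linarith [ht.1], by linarith [ht.2]⟩ x hx) (by linarith)).const_add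
          (u a x)
        exact h3.congr (fun s hs => F0 s hs x hx) (F0 t htI x hx)
      exact (uniqueDiffOn_Icc haT' t htI).eq_deriv _ h1 h2
    · rw [F4t t h]
  have hjetU : ∀ i, ∀ t ∈ Icc a T₁, ∀ z ∈ ball (0 : E) 3, jet (A.rep i U) t z
      = jet (fun _ => A.rep0 i (u a)) 0 z + jet (A.rep i v) (t - a) z := by
    intro i t ht z hz
    have htτ : t - a ∈ Icc (0 : ℝ) τ := ⟨by linarith [ht.1], by linarith [ht.2]⟩
    have h1 : jet (A.rep i U) t z
        = jet (fun s y => A.rep0 i (u a) y + A.rep i v (s - a) y) t z :=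
      jet_congr isOpen_ball hz
        (fun y hy => F1 t ⟨ht.1, ht.2.trans hT₁τ⟩ _ (A.maps i hy))
    rw [h1]
    exact jet_add (u := fun _ => A.rep0 i (u a)) (v := fun s => A.rep i v (s - a)) isOpen_ball hz
      ((hC21 i).c2 a haI) ((hv i).c2 (t - a) htτ)
  have hUQ : ∀ b c : ℝ, b < c → UniqueDiffOn ℝ (Icc b c ×ˢ ball (0 : E) 3) :=
    fun b c hbc => (uniqueDiffOn_Icc hbc).prod isOpen_ball.uniqueDiffOn
  refine ⟨U, Ut, ⟨fun k => max (Cu k) (Cr k + Cu k), ?_⟩, ?_, ?_, ?_, ?_⟩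
  · have hs1 : A.SmST (Icc 0 T') U Cu := SmST.congr A hCu (fun t ht x _ => by rw [F2 t ht.2])
    have hs2 : A.SmST (Icc a (a + τ)) U (fun k => Cr k + Cu k) :=
      SmST.congr A (SmST.add_static A hτ0 hsmv (SmST.slice A hT' hCu haI)) F1
    have hs3 : A.SmST (Icc a T₁) U (fun k => Cr k + Cu k) := fun i =>
      (hs2 i).subset (hUQ _ _ (by linarith)) (hUQ _ _ (haT'.trans hT'T₁))
        (Set.prod_mono (Icc_subset_Icc le_rfl hT₁τ) subset_rfl)
    exact SmST.union A ha0.le haT' hT'T₁.le (fun i => (hs1 i).mono fun k => le_max_left _ _)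
      (fun i => (hs3 i).mono fun k => le_max_right _ _)
  · intro t ht x hx
    refine hasDerivWithinAt_Icc_union haT' ht (fun h => ?_) (fun h => ?_)
    · rw [F2t t h.2]
      exact (hu.dt t h x hx).congr (fun s hs => by rw [F2 s hs.2]) (by rw [F2 t h.2])
    · have htI : t ∈ Icc a (a + τ) := ⟨h.1, h.2.trans hT₁τ⟩
      rw [F3 t htI x hx]
      have h3 := (hasDerivWithinAt_shift_Icc (c := T₁)
        (hvdt (t - a) ⟨by linarith [h.1], by linarith [h.2]⟩ x hx) hT₁τ).const_add (u a x)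
      exact h3.congr (fun s hs => F1 s ⟨hs.1, hs.2.trans hT₁τ⟩ x hx) (F1 t htI x hx)
  · intro i t ht z hz
    rcases le_or_gt t T' with h | h
    · have h1 : jet (A.rep i U) t z = jet (A.rep i u) t z :=
        jet_eq_of_slice_eq (by funext y; show U t _ = u t _; rw [F2 t h]) z
      rw [h1]
      exact hu.adm i t ⟨ht.1, h⟩ z hz
    · have htI : t ∈ Icc a T₁ := ⟨(haT'.trans h).le, ht.2⟩
      have htτ : t - a ∈ Icc (0 : ℝ) τ := ⟨by linarith [htI.1], by linarith [htI.2]⟩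
      rw [hjetU i t htI z hz]
      have hJ : jet (A.rep i v) (t - a) z ∈ ball (0 : Jet E) δ := by
        rw [mem_ball_zero_iff]
        exact lt_of_le_of_lt (hjv i _ htτ z hz) (by linarith)
      have := hG.adm i (t - a) ⟨htτ.1, htτ.2.trans hτT₀⟩ z hz _ hJ
      rwa [add_sub_cancel] at this
  · intro i t ht z hz
    rcases le_or_gt t T' with h | h
    · have h1 : jet (A.rep i U) t z = jet (A.rep i u) t z :=
        jet_eq_of_slice_eq (by funext y; show U t _ = u t _; rw [F2 t h]) z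
      have h2 : A.rep i Ut t z = A.rep i ut t z := by show Ut t _ = ut t _; rw [F2t t h]
      rw [h1, h2]
      exact hu.sol i t ⟨ht.1, h⟩ z hz
    · have htI : t ∈ Icc a T₁ := ⟨(haT'.trans h).le, ht.2⟩
      have htτ : t - a ∈ Icc (0 : ℝ) τ := ⟨by linarith [htI.1], by linarith [htI.2]⟩
      rw [hjetU i t htI z hz]
      have h2 : A.rep i Ut t z = A.rep i vt (t - a) z := by show Ut t _ = vt (t - a) _; rw [F4t t h]
      rw [h2]
      have := hsolv i (t - a) htτ z hz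
      simp only [shiftF] at this
      rwa [add_sub_cancel] at this
  · intro x hx
    rw [F2 0 hT'.le]
    exact hu.init x hx

/-- **M8: continuation.** -/
theorem continuation (α σ δ lam : ℝ) (CF : ℕ → ℝ) (hα : 0 < α) (hα1 : α < 1) (hσ : 0 < σ)
    (hδ : 0 < δ) (hlam : 0 < lam) {T : ℝ} (hT : 0 < T) (F : A.ι → ℝ → E → Jet E → ℝ)
    (𝒢 : A.ι → ℝ → E → Set (Jet E)) (h0 : A.Good F 𝒢 T σ δ lam CF 0 0)
    (h1 : ∀ (T' : ℝ) (u ut : ℝ → V → ℝ), 0 < T' → T' < T → A.SolCl F 𝒢 T' u ut →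
      A.Good F 𝒢 T σ δ lam CF T' (u T')) :
    ∃ u ut : ℝ → V → ℝ, A.SolCl F 𝒢 T u ut := by
  obtain ⟨ε₁, hε₁, hstart⟩ := A.solCl_start α σ δ lam CF hα hα1 hσ hδ hlam
  obtain ⟨ε₂, hε₂, hext⟩ := A.solCl_extend α σ δ lam CF hα hα1 hσ hδ hlam
  set ε := min ε₁ ε₂ with hε
  have hεpos : 0 < ε := lt_min hε₁ hε₂
  have key : ∀ n : ℕ, ∃ (T' : ℝ) (u ut : ℝ → V → ℝ), 0 < T' ∧ T' ≤ T ∧ min ((n + 1) * ε) T ≤ T' ∧
      A.SolCl F 𝒢 T' u ut := by
    intro n
    induction n with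
    | zero =>
      obtain ⟨u, ut, hu⟩ := hstart T F 𝒢 hT h0
      refine ⟨min ε₁ T, u, ut, lt_min hε₁ hT, min_le_right _ _, ?_, hu⟩
      have : ε ≤ ε₁ := min_le_left _ _
      simpa using min_le_min_right T this
    | succ n ih =>
      obtain ⟨T', u, ut, h0', hle, hmin, hu⟩ := ih
      rcases hle.eq_or_lt with heq | hlt
      · exact ⟨T', u, ut, h0', hle, by rw [heq]; exact min_le_right _ _, hu⟩
      · obtain ⟨u', ut', hu'⟩ := hext T T' F 𝒢 u ut h0' hlt hu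
          (fun T'' h1' h2' => h1 T'' u ut h1' (lt_of_le_of_lt h2' hlt) (hu.restrict h1' h2'))
        refine ⟨min (T' + ε₂) T, u', ut', lt_min (by linarith) hT, min_le_right _ _, ?_, hu'⟩
        have h2 : ε ≤ ε₂ := min_le_right _ _
        apply le_min _ (min_le_right _ _)
        rcases le_total ((n + 1) * ε) T with h | h
        · rw [min_eq_left h] at hmin
          calc min (((n + 1 : ℕ) + 1 : ℝ) * ε) T ≤ ((n + 1 : ℕ) + 1 : ℝ) * ε := min_le_left _ _
            _ = (n + 1) * ε + ε := by push_cast; ring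
            _ ≤ T' + ε₂ := by linarith
        · rw [min_eq_right h] at hmin
          exact absurd hmin (not_le.mpr hlt)
  obtain ⟨n, hn⟩ := exists_nat_gt (T / ε)
  obtain ⟨T', u, ut, _, hle, hmin, hu⟩ := key n
  have hT' : T' = T := by
    apply le_antisymm hle
    have : T ≤ (n + 1) * ε := by
      have := (div_lt_iff₀ hεpos).mp hn
      nlinarith
    rwa [min_eq_right this] at hmin
  exact ⟨u, ut, hT' ▸ hu⟩

/-- the shifted nonlinearity satisfies the hypotheses of short time existence on a smaller tube. -/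
theorem exists_NLHyp_shift (T δ₀ : ℝ) (CF Cg : ℕ → ℝ) : ∃ CF' : ℕ → ℝ,
    ∀ (δ K lam t₀ τ : ℝ) (F : A.ι → ℝ → E → Jet E → ℝ) (g : V → ℝ), 0 ≤ t₀ → 0 < τ → t₀ + τ ≤ T →
      K + δ ≤ δ₀ → A.NLHyp T δ₀ lam CF F → A.SmM g Cg →
      (∀ i, ∀ z ∈ ball (0 : E) 3, ‖jet (fun _ => A.rep0 i g) 0 z‖ ≤ K) →
      A.NLHyp τ δ lam CF' (A.shiftF F t₀ g) := by
  obtain ⟨π, hπ⟩ : ∃ π : (ℝ × E × Jet E) →L[ℝ] E, ∀ q, π q = q.2.1 :=
    ⟨(ContinuousLinearMap.fst ℝ E (Jet E)).comp (ContinuousLinearMap.snd ℝ ℝ (E × Jet E)),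
      fun q => rfl⟩
  obtain ⟨ι', hι'⟩ : ∃ ι' : Jet E →L[ℝ] (ℝ × E × Jet E), ∀ J, ι' J = (0, 0, J) :=
    ⟨(ContinuousLinearMap.inr ℝ ℝ (E × Jet E)).comp (ContinuousLinearMap.inr ℝ E (Jet E)),
      fun q => rfl⟩
  obtain ⟨C₁, hC₁⟩ := exists_SmB_comp_gen (W := E) (W' := ℝ × E × Jet E) (G := Jet E)
    (fun k => if k = 0 then 3 else if k = 1 then ‖π‖ else 0)
    (fun k => Cg k + (Cg (k + 1) + Cg (k + 1 + 1)))
  obtain ⟨CF', hCF'⟩ := exists_SmB_comp_gen' (W := ℝ × E × Jet E) (W' := ℝ × E × Jet E) (G := ℝ)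
    (fun k => ‖ContinuousLinearMap.id ℝ (ℝ × E × Jet E)‖ + ‖ι'‖ * C₁ k) CF
  refine ⟨CF', fun δ K lam t₀ τ F g ht₀ hτ hT hKδ hNL hg hK => ⟨?_, ?_, ?_⟩⟩
  · -- compatibility
    intro i j t ht z hz J hJ hpJ
    have h1 : jet (fun _ : ℝ => A.rep0 i g) 0 z
        = A.pull i j z (jet (fun _ : ℝ => A.rep0 j g) 0 (A.tr i j z)) :=
      A.jet_rep (u := fun _ => g) (t := 0) hz ((hg j).smooth.of_le (WithTop.coe_le_coe.2 le_top))
    have hz3 := A.dom_subset i j hz
    have htr := A.tr_mem_ball hz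
    show F i (t₀ + t) z (jet (fun _ : ℝ => A.rep0 i g) 0 z + A.pull i j z J)
      = F j (t₀ + t) (A.tr i j z) (jet (fun _ : ℝ => A.rep0 j g) 0 (A.tr i j z) + J)
    have h2 : ‖jet (fun _ : ℝ => A.rep0 i g) 0 z + A.pull i j z J‖ < δ₀ :=
      lt_of_le_of_lt (norm_add_le _ _) (by linarith [hK i z hz3])
    have h3 : ‖jet (fun _ : ℝ => A.rep0 j g) 0 (A.tr i j z) + J‖ < δ₀ :=
      lt_of_le_of_lt (norm_add_le _ _) (by linarith [hK j _ htr])
    rw [h1, ← A.pull_add] at h2 ⊢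
    exact hNL.compat i j (t₀ + t) ⟨by linarith [ht.1], by linarith [ht.2]⟩ z hz _ h3 h2
  · -- smoothness
    intro i
    have hQ' : UniqueDiffOn ℝ (Icc (0 : ℝ) τ ×ˢ ball (0 : E) 3 ×ˢ ball (0 : Jet E) δ) :=
      (uniqueDiffOn_Icc hτ).prod (isOpen_ball.uniqueDiffOn.prod isOpen_ball.uniqueDiffOn)
    have hTpos : 0 < T := by linarith
    have hQ : UniqueDiffOn ℝ (Icc (0 : ℝ) T ×ˢ ball (0 : E) 3 ×ˢ ball (0 : Jet E) δ₀) :=
      (uniqueDiffOn_Icc hTpos).prod (isOpen_ball.uniqueDiffOn.prod isOpen_ball.uniqueDiffOn)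
    have hπs : SmB (Icc (0 : ℝ) τ ×ˢ ball (0 : E) 3 ×ˢ ball (0 : Jet E) δ) (fun q => π q)
        (fun k => if k = 0 then 3 else if k = 1 then ‖π‖ else 0) := by
      have := SmB.affine _ hQ' π 0 (b := 3) (fun q hq => by
        rw [add_zero, hπ]
        exact (mem_ball_zero_iff.mp hq.2.1).le)
      simpa using this
    have h1 := hC₁ _ (ball (0 : E) 3) (fun q => π q) _ hQ' isOpen_ball.uniqueDiffOn
      (fun q hq => by show π q ∈ _; rw [hπ]; exact hq.2.1) hπs (hg i).jet_static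
    have h2 := h1.clm_comp hQ' ι'
    obtain ⟨b, hb⟩ := ((isBounded_Icc (0 : ℝ) τ).prod ((isBounded_ball (x := (0 : E)) (r := 3)).prod
      (isBounded_ball (x := (0 : Jet E)) (r := δ)))).exists_norm_le
    have h3 := SmB.affine _ hQ' (ContinuousLinearMap.id ℝ (ℝ × E × Jet E))
      ((t₀, 0, 0) : ℝ × E × Jet E) (b := b + ‖((t₀, 0, 0) : ℝ × E × Jet E)‖) (fun q hq =>
        (norm_add_le _ _).trans (by
          have := hb q hq
          simp only [ContinuousLinearMap.id_apply]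
          linarith))
    have h4 := h3.add h2 hQ'
    have h5 := hCF' _ _ _ _ hQ' hQ ?_ h4.smooth ?_ (hNL.smooth i)
    · refine h5.congr fun q hq => ?_
      show F i (t₀ + q.1) q.2.1 (jet (fun _ : ℝ => A.rep0 i g) 0 q.2.1 + q.2.2) = _
      simp only [ContinuousLinearMap.id_apply, hι', hπ, Prod.fst_add, Prod.snd_add, add_zero]
      rw [add_comm q.1 t₀, add_comm q.2.2]
    · intro q hq
      simp only [ContinuousLinearMap.id_apply, hι', hπ]
      refine ⟨?_, ?_, ?_⟩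
      · simp only [Prod.fst_add, add_zero]
        exact ⟨by linarith [hq.1.1], by linarith [hq.1.2]⟩
      · simp only [Prod.fst_add, Prod.snd_add, add_zero]
        exact hq.2.1
      · simp only [Prod.snd_add, add_zero]
        rw [mem_ball_zero_iff]
        have h6 := mem_ball_zero_iff.mp hq.2.2
        exact lt_of_le_of_lt (norm_add_le _ _) (by linarith [hK i q.2.1 hq.2.1])
    · intro k hk q hq
      refine (h4.bdd k q hq).trans ?_
      have hk0 : k ≠ 0 := by omega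
      simp only [hk0, if_false]
      split_ifs
      · exact le_rfl
      · have := norm_nonneg (ContinuousLinearMap.id ℝ (ℝ × E × Jet E))
        linarith
  · -- ellipticity
    intro i t ht z hz J hJ ξ
    have h1 : A.shiftF F t₀ g i t z
        = fun J => F i (t₀ + t) z (jet (fun _ : ℝ => A.rep0 i g) 0 z + J) := rfl
    rw [h1, fderiv_comp_add_left]
    refine hNL.ell i (t₀ + t) ⟨by linarith [ht.1], by linarith [ht.2]⟩ z hz _ ?_ ξ
    rw [mem_ball_zero_iff] at hJ ⊢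
    exact lt_of_le_of_lt (norm_add_le _ _) (by linarith [hK i z hz])

/-- **M8': global existence from an a priori bound in `X`**, for a nonlinearity which is smooth with bounded derivatives and parabolic on EVERY tube. -/
theorem exists_global_of_apriori (α K : ℝ) (hα : 0 < α) (hα1 : α < 1) {T : ℝ} (hT : 0 < T)
    (F : A.ι → ℝ → E → Jet E → ℝ)
    (hF : ∀ δ : ℝ, 0 < δ → ∃ (lam : ℝ) (CF : ℕ → ℝ), 0 < lam ∧ A.NLHyp T δ lam CF F)
    (hK : ∀ (T' : ℝ) (u ut : ℝ → V → ℝ), 0 < T' → T' < T → A.SolCl F (fun _ _ _ => univ) T' u ut →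
      A.XM α (Icc 0 T') u ut K) :
    ∃ u ut : ℝ → V → ℝ, A.SolCl F (fun _ _ _ => univ) T u ut := by
  set K' := max K 0 with hK'
  have hK0 : 0 ≤ K' := le_max_right _ _
  obtain ⟨lam, CF, hlam, hNL⟩ := hF (K' + 1) (by linarith)
  obtain ⟨Cr, hCr⟩ := A.exists_reg α (K' + 1) K' lam K' T CF hα hα1 (by linarith) hlam hT
  obtain ⟨CF', hCF'⟩ := A.exists_NLHyp_shift T (K' + 1) CF (fun k => max (Cr k) 0)
  refine A.continuation α T 1 lam CF' hα hα1 hT one_pos hlam hT F _ ?_ ?_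
  · refine ⟨?_, fun _ _ _ _ _ _ _ => mem_univ _⟩
    have hτ : min T (T - 0) = T := by simp
    rw [hτ]
    refine hCF' 1 K' lam 0 T F 0 le_rfl hT (by linarith) le_rfl hNL ?_ ?_
    · intro i
      have h0 : A.rep0 i (0 : V → ℝ) = fun _ => (0 : ℝ) := rfl
      rw [h0]
      refine ⟨contDiffOn_const, fun k q _ => ?_⟩
      have : iteratedFDerivWithin ℝ k (fun _ : E => (0 : ℝ)) (ball (0 : E) 3) q = 0 := by
        simp
      rw [this, norm_zero]
      exact le_max_right _ _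
    · intro i z _
      have h0 : jet (fun _ : ℝ => A.rep0 i (0 : V → ℝ)) 0 z = 0 := by
        have h0 : A.rep0 i (0 : V → ℝ) = fun _ => (0 : ℝ) := rfl
        simp [jet, D1, D2, h0]
      rw [h0, norm_zero]
      exact hK0
  · intro T' u ut hT' hT'T hsol
    refine ⟨?_, fun _ _ _ _ _ _ _ => mem_univ _⟩
    have hX : A.XM α (Icc 0 T') u ut K' := fun i => (hK T' u ut hT' hT'T hsol i).mono (le_max_left _ _)
    obtain ⟨Cu, hCu⟩ := hsol.sm
    obtain ⟨Ku, _, hKu⟩ := A.exists_XM_of_SmST α Cu hα hα1.le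
    have hC21 : A.C21M (Icc 0 T') u ut := (hKu T' u ut hT' hCu hsol.dt).1
    have hjet : A.JetLe (Icc 0 T') u K' := fun i t ht z hz => (hX i).jet_sup t ht z hz
    have hsm : A.SmST (Icc 0 T') u Cr :=
      hCr T T' F u ut hT' hT'T.le hT'T.le hNL hC21 hX hjet hsol.init hsol.sol
    have hT'mem : T' ∈ Icc 0 T' := ⟨hT'.le, le_rfl⟩
    have hg : A.SmM (u T') (fun k => max (Cr k) 0) :=
      fun i => (SmST.slice A hT' hsm hT'mem i).mono (fun k => le_max_left _ _)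
    refine hCF' 1 K' lam T' (min T (T - T')) F (u T') hT'.le (lt_min hT (by linarith)) ?_ le_rfl hNL
      hg ?_
    · have := min_le_right T (T - T')
      linarith
    · intro i z hz
      exact hjet i T' hT'mem z hz

end UAtlas

end Claimed.Agent.R316.B8M
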