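import Claimed.Agent.R316.B8M.Quasi
import Claimed.Agent.R316.B9.ContA
import Claimed.Agent.R316.Pack011

/-!
# B8M-EXPORT (M10): the three statements `S3.StLinExist`, `S3.StQuasiExist`, `S3.StLinLocalReg`

Adapters between complex manifolds of bounded geometry (`CMfd`, `BddGeom`, `G.FnST`, `G.FormST`, `lap`) and uniform atlases (`UAtlas`, `A.SmST`, `A.SmL`, chart operators).

* `lapJ H : Jet (CE (Fin n)) →L[ℝ] ℝ`, `lapJ H J = Re tr (H⁻¹ leviB J.2.2)` (`B9.leviB` = Levi matrix of a real bilinear form): the chart operator of `Δ_h`, `H = h Φ z`.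
* `lapOp A k i t z = lapJ (k t (A.Φ i) z)`.
* `GAtlas G A ρ ρ₁ Ct` (`Atlas.lean`): atlas adapted to the bounded geometry structure.

`stLinExist`, `stQuasiExist`, `stLinLocalReg` are PROVED here from the leaves.

LEAVES (proofs only):
* B8M-EX-LAPJ = `exists_lapJ_clm`, `lapJ_const`, `lapJ_jet`, `exists_lapJ_SmB`;
* B8M-EX-IN = `GAtlas.exists_SmST_of_FnST`;
* B8M-EX-OUT = `GAtlas.FnST_of_SmST`;
* B8M-EX-OP = `GAtlas.hform_tr`, `GAtlas.exists_lapOp`, `GAtlas.lap_rep`, `finrank_CE_ne_one`.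

Recipes.
* `exists_lapJ_clm`: `B9.leviB_clm` gives a continuous linear `L₀ : Bil → (ι → ι → ℂ)`; `M ↦ Re tr (H⁻¹ M)` is ℝ-linear on the finite dimensional space `ι → ι → ℂ` (`LinearMap.toContinuousLinearMap`); compose with `snd ∘ snd`.
* `lapJ_const`: `leviB 0 = 0`.  `lapJ_jet`: `B9.levi_eq_leviB`, `jet` unfolds to `(f z, Df z, D²f z)`.
* `exists_lapJ_SmB`.  `𝒦 = {H | H Hermitian, Λ⁻¹ ≤ H ≤ Λ}` is compact (closed and bounded in a finite dimensional space), contained in the open set `U = {H | IsUnit H.det}`, on which `H ↦ lapJ H` is smooth (`H⁻¹ = det⁻¹ • adjugate`, polynomial entries; or `contDiffAt_ringInverse` in the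
  normed algebra of matrices with a chosen norm).  `B9.exists_SmB_thickening` gives `η, C`; the matrix valued map `q ↦ k q.1 q.2` is `SmB` with constants from `Bk` (finitely many entries: `contDiffOn_pi`, `iteratedFDerivWithin` of a map into a product/`Pi` type is bounded by the
  sup of the components; the norm on `Matrix` = sup norm of `ι → ι → ℂ`); `exists_SmB_comp_gen`.
  ELLIPTICITY: `lam = 1/(4Λ)`: `lapJ H (topJ (sqB ξ)) = (1/4) Re ∑ (H⁻¹)_{jk} conj(c_k) c_j`, `c = B9.cov10 ξ` (`B9.leviB_sqB`), `H⁻¹ ≥ Λ⁻¹`, `B9.sum_normSq_cov`.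
* `GAtlas.exists_SmST_of_FnST`: `A.Φ i = Φ (ρ • ·)`, `G.IsCh Φ`.  `g q = c q.1 (Φ q.2)` is smooth on `Q = Icc 0 T ×ˢ ball 0 r` (`SmoothST`, `(G.uchart Φ _).isHol`), `L (t,z) = (t, ρ • z)`; `ContinuousLinearMap.iteratedFDerivWithin_comp_right` on `L ⁻¹' Q = Icc 0 T ×ˢ ball 0 (r/ρ)`;
  `Icc 0 T ×ˢ ball 0 3` and `L ⁻¹' Q` agree near every point of the smaller set (`iteratedFDerivWithin_congr_set`); `‖L‖ ≤ max 1 ρ`; `ρ • z ∈ ball 0 (r/2)` because `4 ρ ≤ r/2`.  `C m = (max 1 ρ)^m C_m`.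
* `GAtlas.FnST_of_SmST`.  SMOOTH: `(Φ,U)` holomorphic, `z ∈ U`: `A.cover` gives `i`, `Φ z = A.Φ i y`; near `z`: `Φ = A.Φ i ∘ τ`, `τ = invFunOn (A.Φ i) (ball 0 3) ∘ Φ` smooth at `z` (`CMfd.trans_contDiffAt`, `CMfd.eventually_eq_comp_trans`, `GAtlas.isHol`); `ContDiffWithinAt` of the composition.
  BOUNDS: `Φ` distinguished, `z₀ ∈ ball 0 (r/2)`: `(i, τ)` from `GAtlas.transfer`.  On `Icc 0 T ×ˢ ball 0 ρ₁`: `w t (Φ (z₀ + ρ • z)) = (w ∘ A.Φ i)(t, τ z)`: `exists_SmB_comp_gen` (inner map `(t,z) ↦ (t, τ z)`, bounds `Ct`, values in `Icc 0 T ×ˢ ball 0 3`) gives bounds `C'_m` at `(t,0)`;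
  `w t (Φ y) = g (t, ρ⁻¹ • (y - z₀))` for `y` near `z₀`: affine change of variables, factor `(max 1 ρ⁻¹)^m`; the sets agree near the point.
* `GAtlas.hform_tr`: on `A.dom i j`: `A.tr i j = invFunOn (A.Φ j) (ball 0 3) ∘ A.Φ i` (`A.inj`, `A.tr_mem`, `A.tr_eq`), and `dom` is open, so also the germs agree (`jac` depends on the germ); `IsHForm.compat`, `CMfd.det_jac_trans_ne_zero`, `CMfd.trans_eventually_differentiableAt`.
* `GAtlas.exists_lapOp`.  COMPAT: `B9.leviB_pullJ`, `hform_tr` for `k t`: `K_i = Jᴴ K_j J`, `tr (K_i⁻¹ Jᴴ M J) = tr (K_j⁻¹ M)` (`Matrix.mul_inv_rev`, `Matrix.trace_mul_cycle`).  SMOOTH + ELL: `exists_lapJ_SmB` with `Q = Icc 0 T ×ˢ ball 0 3` and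
  `k t (A.Φ i) z = ρ² • k t Φ (ρ • z)` (`UChart.rescale_eq` with `β = k t`); entries: as in `exists_SmST_of_FnST` from `FormST.smooth`, `FormST.bdd`; pinching: `FormST.equiv` and `GAtlas.uchart` (`c Λ'⁻¹ ≤ k ≤ c⁻¹ Λ'`).
* `GAtlas.lap_rep`: `lap_eq`, `lapJ_jet`.
* `finrank_CE_ne_one`: `finrank ℝ (CE (Fin n)) = 2 n` (`finrank_real_of_complex`-type lemma, `finrank_euclideanSpace`).
-/

set_option autoImplicit false
set_option maxSynthPendingDepth 3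
set_option linter.unusedSectionVars false

open scoped Topology ContDiff ComplexOrder
open Set Filter Metric

namespace Claimed.Agent.R316.B8M

open Claimed.Agent.R316 Claimed.Agent.R316.S3 Claimed.Agent.R316.B8

section Chart

variable {n : ℕ}

/-- `(N, J) ↦ Re tr (N leviB J)` as a continuous bilinear map. -/
theorem exists_trJ_clm (n : ℕ) : ∃ T : (Fin n → Fin n → ℂ) →L[ℝ] (Jet (CE (Fin n)) →L[ℝ] ℝ),
    ∀ (N : Matrix (Fin n) (Fin n) ℂ) J, T N J = (N * B9.leviB J.2.2).trace.re := by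
  obtain ⟨L₀, hL₀, _⟩ := B9.leviB_clm (ι := Fin n)
  let b : (Fin n → Fin n → ℂ) →ₗ[ℝ] (Fin n → Fin n → ℂ) →ₗ[ℝ] ℝ :=
    LinearMap.mk₂ ℝ (fun N M => ((Matrix.of N) * (Matrix.of M)).trace.re)
      (fun N N' M => by
        show ((Matrix.of N + Matrix.of N') * Matrix.of M).trace.re = _
        rw [Matrix.add_mul, Matrix.trace_add, Complex.add_re])
      (fun c N M => by
        show ((c • Matrix.of N) * Matrix.of M).trace.re = _
        rw [Matrix.smul_mul, Matrix.trace_smul, Complex.smul_re])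
      (fun N M M' => by
        show (Matrix.of N * (Matrix.of M + Matrix.of M')).trace.re = _
        rw [Matrix.mul_add, Matrix.trace_add, Complex.add_re])
      (fun c N M => by
        show (Matrix.of N * (c • Matrix.of M)).trace.re = _
        rw [Matrix.mul_smul, Matrix.trace_smul, Complex.smul_re])
  let b' : (Fin n → Fin n → ℂ) →ₗ[ℝ] ((Fin n → Fin n → ℂ) →L[ℝ] ℝ) :=
    (LinearMap.toContinuousLinearMap (𝕜 := ℝ) (E := Fin n → Fin n → ℂ) (F' := ℝ)).toLinearMap ∘ₗ b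
  let b'' : (Fin n → Fin n → ℂ) →L[ℝ] ((Fin n → Fin n → ℂ) →L[ℝ] ℝ) :=
    LinearMap.toContinuousLinearMap b'
  let S : Jet (CE (Fin n)) →L[ℝ] (Fin n → Fin n → ℂ) :=
    L₀ ∘L (ContinuousLinearMap.snd ℝ _ _) ∘L (ContinuousLinearMap.snd ℝ _ _)
  refine ⟨((ContinuousLinearMap.compL ℝ (Jet (CE (Fin n))) (Fin n → Fin n → ℂ) ℝ).flip S) ∘L b'',
    fun N J => ?_⟩
  show ((Matrix.of N) * (Matrix.of (L₀ J.2.2))).trace.re = _
  have : Matrix.of (L₀ J.2.2) = B9.leviB J.2.2 := by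
    ext j k
    exact hL₀ _ j k
  rw [this]
  rfl

theorem exists_lapJ_clm (H : Matrix (Fin n) (Fin n) ℂ) : ∃ L : Jet (CE (Fin n)) →L[ℝ] ℝ,
    ∀ J, L J = (H⁻¹ * B9.leviB J.2.2).trace.re := by
  obtain ⟨T, hT⟩ := exists_trJ_clm n
  exact ⟨T (H⁻¹ : Matrix (Fin n) (Fin n) ℂ), fun J => hT H⁻¹ J⟩

/-- the chart operator of the complex Laplacian of the Hermitian matrix `H`. -/
noncomputable def lapJ (H : Matrix (Fin n) (Fin n) ℂ) : Jet (CE (Fin n)) →L[ℝ] ℝ :=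
  (exists_lapJ_clm H).choose

theorem lapJ_apply (H : Matrix (Fin n) (Fin n) ℂ) (J : Jet (CE (Fin n))) :
    lapJ H J = (H⁻¹ * B9.leviB J.2.2).trace.re := (exists_lapJ_clm H).choose_spec J

theorem lapJ_const (H : Matrix (Fin n) (Fin n) ℂ) : lapJ H (1, 0, 0) = 0 := by
  rw [lapJ_apply]
  have : B9.leviB (0 : Bil (CE (Fin n))) = 0 := by
    ext j k
    simp [B9.leviB]
  show (H⁻¹ * B9.leviB (0 : Bil (CE (Fin n)))).trace.re = 0
  rw [this]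
  simp

theorem lapJ_jet (H : Matrix (Fin n) (Fin n) ℂ) {u : ℝ → CE (Fin n) → ℝ} {t : ℝ} {z : CE (Fin n)}
    (hu : ContDiffAt ℝ 2 (u t) z) : lapJ H (jet u t z) = (H⁻¹ * levi (u t) z).trace.re := by
  rw [lapJ_apply, B9.levi_eq_leviB hu]
  rfl

/-- bounds for the chart operator of a pinched smooth family of Hermitian matrices. -/
theorem exists_lapJ_SmB (n : ℕ) (Λ : ℝ) (Bk : ℕ → ℝ) (hΛ : 0 < Λ) : ∃ (lam : ℝ) (CP : ℕ → ℝ),
    0 < lam ∧ ∀ (Q : Set (ℝ × CE (Fin n))) (k : ℝ → CE (Fin n) → Matrix (Fin n) (Fin n) ℂ),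
      UniqueDiffOn ℝ Q → (∀ j l, SmB Q (fun q : ℝ × CE (Fin n) => k q.1 q.2 j l) Bk) →
      (∀ q ∈ Q, (k q.1 q.2).IsHermitian ∧ leM (cI Λ⁻¹) (k q.1 q.2) ∧ leM (k q.1 q.2) (cI Λ)) →
      SmB Q (fun q : ℝ × CE (Fin n) => lapJ (k q.1 q.2)) CP ∧
      ∀ q ∈ Q, ∀ ξ : CE (Fin n) →L[ℝ] ℝ, lam * ‖ξ‖ ^ 2 ≤ lapJ (k q.1 q.2) (topJ (sqB ξ)) := by
  obtain ⟨T, hT⟩ := exists_trJ_clm n
  set inv : (Fin n → Fin n → ℂ) → (Fin n → Fin n → ℂ) :=
    fun M => ((Matrix.of M)⁻¹ : Matrix (Fin n) (Fin n) ℂ) with hinvdef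
  set U : Set (Fin n → Fin n → ℂ) := {M | (Matrix.of M).det ≠ 0} with hUdef
  have hent : ∀ j k, ContDiff ℝ ∞ (fun w : Fin n → Fin n → ℂ => (Matrix.of w) j k) := fun j k =>
    contDiff_apply_apply ℝ ℂ j k
  have hdet : Continuous (fun w : Fin n → Fin n → ℂ => (Matrix.of w).det) := by
    have := (contDiffOn_det (H := fun w : Fin n → Fin n → ℂ => Matrix.of w) (s := univ) (N := ∞)
      (fun j k => (hent j k).contDiffOn)).continuousOn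
    exact continuousOn_univ.1 this
  have hU : IsOpen U := isOpen_ne_fun hdet continuous_const
  have hinv : ContDiffOn ℝ ∞ inv U := by
    refine contDiffOn_pi.2 fun j => contDiffOn_pi.2 fun k => ?_
    exact contDiffOn_matInv (H := fun w : Fin n → Fin n → ℂ => Matrix.of w)
      (fun a b => (hent a b).contDiffOn) (fun w hw => hw) j k
  have hKU : lapPinSet n Λ ⊆ U := fun M hM => det_ne_zero_of_posDef (posDef_of_cI_le hΛ hM.1)
  obtain ⟨η, C₁, hη, hsub, hC₁⟩ :=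
    B9.exists_SmB_thickening inv U (lapPinSet n Λ) hU hinv (isCompact_lapPinSet hΛ) hKU
  obtain ⟨C₀, hC₀⟩ := exists_SmB_matrix (W := ℝ × CE (Fin n)) n Bk
  obtain ⟨C₂, hC₂⟩ := exists_SmB_comp_gen (W' := ℝ × CE (Fin n)) (W := Fin n → Fin n → ℂ)
    (G := Fin n → Fin n → ℂ) C₀ C₁
  refine ⟨1 / (4 * Λ), fun m => ‖T‖ * C₂ m, by positivity, fun Q k hQ hk hpin => ⟨?_, ?_⟩⟩
  · have h1 := hC₀ Q (fun q => k q.1 q.2) hQ hk
    have h2 := hC₂ Q (thickening η (lapPinSet n Λ)) _ inv hQ isOpen_thickening.uniqueDiffOn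
      (fun q hq => self_subset_thickening hη _ ⟨(hpin q hq).2.1, (hpin q hq).2.2⟩) h1 hC₁
    refine (h2.clm_comp hQ T).congr fun q _ => ?_
    refine ContinuousLinearMap.ext fun J => ?_
    rw [lapJ_apply]
    exact (hT _ J).symm
  · intro q hq ξ
    obtain ⟨hH, hlo, hup⟩ := hpin q hq
    set H := k q.1 q.2 with hHdef
    have hPD : H.PosDef := posDef_of_cI_le hΛ hlo
    rw [lapJ_apply]
    show _ ≤ (H⁻¹ * B9.leviB (sqB ξ)).trace.re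
    have e1 : B9.leviB (sqB ξ) = ((1 / 4 : ℝ) : ℂ) •
        Matrix.of fun j k => (starRingEnd ℂ) (B9.cov10 ξ j) * B9.cov10 ξ k := by
      ext j k
      rw [B9.leviB_sqB]
      simp
    rw [e1, Matrix.mul_smul, Matrix.trace_smul, smul_eq_mul, Complex.re_ofReal_mul,
      trace_inv_mul_rankOne, qf_transpose]
    have h3 : (H⁻¹ - (cI Λ)⁻¹).PosSemidef := loewner_inv_anti hPD hup
    rw [B9.cI_inv hΛ.ne'] at h3
    have h4 := qf_mono h3 (star (B9.cov10 ξ))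
    unfold cI at h4
    rw [qf_smul, qf_one] at h4
    have h5 : ∑ j, ‖star (B9.cov10 ξ) j‖ ^ 2 = ‖ξ‖ ^ 2 := by
      rw [← B9.sum_normSq_cov ξ]
      simp
    rw [h5] at h4
    calc 1 / (4 * Λ) * ‖ξ‖ ^ 2 = 1 / 4 * (Λ⁻¹ * ‖ξ‖ ^ 2) := by
          field_simp
      _ ≤ _ := by gcongr

theorem finrank_CE_ne_one (n : ℕ) : Module.finrank ℝ (CE (Fin n)) ≠ 1 := by
  rw [← Module.finrank_mul_finrank ℝ ℂ (CE (Fin n)), Complex.finrank_real_complex,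
    finrank_euclideanSpace, Fintype.card_fin]
  omega

end Chart

/-- **`S3.StLinLocalReg`.** -/
theorem stLinLocalReg : StLinLocalReg := by
  intro n r T Λ M Bk hr hT hΛ
  obtain ⟨lam, CP, hlam, hP⟩ := exists_lapJ_SmB n Λ Bk hΛ
  obtain ⟨C, hC⟩ := exists_lin_local_reg (E := CE (Fin n)) r T lam M (fun m => max (CP m) (Bk m)) hr
    hT hlam
  refine ⟨C, ?_⟩
  intro k F u ut hk hF hu hall hbd hbdF h0
  have hQ : UniqueDiffOn ℝ (Icc (0 : ℝ) T ×ˢ ball (0 : CE (Fin n)) (2 * r)) :=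
    (uniqueDiffOn_Icc hT).prod isOpen_ball.uniqueDiffOn
  obtain ⟨hP1, hP2⟩ := hP (Icc (0 : ℝ) T ×ˢ ball (0 : CE (Fin n)) (2 * r)) k hQ
    (fun j l => ⟨hk j l, fun m q hq => hbd m j l q.1 hq.1 q.2 hq.2⟩)
    (fun q hq => ⟨(hall q.1 hq.1 q.2 hq.2).1, (hall q.1 hq.1 q.2 hq.2).2.1,
      (hall q.1 hq.1 q.2 hq.2).2.2.1⟩)
  refine hC (fun t z => lapJ (k t z)) F u ut (hP1.mono fun m => le_max_left _ _)
    (SmB.mono ⟨hF, fun m q hq => hbdF m q.1 hq.1 q.2 hq.2⟩ fun m => le_max_right _ _)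
    (fun t ht z hz ξ => hP2 (t, z) ⟨ht, hz⟩ ξ) hu ?_ h0
  intro t ht z hz
  obtain ⟨_, _, _, h4, h5, h6⟩ := hall t ht z hz
  refine ⟨h4, h5, ?_⟩
  have hc : ContDiffAt ℝ 2 (u t) z :=
    ((contDiffOn_slice_space hu ht).contDiffAt (isOpen_ball.mem_nhds hz)).of_le
      (WithTop.coe_le_coe.2 le_top)
  simp only [Lop]
  rw [lapJ_jet _ hc, h6]
  ring

/-- rescaling of the space variable. -/
theorem exists_SmB_rescale {E G : Type*} [NormedAddCommGroup E] [NormedSpace ℝ E]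
    [NormedAddCommGroup G] [NormedSpace ℝ G] (ρ T r : ℝ) (hρ : 0 < ρ) (hT : 0 < T)
    (h3 : 3 * ρ ≤ r) (C₀ : ℕ → ℝ) : ∃ C : ℕ → ℝ, ∀ g : ℝ × E → G,
      SmB (Icc (0 : ℝ) T ×ˢ ball (0 : E) r) g C₀ →
      SmB (Icc (0 : ℝ) T ×ˢ ball (0 : E) 3) (fun q => g (q.1, ρ • q.2)) C := by
  set L : ℝ × E →L[ℝ] ℝ × E :=
    (ContinuousLinearMap.fst ℝ ℝ E).prod (ρ • ContinuousLinearMap.snd ℝ ℝ E) with hL
  obtain ⟨C, hC⟩ := exists_SmB_comp_gen (W' := ℝ × E) (W := ℝ × E) (G := G)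
    (fun k => if k = 0 then T + 3 * ρ else if k = 1 then ‖L‖ else 0) C₀
  refine ⟨C, fun g hg => ?_⟩
  have hQ' : UniqueDiffOn ℝ (Icc (0 : ℝ) T ×ˢ ball (0 : E) 3) :=
    (uniqueDiffOn_Icc hT).prod isOpen_ball.uniqueDiffOn
  have hQ : UniqueDiffOn ℝ (Icc (0 : ℝ) T ×ˢ ball (0 : E) r) :=
    (uniqueDiffOn_Icc hT).prod isOpen_ball.uniqueDiffOn
  have hn : ∀ q ∈ Icc (0 : ℝ) T ×ˢ ball (0 : E) 3, ‖ρ • q.2‖ < 3 * ρ := by
    intro q hq
    have := mem_ball_zero_iff.1 hq.2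
    rw [norm_smul, Real.norm_eq_abs, abs_of_pos hρ]
    nlinarith
  have h1 := SmB.affine (Icc (0 : ℝ) T ×ˢ ball (0 : E) 3) hQ' L 0 (b := T + 3 * ρ) (by
    intro q hq
    rw [add_zero]
    show ‖(q.1, ρ • q.2)‖ ≤ _
    rw [Prod.norm_def]
    refine max_le ?_ ?_
    · rw [Real.norm_eq_abs, abs_of_nonneg hq.1.1]
      linarith [hq.1.2]
    · linarith [hn q hq])
  have h2 := hC _ _ _ g hQ' hQ (fun q hq => by
    rw [add_zero]
    exact ⟨hq.1, mem_ball_zero_iff.2 ((hn q hq).trans_le h3)⟩) h1 hg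
  refine h2.congr fun q _ => ?_
  rw [add_zero]
  rfl

section Manifold

variable {V : Type} [NormedAddCommGroup V] [NormedSpace ℝ V] {n : ℕ}
variable {X : CMfd V (Fin n)} {α : HFam V (Fin n)} {G : BddGeom X α}
  {A : UAtlas V (CE (Fin n))} {ρ ρ₁ T : ℝ} {Ct : ℕ → ℝ}

/-- the chart operators of `Δ_{k_t}`. -/
noncomputable def lapOp (A : UAtlas V (CE (Fin n))) (k : ℝ → HFam V (Fin n)) :
    A.ι → Op (CE (Fin n)) := fun i t z => lapJ (k t (A.Φ i) z)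

theorem GAtlas.isHol (hα : IsMetric X α) (hA : GAtlas G A ρ ρ₁ Ct) (i : A.ι) :
    X.IsHol (A.Φ i) (ball (0 : CE (Fin n)) 3) := (hA.uchart hα i).isHol

/-- input classes. -/
theorem GAtlas.exists_SmST_of_FnST (hA : GAtlas G A ρ ρ₁ Ct) (hT : 0 < T) {c : ℝ → V → ℝ}
    (hc : G.FnST T c) : ∃ C : ℕ → ℝ, A.SmST (Icc 0 T) c C := by
  obtain ⟨hsm, hb⟩ := hc
  choose C₀ hC₀ using hb
  have hρ := hA.ρ_pos
  have hρl := hA.ρ_le
  have hr := G.r_pos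
  obtain ⟨C, hC⟩ := exists_SmB_rescale (E := CE (Fin n)) (G := ℝ) ρ T (G.r / 2) hρ hT
    (by linarith) C₀
  refine ⟨C, fun i => ?_⟩
  obtain ⟨Φ, hΦ, hi⟩ := hA.chart i
  have h1 : SmB (Icc (0 : ℝ) T ×ˢ ball (0 : CE (Fin n)) (G.r / 2))
      (fun q : ℝ × CE (Fin n) => c q.1 (Φ q.2)) C₀ :=
    SmB.of_bdd_subset (hsm Φ _ (G.uchart Φ hΦ).isHol)
      ((uniqueDiffOn_Icc hT).prod isOpen_ball.uniqueDiffOn)
      ((uniqueDiffOn_Icc hT).prod isOpen_ball.uniqueDiffOn)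
      (prod_mono le_rfl (ball_subset_ball (by linarith)))
      (fun k q hq => hC₀ k Φ hΦ q.1 hq.1 q.2 hq.2)
  have h2 := hC _ h1
  rw [hi]
  exact h2

theorem GAtlas.smoothST_of_SmST (hα : IsMetric X α) (hA : GAtlas G A ρ ρ₁ Ct)
    {w : ℝ → V → ℝ} {C : ℕ → ℝ} (hw : A.SmST (Icc 0 T) w C) : X.SmoothST (Icc 0 T) w := by
  intro Φ U hΦ
  rintro ⟨t, z⟩ ⟨ht, hz⟩
  have hx : Φ z ∈ A.X := hA.carrier ▸ CMfd.mem_carrier hΦ hz
  obtain ⟨i, y, hy, hyz⟩ := A.cover _ hx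
  have hi := GAtlas.isHol hα hA i
  set τ := Function.invFunOn (A.Φ i) (ball (0 : CE (Fin n)) 3) ∘ Φ with hτ
  set O := U ∩ Φ ⁻¹' (A.Φ i '' ball (0 : CE (Fin n)) 3) with hOdef
  have hzO : z ∈ O := ⟨hz, y, ball_subset_ball (by norm_num) hy, hyz⟩
  have hO : IsOpen O := CMfd.isOpen_overlap hΦ hi
  have h1 : ContDiffOn ℝ ∞ (fun q : ℝ × CE (Fin n) => (q.1, τ q.2)) (Icc (0 : ℝ) T ×ˢ O) :=
    contDiffOn_fst.prodMk ((CMfd.trans_contDiffOn hΦ hi).comp contDiffOn_snd (fun q hq => hq.2))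
  have h2 : ContDiffOn ℝ ∞ (fun q : ℝ × CE (Fin n) => w q.1 (A.Φ i (τ q.2))) (Icc (0 : ℝ) T ×ˢ O) :=
    (hw i).smooth.comp h1 (fun q hq => ⟨hq.1, CMfd.trans_mem hΦ hi hq.2⟩)
  have h3 : ContDiffOn ℝ ∞ (fun q : ℝ × CE (Fin n) => w q.1 (Φ q.2)) (Icc (0 : ℝ) T ×ˢ O) :=
    h2.congr (fun q hq => by rw [CMfd.trans_spec hΦ hi hq.2])
  refine (h3 (t, z) ⟨ht, hzO⟩).mono_of_mem_nhdsWithin ?_
  have h4 : (Icc (0 : ℝ) T ×ˢ U) ∩ (univ ×ˢ O) ∈ 𝓝[Icc (0 : ℝ) T ×ˢ U] (t, z) :=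
    inter_mem_nhdsWithin _ ((isOpen_univ.prod hO).mem_nhds ⟨trivial, hzO⟩)
  exact mem_of_superset h4 fun q hq => ⟨hq.1.1, hq.2.2⟩

/-- output class. -/
theorem GAtlas.FnST_of_SmST (hα : IsMetric X α) (hA : GAtlas G A ρ ρ₁ Ct) (hT : 0 < T)
    {w : ℝ → V → ℝ} {C : ℕ → ℝ} (hw : A.SmST (Icc 0 T) w C) : G.FnST T w := by
  have hsm := GAtlas.smoothST_of_SmST hα hA hw
  refine ⟨hsm, ?_⟩
  have hρ := hA.ρ_pos
  have hρl := hA.ρ_le
  have hρ₁ := hA.ρ₁_pos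
  have hρ₁l := hA.ρ₁_le
  have hr := G.r_pos
  set L₁ : ℝ × CE (Fin n) →L[ℝ] CE (Fin n) := ρ⁻¹ • ContinuousLinearMap.snd ℝ ℝ (CE (Fin n)) with hL₁
  obtain ⟨c₂, hc₂⟩ := exists_SmB_comp_gen (W' := ℝ × CE (Fin n)) (W := CE (Fin n))
    (G := CE (Fin n)) (fun k => if k = 0 then 1 else if k = 1 then ‖L₁‖ else 0) Ct
  set L₀ : ℝ × CE (Fin n) →L[ℝ] ℝ := ContinuousLinearMap.fst ℝ ℝ (CE (Fin n)) with hL₀
  obtain ⟨C', hC'⟩ := exists_SmB_comp_gen (W' := ℝ × CE (Fin n)) (W := ℝ × CE (Fin n)) (G := ℝ)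
    (fun k => (if k = 0 then T else if k = 1 then ‖L₀‖ else 0) + c₂ k) C
  intro m
  refine ⟨C' m, fun Φ hΦ t ht z₀ hz₀ => ?_⟩
  obtain ⟨i, τ, hτs, hτ, hτb⟩ := hA.transfer Φ hΦ z₀ hz₀
  set Q' : Set (ℝ × CE (Fin n)) := Icc (0 : ℝ) T ×ˢ ball z₀ (ρ * ρ₁) with hQ'def
  have hQ' : UniqueDiffOn ℝ Q' := (uniqueDiffOn_Icc hT).prod isOpen_ball.uniqueDiffOn
  have hQ3 : UniqueDiffOn ℝ (Icc (0 : ℝ) T ×ˢ ball (0 : CE (Fin n)) 3) :=
    (uniqueDiffOn_Icc hT).prod isOpen_ball.uniqueDiffOn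
  have hQr : UniqueDiffOn ℝ (Icc (0 : ℝ) T ×ˢ ball (0 : CE (Fin n)) G.r) :=
    (uniqueDiffOn_Icc hT).prod isOpen_ball.uniqueDiffOn
  have hψe : ∀ q : ℝ × CE (Fin n), L₁ q + -(ρ⁻¹ • z₀) = ρ⁻¹ • (q.2 - z₀) := by
    intro q
    show ρ⁻¹ • q.2 + -(ρ⁻¹ • z₀) = _
    rw [smul_sub, sub_eq_add_neg]
  have hψm : MapsTo (fun q : ℝ × CE (Fin n) => L₁ q + -(ρ⁻¹ • z₀)) Q' (ball (0 : CE (Fin n)) ρ₁) := by
    intro q hq
    have h1 : ‖q.2 - z₀‖ < ρ * ρ₁ := by simpa [dist_eq_norm] using hq.2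
    show L₁ q + -(ρ⁻¹ • z₀) ∈ ball (0 : CE (Fin n)) ρ₁
    rw [hψe, mem_ball_zero_iff, norm_smul, norm_inv, Real.norm_eq_abs, abs_of_pos hρ,
      inv_mul_lt_iff₀ hρ]
    exact h1
  have hψ := SmB.affine Q' hQ' L₁ (-(ρ⁻¹ • z₀)) (b := 1) (fun q hq =>
    ((mem_ball_zero_iff.1 (hψm hq)).le.trans hρ₁l))
  have hτB : SmB (ball (0 : CE (Fin n)) ρ₁) τ Ct :=
    SmB.of_isOpen isOpen_ball (hτs.mono (ball_subset_ball hρ₁l))
      (fun k q hq => hτb k q (ball_subset_ball hρ₁l hq))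
  have h1 := hc₂ Q' (ball (0 : CE (Fin n)) ρ₁) _ τ hQ' isOpen_ball.uniqueDiffOn hψm hψ hτB
  have h0 := SmB.affine Q' hQ' L₀ 0 (b := T) (fun q hq => by
    rw [add_zero]
    show ‖q.1‖ ≤ T
    rw [Real.norm_eq_abs, abs_of_nonneg hq.1.1]
    exact hq.1.2)
  have h2 := h0.prodMk h1 hQ'
  have h3 := hC' Q' (Icc (0 : ℝ) T ×ˢ ball (0 : CE (Fin n)) 3) _ _ hQ' hQ3 (fun q hq => by
    refine ⟨?_, ball_subset_ball (by norm_num) (hτ _ (hψm hq)).1⟩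
    show L₀ q + 0 ∈ Icc (0 : ℝ) T
    rw [add_zero]
    exact hq.1) h2 (hw i)
  have h4 : SmB Q' (fun q : ℝ × CE (Fin n) => w q.1 (Φ q.2)) C' := by
    refine h3.congr fun q hq => ?_
    show w q.1 (Φ q.2) = w (L₀ q + 0) (A.Φ i (τ (L₁ q + -(ρ⁻¹ • z₀))))
    rw [(hτ _ (hψm hq)).2]
    show w q.1 (Φ q.2) = w (L₀ q + 0) (Φ (z₀ + ρ • (L₁ q + -(ρ⁻¹ • z₀))))
    rw [hψe, smul_smul, mul_inv_cancel₀ hρ.ne', one_smul, add_sub_cancel,
      add_zero]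
    rfl
  have hsub : Q' ⊆ Icc (0 : ℝ) T ×ˢ ball (0 : CE (Fin n)) G.r := by
    refine prod_mono le_rfl fun y hy => ?_
    have h5 : ‖y - z₀‖ < ρ * ρ₁ := by simpa [dist_eq_norm] using hy
    have h6 := mem_ball_zero_iff.1 hz₀
    rw [mem_ball_zero_iff]
    have h7 : ‖y‖ ≤ ‖y - z₀‖ + ‖z₀‖ := by
      have := norm_add_le (y - z₀) z₀
      rwa [sub_add_cancel] at this
    have h8 : ρ * ρ₁ ≤ ρ := by nlinarith
    linarith
  have hmem : (t, z₀) ∈ Q' := ⟨ht, mem_ball_self (by positivity)⟩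
  rw [← iteratedFDerivWithin_subset hsub hQ' hQr
    ((hsm Φ _ (G.uchart Φ hΦ).isHol).of_le (by exact_mod_cast le_top)) hmem]
  exact h4.bdd m _ hmem

/-- transformation of a Hermitian form under the transitions of the atlas. -/
theorem GAtlas.hform_tr (hα : IsMetric X α) (hA : GAtlas G A ρ ρ₁ Ct) {β : HFam V (Fin n)}
    (hβ : IsHForm X β) (i j : A.ι) {z : CE (Fin n)} (hz : z ∈ A.dom i j) :
    β (A.Φ i) z = (jac (A.tr i j) z).conjTranspose * β (A.Φ j) (A.tr i j z) * jac (A.tr i j) z ∧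
    (jac (A.tr i j) z).det ≠ 0 ∧ ∀ᶠ w in 𝓝 z, DifferentiableAt ℂ (A.tr i j) w := by
  have hi := GAtlas.isHol hα hA i
  have hj := GAtlas.isHol hα hA j
  have hov : ∀ w ∈ A.dom i j,
      w ∈ ball (0 : CE (Fin n)) 3 ∩ A.Φ i ⁻¹' (A.Φ j '' ball (0 : CE (Fin n)) 3) := fun w hw => hw
  have heq : ∀ w ∈ A.dom i j,
      (Function.invFunOn (A.Φ j) (ball (0 : CE (Fin n)) 3) ∘ A.Φ i) w = A.tr i j w := fun w hw =>
    CMfd.trans_eq hi hj (A.tr_mem_ball hw) (A.Φ_tr hw).symm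
  have hev : (Function.invFunOn (A.Φ j) (ball (0 : CE (Fin n)) 3) ∘ A.Φ i) =ᶠ[𝓝 z] A.tr i j := by
    filter_upwards [(A.isOpen_dom i j).mem_nhds hz] with w hw
    exact heq w hw
  have h1 := hβ.compat hi hj z (hov z hz).1 (hov z hz).2
  have h2 := CMfd.det_jac_trans_ne_zero hi hj (hov z hz)
  rw [jac_congr hev] at h1 h2
  have h3 : Function.invFunOn (A.Φ j) (ball (0 : CE (Fin n)) 3) (A.Φ i z) = A.tr i j z := heq z hz
  rw [h3] at h1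
  refine ⟨h1, h2, ?_⟩
  filter_upwards [(A.isOpen_dom i j).mem_nhds hz] with w hw
  have hev' : (Function.invFunOn (A.Φ j) (ball (0 : CE (Fin n)) 3) ∘ A.Φ i) =ᶠ[𝓝 w] A.tr i j := by
    filter_upwards [(A.isOpen_dom i j).mem_nhds hw] with y hy
    exact heq y hy
  exact (CMfd.trans_differentiableAt hi hj (hov w hw)).congr_of_eventuallyEq hev'.symm

/-- the Laplacians of a bounded family of metrics form a smooth uniformly elliptic operator on the atlas. -/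
theorem GAtlas.exists_lapOp (hα : IsMetric X α) (hA : GAtlas G A ρ ρ₁ Ct) (hT : 0 < T)
    {k : ℝ → HFam V (Fin n)} (hk : G.FormST T k) : ∃ (lam : ℝ) (CP : ℕ → ℝ), 0 < lam ∧
      A.CompatL (Icc 0 T) (lapOp A k) ∧ A.SmL (Icc 0 T) (lapOp A k) CP ∧
      A.EllL (Icc 0 T) lam (lapOp A k) := by
  obtain ⟨c, hc, hequiv⟩ := hk.equiv
  choose C₀ hC₀ using hk.bdd
  have hρ := hA.ρ_pos
  have hρl := hA.ρ_le
  have hr := G.r_pos
  obtain ⟨C₁, hC₁⟩ := exists_SmB_rescale (E := CE (Fin n)) (G := ℂ) ρ T (G.r / 2) hρ hT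
    (by linarith) C₀
  set Λ' : ℝ := G.Λ * max (ρ ^ 2) (ρ ^ 2)⁻¹ with hΛ'def
  have hΛ' : 0 < Λ' := mul_pos G.Λ_pos (lt_max_of_lt_left (by positivity))
  set Ls : ℂ →L[ℝ] ℂ := (ρ ^ 2 : ℝ) • ContinuousLinearMap.id ℝ ℂ with hLs
  obtain ⟨lam, CP, hlam, hP⟩ := exists_lapJ_SmB n (c⁻¹ * Λ') (fun m => ‖Ls‖ * C₁ m) (by positivity)
  have hQ3 : UniqueDiffOn ℝ (Icc (0 : ℝ) T ×ˢ ball (0 : CE (Fin n)) 3) :=
    (uniqueDiffOn_Icc hT).prod isOpen_ball.uniqueDiffOn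
  have key : ∀ i, SmB (Icc (0 : ℝ) T ×ˢ ball (0 : CE (Fin n)) 3)
      (fun q : ℝ × CE (Fin n) => lapJ (k q.1 (A.Φ i) q.2)) CP ∧
      ∀ q ∈ Icc (0 : ℝ) T ×ˢ ball (0 : CE (Fin n)) 3, ∀ ξ : CE (Fin n) →L[ℝ] ℝ,
        lam * ‖ξ‖ ^ 2 ≤ lapJ (k q.1 (A.Φ i) q.2) (topJ (sqB ξ)) := by
    intro i
    obtain ⟨Φ, hΦ, hi⟩ := hA.chart i
    have hU := G.uchart Φ hΦ
    obtain ⟨hH, hEq⟩ := UChart.rescale_eq hα hU hρ (R := 3) (by linarith)
    refine hP _ (fun t z => k t (A.Φ i) z) hQ3 (fun j l => ?_) (fun q hq => ?_)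
    · have h1 : SmB (Icc (0 : ℝ) T ×ˢ ball (0 : CE (Fin n)) (G.r / 2))
          (fun q : ℝ × CE (Fin n) => k q.1 Φ q.2 j l) C₀ :=
        SmB.of_bdd_subset (hk.smooth Φ _ hU.isHol j l)
          ((uniqueDiffOn_Icc hT).prod isOpen_ball.uniqueDiffOn)
          ((uniqueDiffOn_Icc hT).prod isOpen_ball.uniqueDiffOn)
          (prod_mono le_rfl (ball_subset_ball (by linarith)))
          (fun m q hq => hC₀ m Φ hΦ j l q.1 hq.1 q.2 hq.2)
      have h2 := (hC₁ _ h1).clm_comp hQ3 Ls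
      refine h2.congr fun q hq => ?_
      rw [hi, hEq (k q.1) (hk.metric q.1 hq.1).toIsHForm q.2 hq.2]
      simp [Ls]
    · have hm := hk.metric q.1 hq.1
      have hiH := GAtlas.isHol hα hA i
      have hu := hA.uchart hα i
      refine ⟨hm.herm hiH q.2 hq.2, ?_, ?_⟩
      · have h1 := (hequiv q.1 hq.1).1 _ _ hiH q.2 hq.2
        have h2 := leM_smul' (hu.lower q.2 hq.2) hc.le
        rw [smul_cI'] at h2
        have h3 : (c⁻¹ * Λ')⁻¹ = c * Λ'⁻¹ := by rw [mul_inv, inv_inv]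
        rw [h3]
        exact leM_trans' h2 h1
      · have h1 := (hequiv q.1 hq.1).2 _ _ hiH q.2 hq.2
        have h2 := leM_smul' (hu.upper q.2 hq.2) (inv_pos.2 hc).le
        rw [smul_cI'] at h2
        exact leM_trans' h1 h2
  refine ⟨lam, CP, hlam, ?_, fun i => (key i).1, fun i t ht z hz ξ => (key i).2 (t, z) ⟨ht, hz⟩ ξ⟩
  intro i j t ht z hz J
  obtain ⟨h1, h2, h3⟩ := GAtlas.hform_tr hα hA (hk.metric t ht).toIsHForm i j hz
  show lapJ (k t (A.Φ i) z) (A.pull i j z J) = lapJ (k t (A.Φ j) (A.tr i j z)) J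
  rw [lapJ_apply, lapJ_apply]
  have h4 := B9.leviB_pullJ h3 J
  show ((k t (A.Φ i) z)⁻¹ * B9.leviB (pullJ (fderiv ℝ (A.tr i j) z)
    (fderiv ℝ (fderiv ℝ (A.tr i j)) z) J).2.2).trace.re = _
  rw [h4, h1, trace_inv_mul_conj h2]

/-- the Laplacian in the charts of the atlas. -/
theorem GAtlas.lap_rep (hα : IsMetric X α) (hA : GAtlas G A ρ ρ₁ Ct) {h : HFam V (Fin n)}
    (hh : IsMetric X h) {u : ℝ → V → ℝ} {t : ℝ} (hu : X.Smooth (u t)) (i : A.ι) {z : CE (Fin n)}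
    (hz : z ∈ ball (0 : CE (Fin n)) 3) :
    lap X h (u t) (A.Φ i z) = lapJ (h (A.Φ i) z) (jet (A.rep i u) t z) := by
  have hi := GAtlas.isHol hα hA i
  have hc : ContDiffAt ℝ 2 (A.rep i u t) z :=
    ((hu _ _ hi).contDiffAt (isOpen_ball.mem_nhds hz)).of_le (WithTop.coe_le_coe.2 le_top)
  rw [lap_eq hh hu hi hz, lapJ_jet _ hc]
  rfl

end Manifold

/-- **`S3.StLinExist`.** -/
theorem stLinExist : StLinExist := by
  intro V _ _ _ n X α G T k F hα hT hk hF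
  obtain ⟨A, ρ, ρ₁, Ct, hA⟩ := exists_gatlas hα G
  obtain ⟨lam, CP, hlam, hc, hs, he⟩ := hA.exists_lapOp hα hT hk
  obtain ⟨Cf, hCf⟩ := hA.exists_SmST_of_FnST hT hF
  obtain ⟨u, ut, ⟨C, hC⟩, h0, hdt, hsol⟩ := A.exists_lin_smooth hT hlam hc hs he hCf
  have hFn : G.FnST T u := hA.FnST_of_SmST hα hT hC
  refine ⟨u, ut, hFn, fun x hx => h0 x (hA.carrier ▸ hx), ?_⟩
  intro t ht x hx
  have hx' : x ∈ A.X := hA.carrier ▸ hx
  refine ⟨hdt t ht x hx', ?_⟩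
  obtain ⟨i, z, hz, rfl⟩ := A.cover x hx'
  have hz3 : z ∈ ball (0 : CE (Fin n)) 3 := ball_subset_ball (by norm_num) hz
  have hsm : X.Smooth (u t) := fun Φ U h => contDiffOn_slice_space (hFn.1 Φ U h) ht
  rw [hA.lap_rep hα (hk.metric t ht) hsm i hz3]
  exact hsol i t ht z hz3

/-- **`S3.StQuasiExist`.** -/
theorem stQuasiExist : StQuasiExist := by
  intro V _ _ _ n X α G T pen a k R β ψ ψt hα hT hpen ha hk hR hβ hψ hall haψ
  obtain ⟨A, ρ, ρ₁, Ct, hA⟩ := exists_gatlas hα G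
  obtain ⟨lam, CP, hlam, hc, hs, he⟩ := hA.exists_lapOp hα hT hk
  obtain ⟨CR, hCR⟩ := hA.exists_SmST_of_FnST hT hR
  obtain ⟨Cβ, hCβ⟩ := hA.exists_SmST_of_FnST hT hβ
  obtain ⟨Cψ, hCψ⟩ := hA.exists_SmST_of_FnST hT hψ
  have hXc : A.X = X.carrier := hA.carrier
  set C : ℕ → ℝ := fun m => max (max (CP m) (CR m)) (max (Cβ m) (Cψ m)) with hCdef
  have hQ : A.QHyp T lam pen a C (lapOp A k) R β ψ ψt :=
    { T_pos := hT
      lam_pos := hlam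
      compat := hc
      smooth := fun i => (hs i).mono fun m => (le_max_left _ _).trans (le_max_left _ _)
      ell := he
      const := fun i t _ z _ => lapJ_const _
      smR := fun i => (hCR i).mono fun m => (le_max_right _ _).trans (le_max_left _ _)
      smβ := fun i => (hCβ i).mono fun m => (le_max_left _ _).trans (le_max_right _ _)
      smψ := fun i => (hCψ i).mono fun m => (le_max_right _ _).trans (le_max_right _ _)
      pen_nonneg := hpen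
      a_nonneg := ha
      β_nonneg := fun t ht x hx => (hall t ht x (hXc ▸ hx)).1
      ψ_nonneg := fun t ht x hx => (hall t ht x (hXc ▸ hx)).2.1
      ψ_dt := fun t ht x hx => (hall t ht x (hXc ▸ hx)).2.2.1
      ψ_super := by
        intro i t ht z hz
        have hx : A.Φ i z ∈ X.carrier := hXc ▸ A.maps i hz
        have h4 := (hall t ht _ hx).2.2.2
        have hsm : X.Smooth (ψ t) := fun Φ U h => contDiffOn_slice_space (hψ.1 Φ U h) ht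
        rw [hA.lap_rep hα (hk.metric t ht) hsm i hz] at h4
        exact h4
      a_le := fun x hx => haψ x (hXc ▸ hx) }
  obtain ⟨w, wt, ⟨C', hC'⟩, h0, hdt, hsol, hbar⟩ := UAtlas.exists_quasi (finrank_CE_ne_one n) hQ
  have hFn : G.FnST T w := hA.FnST_of_SmST hα hT hC'
  refine ⟨w, wt, hFn, fun x hx => h0 x (hXc ▸ hx), ?_⟩
  intro t ht x hx
  have hx' : x ∈ A.X := hXc ▸ hx
  refine ⟨hdt t ht x hx', ?_, hbar t ht x hx'⟩
  obtain ⟨i, z, hz, rfl⟩ := A.cover x hx'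
  have hz3 : z ∈ ball (0 : CE (Fin n)) 3 := ball_subset_ball (by norm_num) hz
  have hsm : X.Smooth (w t) := fun Φ U h => contDiffOn_slice_space (hFn.1 Φ U h) ht
  rw [hA.lap_rep hα (hk.metric t ht) hsm i hz3]
  exact hsol i t ht z hz3

end Claimed.Agent.R316.B8M
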