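import Claimed.Agent.R316.B8M.Basic
import Claimed.Agent.R316.B8.MaxP
import Claimed.Agent.R316.B8.Cutoff

/-!
# B8M-MAXP (M3): maximum principle for BOUNDED functions on a manifold with a uniform atlas

PROVED (helper111).  No proper function, no distance: the Omori-Yau penalisation is done in ONE chart.
No compatibility of the chart operators is needed.

Recipe for `maxP`.  Put `λ = M + 1`, `w t x = exp (-λ t) * u t x`, `m = sup_{[0,T] × X} w` (finite by `hb`; assume `m > 0`, otherwise done;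
`X ≠ ∅`).  Let `c₀ = 8 M + 1`... choose `η > 0` with `η (1 + 12 M) < m` (any small `η`).  Take `(t₀,x₀)` with `w t₀ x₀ > m - η`, a chart `i` and
`z₀ ∈ ball 0 1` with `Φ i z₀ = x₀` (`A.cover`); `closedBall z₀ 1 ⊆ ball 0 3`.  The continuous function
`φ t z = exp (-λ t) * rep i u t z - 2 η ‖z - z₀‖²` attains its maximum over the compact set `Icc 0 T ×ˢ closedBall z₀ 1` at `(t₁,z₁)`.
`φ t₁ z₁ ≥ φ t₀ z₀ > m - η`, while `φ ≤ m - 2 η` on the sphere: `z₁ ∈ ball z₀ 1`.  `w t₁ (Φ i z₁) ≥ φ t₁ z₁ > m - η > 0`, so `t₁ > 0` (`h0`).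
Apply `B8.touch` to `φ` on `S = ball z₀ 1`: `φ_t ≥ 0`, `Dφ = 0`, `D²φ ≤ 0` at `(t₁,z₁)`, i.e. with `v = exp(-λ t) rep i u`:
`v_t ≥ 0`, `Dv = 4 η ⟪z₁ - z₀, ·⟫`, `D²v ≤ 4 η innB`.  Then (`B8.nonpos_of_nsd` for `topOf (P i t₁ z₁)` and `D²v - 4 η innB`)
`P (jet v) ≤ M v + M * 4 η + M * 4 η` and `0 ≤ v_t = exp(-λ t)(u_t - λ u) ≤ P (jet v) - λ v ≤ - v + 8 M η < -(m - η) + 8 M η < 0`.
Alternatively apply `B8.touch_op` to the operator and the function `φ` directly.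

`sup_bound`, `compare`, `unique`: as in `B8/MaxP.lean` (`ψ t = exp (M t) (K0 + t F0)`, `jet_of_time`).

`compareN`: for fixed `(i,t,z)` the mean value theorem on the segment `[J₂,J₁] ⊆ ball 0 δ` (`J₁ = jet u`, `J₂ = jet v`) gives `s ∈ (0,1)` with
`F J₁ - F J₂ = fderiv (F i t z) (J₂ + s (J₁ - J₂)) (J₁ - J₂)` (`exists_hasDerivAt_eq_slope` / `domain_mvt`); CHOOSE
`P i t z :=` this functional (no regularity in `(t,z)` is needed for `maxP`), `A.BddM`; `w = u - v` is a subsolution.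
-/

set_option autoImplicit false
set_option maxSynthPendingDepth 3
set_option linter.unusedSectionVars false

open scoped Topology ContDiff
open Set Filter Metric

namespace Claimed.Agent.R316.B8M

open Claimed.Agent.R316.B8

variable {V E : Type} [NormedAddCommGroup V] [NormedSpace ℝ V]
  [NormedAddCommGroup E] [InnerProductSpace ℝ E] [FiniteDimensional ℝ E]

/-- the one chart argument: a function `v = e^{-λ t} u` in a chart, which is `≤ m` everywhere, cannot be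
`> m - η` at a point of the unit ball. -/
theorem maxP_chart {T M m η : ℝ} {P : Op E} {u ut : ℝ → E → ℝ}
    (hP : Bdd P M (Icc 0 T) (ball (0 : E) 3)) (hu : C21 (Icc 0 T) (ball (0 : E) 3) u ut)
    (hL : ∀ t ∈ Icc 0 T, ∀ z ∈ ball (0 : E) 3, Lop P u ut t z ≤ 0)
    (h0 : ∀ z ∈ ball (0 : E) 3, u 0 z ≤ 0) (hM : 0 ≤ M) (hη : 0 < η) (hmη : η * (4 + 15 * M) = m)
    (hm : ∀ t ∈ Icc 0 T, ∀ z ∈ ball (0 : E) 3, Real.exp (-(M + 1) * t) * u t z ≤ m)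
    {t₀ : ℝ} (ht₀ : t₀ ∈ Icc 0 T) {z₀ : E} (hz₀ : z₀ ∈ ball (0 : E) 1) :
    Real.exp (-(M + 1) * t₀) * u t₀ z₀ ≤ m - η := by
  by_contra hcon
  rw [not_le] at hcon
  have : ProperSpace E := FiniteDimensional.proper_real E
  obtain ⟨e, he⟩ : ∃ e : ℝ → ℝ, e = fun t => Real.exp (-(M + 1) * t) := ⟨_, rfl⟩
  obtain ⟨e', he'⟩ : ∃ e' : ℝ → ℝ, e' = fun t => -(M + 1) * e t := ⟨_, rfl⟩
  have hed : ∀ t, HasDerivAt e (e' t) t := by
    intro t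
    have h1 : HasDerivAt (fun s : ℝ => Real.exp (-(M + 1) * s))
        (Real.exp (-(M + 1) * t) * (-(M + 1) * 1)) t := ((hasDerivAt_id t).const_mul _).exp
    rw [he', he]
    refine h1.congr_deriv ?_
    ring
  have hepos : ∀ t, 0 < e t := fun t => by rw [he]; exact Real.exp_pos _
  have he'c : Continuous e' := by
    rw [he', he]
    fun_prop
  have hv : C21 (Icc 0 T) (ball (0 : E) 3) (fun t x => e t * u t x)
      (fun t x => e t * ut t x + e' t * u t x) :=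
    C21.time_mul (fun t _ => (hed t).hasDerivWithinAt) he'c.continuousOn isOpen_ball hu
  have hbar : C21 (Icc 0 T) (ball (0 : E) 3) (bar 0) (fun t x => 0 * bar 0 t x) :=
    (bar_C21 0 (Icc 0 T)).subset subset_rfl (subset_univ _)
  have hbare : ∀ t (x : E), bar 0 t x = 1 + ‖x‖ ^ 2 := fun t x => by simp [bar]
  obtain ⟨φ, hφdef⟩ : ∃ φ : ℝ → E → ℝ, φ = fun t x => 1 * (e t * u t x) + (-η) * bar 0 t x :=
    ⟨_, rfl⟩
  obtain ⟨φt, hφtdef⟩ : ∃ φt : ℝ → E → ℝ,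
    φt = fun t x => 1 * (e t * ut t x + e' t * u t x) + (-η) * (0 * bar 0 t x) := ⟨_, rfl⟩
  have hφ : C21 (Icc 0 T) (ball (0 : E) 3) φ φt := by
    rw [hφdef, hφtdef]
    exact C21.lin 1 (-η) isOpen_ball hv hbar
  have hφe : ∀ t x, φ t x = e t * u t x - η * (1 + ‖x‖ ^ 2) := fun t x => by
    rw [hφdef]
    simp only [hbare]
    ring
  have hsub : closedBall (0 : E) (5 / 2) ⊆ ball (0 : E) 3 := closedBall_subset_ball (by norm_num)
  have hQc : IsCompact (Icc (0 : ℝ) T ×ˢ closedBall (0 : E) (5 / 2)) :=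
    isCompact_Icc.prod (isCompact_closedBall _ _)
  have hz₀' : z₀ ∈ closedBall (0 : E) (5 / 2) :=
    ball_subset_closedBall (ball_subset_ball (by norm_num) hz₀)
  obtain ⟨q₁, hq₁, hmax⟩ := hQc.exists_isMaxOn ⟨(t₀, z₀), ht₀, hz₀'⟩
    (hφ.cont0.mono (prod_mono subset_rfl hsub))
  obtain ⟨t₁, z₁⟩ := q₁
  have ht₁ : t₁ ∈ Icc 0 T := hq₁.1
  have hz₁ : z₁ ∈ closedBall (0 : E) (5 / 2) := hq₁.2
  have hmax' : ∀ t ∈ Icc 0 T, ∀ z ∈ closedBall (0 : E) (5 / 2), φ t z ≤ φ t₁ z₁ :=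
    fun t ht z hz => hmax (a := (t, z)) ⟨ht, hz⟩
  have hz₀n : ‖z₀‖ < 1 := by simpa using hz₀
  have h00 : m - 3 * η < φ t₀ z₀ := by
    rw [hφe]
    have h1 : e t₀ * u t₀ z₀ > m - η := by rw [he]; exact hcon
    have h2 : ‖z₀‖ ^ 2 ≤ 1 := by nlinarith [norm_nonneg z₀]
    have h3 : η * (1 + ‖z₀‖ ^ 2) ≤ η * 2 := by gcongr; linarith
    linarith
  have h11 : m - 3 * η < φ t₁ z₁ := h00.trans_le (hmax' t₀ ht₀ z₀ hz₀')
  have hm3 : 0 < m - 3 * η := by nlinarith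
  have hv1 : e t₁ * u t₁ z₁ ≤ m := by
    have := hm t₁ ht₁ z₁ (hsub hz₁)
    rw [he]
    exact this
  have hz₁n : ‖z₁‖ < 5 / 2 := by
    by_contra hc
    rw [not_lt] at hc
    have h1 := hφe t₁ z₁
    have h2 : 25 / 4 ≤ ‖z₁‖ ^ 2 := by nlinarith
    have h3 : η * (29 / 4) ≤ η * (1 + ‖z₁‖ ^ 2) := by gcongr; linarith
    linarith
  have ht₁pos : 0 < t₁ := by
    rcases eq_or_lt_of_le ht₁.1 with h | h
    · exfalso
      have h1 := hφe t₁ z₁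
      rw [← h] at h1 h11
      have h2 := h0 z₁ (hsub hz₁)
      have h3 := hepos 0
      nlinarith [mul_nonneg h3.le (neg_nonneg.mpr h2), sq_nonneg ‖z₁‖]
    · exact h
  have hz₁S : z₁ ∈ ball (0 : E) (5 / 2) := by simpa using hz₁n
  have hS3 : ball (0 : E) (5 / 2) ⊆ ball (0 : E) 3 := ball_subset_ball (by norm_num)
  have hPS : Bdd P M (Icc 0 T) (ball (0 : E) (5 / 2)) :=
    ⟨fun t ht x hx => hP.nonneg t ht x (hS3 hx), fun t ht x hx => hP.le t ht x (hS3 hx)⟩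
  have h3 := touch_op isOpen_ball hPS (hφ.subset subset_rfl hS3) ⟨ht₁pos, ht₁.2⟩ hz₁S
    (fun x hx => hmax' t₁ ht₁ x (ball_subset_closedBall hx))
    (fun t ht => hmax' t ⟨ht.1, ht.2.trans ht₁.2⟩ z₁ hz₁)
  have hz₁3 := hsub hz₁
  have hLφ : Lop P φ φt t₁ z₁ = 1 * Lop P (fun t x => e t * u t x)
      (fun t x => e t * ut t x + e' t * u t x) t₁ z₁
      + (-η) * Lop P (bar 0) (fun t x => 0 * bar 0 t x) t₁ z₁ := by
    rw [hφdef, hφtdef]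
    exact Lop_lin P 1 (-η) isOpen_ball hz₁3 (hv.c2 t₁ ht₁) (hbar.c2 t₁ ht₁)
  have hLv : Lop P (fun t x => e t * u t x) (fun t x => e t * ut t x + e' t * u t x) t₁ z₁
      = e t₁ * Lop P u ut t₁ z₁ - (M + 1) * (e t₁ * u t₁ z₁) := by
    simp only [Lop]
    rw [jet_time_mul, map_smul, he']
    simp only [smul_eq_mul]
    ring
  have hPn := hP.le t₁ ht₁ z₁ hz₁3
  have hLb : -(M * (2 * (1 + ‖z₁‖ ^ 2))) ≤ Lop P (bar 0) (fun t x => 0 * bar 0 t x) t₁ z₁ := by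
    simp only [Lop]
    have h4 := (P t₁ z₁).le_opNorm (jet (bar 0) t₁ z₁)
    have h5 := norm_jet_bar_le 0 t₁ z₁
    rw [hbare] at h5
    have h6 : P t₁ z₁ (jet (bar 0) t₁ z₁) ≤ M * (2 * (1 + ‖z₁‖ ^ 2)) :=
      (le_abs_self _).trans (h4.trans (mul_le_mul hPn h5 (norm_nonneg _) hM))
    linarith
  have hφ1pos : 0 < φ t₁ z₁ := hm3.trans h11
  have hP0 : P t₁ z₁ (φ t₁ z₁, 0, 0) ≤ M * φ t₁ z₁ := by
    have h4 := (P t₁ z₁).le_opNorm ((φ t₁ z₁, 0, 0) : Jet E)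
    have h5 : ‖((φ t₁ z₁, 0, 0) : Jet E)‖ = φ t₁ z₁ := by
      simp [Prod.norm_def, abs_of_pos hφ1pos, hφ1pos.le]
    rw [h5] at h4
    exact (le_abs_self _).trans (h4.trans (mul_le_mul_of_nonneg_right hPn hφ1pos.le))
  have hLu := hL t₁ ht₁ z₁ hz₁3
  have hφ1 := hφe t₁ z₁
  rw [hLφ, hLv] at h3
  have hsq : ‖z₁‖ ^ 2 ≤ 25 / 4 := by nlinarith [norm_nonneg z₁]
  have h7 : e t₁ * Lop P u ut t₁ z₁ ≤ 0 := mul_nonpos_of_nonneg_of_nonpos (hepos t₁).le hLu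
  -- abbreviations
  obtain ⟨v₁, hv₁⟩ : ∃ v₁, v₁ = e t₁ * u t₁ z₁ := ⟨_, rfl⟩
  rw [← hv₁] at h3 hφ1
  have h8 : φ t₁ z₁ ≤ v₁ := by nlinarith [sq_nonneg ‖z₁‖]
  have h9 : (-η) * Lop P (bar 0) (fun t x => 0 * bar 0 t x) t₁ z₁ ≤ η * (M * (29 / 2)) := by
    have : M * (2 * (1 + ‖z₁‖ ^ 2)) ≤ M * (29 / 2) := by gcongr; linarith
    nlinarith
  have h10 : M * φ t₁ z₁ ≤ M * v₁ := by gcongr
  nlinarith


namespace UAtlas

variable (A : UAtlas V E)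

/-- **M3, maximum principle** for bounded-above subsolutions. -/
theorem maxP {T M : ℝ} {P : A.ι → Op E} {u ut : ℝ → V → ℝ} (hP : A.BddM (Icc 0 T) M P)
    (hu : A.C21M (Icc 0 T) u ut) (hb : ∃ K, ∀ t ∈ Icc 0 T, ∀ x ∈ A.X, u t x ≤ K)
    (hL : ∀ i, ∀ t ∈ Icc 0 T, ∀ z ∈ ball (0 : E) 3, Lop (P i) (A.rep i u) (A.rep i ut) t z ≤ 0)
    (h0 : ∀ x ∈ A.X, u 0 x ≤ 0) : ∀ t ∈ Icc 0 T, ∀ x ∈ A.X, u t x ≤ 0 := by
  intro ts hts xs hxs
  by_contra hcon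
  rw [not_le] at hcon
  obtain ⟨K, hK⟩ := hb
  obtain ⟨is, zs, hzs, hzx⟩ := A.cover xs hxs
  have hM : 0 ≤ M := (norm_nonneg _).trans
    ((hP is).le ts hts zs (ball_subset_ball (by norm_num) hzs))
  obtain ⟨W, hW⟩ : ∃ W : Set ℝ, W = {r | ∃ t ∈ Icc 0 T, ∃ x ∈ A.X,
    r = Real.exp (-(M + 1) * t) * u t x} := ⟨_, rfl⟩
  have hbdd : BddAbove W := by
    refine ⟨max K 0, ?_⟩
    rw [hW]
    rintro r ⟨t, ht, x, hx, rfl⟩
    have h1 : Real.exp (-(M + 1) * t) ≤ 1 := by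
      rw [Real.exp_le_one_iff]
      nlinarith [ht.1]
    have h2 := Real.exp_pos (-(M + 1) * t)
    have h3 := hK t ht x hx
    calc Real.exp (-(M + 1) * t) * u t x ≤ Real.exp (-(M + 1) * t) * max K 0 := by
          gcongr
          exact h3.trans (le_max_left _ _)
      _ ≤ 1 * max K 0 := by
          gcongr
      _ = max K 0 := one_mul _
  have hmem : ∀ t ∈ Icc 0 T, ∀ x ∈ A.X, Real.exp (-(M + 1) * t) * u t x ∈ W := by
    intro t ht x hx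
    rw [hW]
    exact ⟨t, ht, x, hx, rfl⟩
  obtain ⟨m, hmdef⟩ : ∃ m, m = sSup W := ⟨_, rfl⟩
  have hle : ∀ t ∈ Icc 0 T, ∀ x ∈ A.X, Real.exp (-(M + 1) * t) * u t x ≤ m := fun t ht x hx => by
    rw [hmdef]
    exact le_csSup hbdd (hmem t ht x hx)
  have hmpos : 0 < m := lt_of_lt_of_le (mul_pos (Real.exp_pos _) hcon) (hle ts hts xs hxs)
  obtain ⟨η, hη⟩ : ∃ η, η = m / (4 + 15 * M) := ⟨_, rfl⟩
  have hηpos : 0 < η := by rw [hη]; positivity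
  have hmη : η * (4 + 15 * M) = m := by
    rw [hη]
    field_simp
  obtain ⟨r, hrW, hr⟩ := exists_lt_of_lt_csSup ⟨_, hmem ts hts xs hxs⟩
    (show m - η < sSup W by rw [← hmdef]; linarith)
  rw [hW] at hrW
  obtain ⟨t₀, ht₀, x₀, hx₀, rfl⟩ := hrW
  obtain ⟨i, z₀, hz₀, rfl⟩ := A.cover x₀ hx₀
  have := maxP_chart (hP i) (hu i) (hL i) (fun z hz => h0 _ (A.maps i hz)) hM hηpos hmη
    (fun t ht z hz => hle t ht _ (A.maps i hz)) ht₀ hz₀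
  exact absurd hr (not_lt.mpr this)

/-- **M3, comparison** (linear). -/
theorem compare {T M : ℝ} {P : A.ι → Op E} {u ut v vt : ℝ → V → ℝ} (hP : A.BddM (Icc 0 T) M P)
    (hu : A.C21M (Icc 0 T) u ut) (hv : A.C21M (Icc 0 T) v vt)
    (hb : ∃ K, ∀ t ∈ Icc 0 T, ∀ x ∈ A.X, u t x - v t x ≤ K)
    (hL : ∀ i, ∀ t ∈ Icc 0 T, ∀ z ∈ ball (0 : E) 3,
      Lop (P i) (A.rep i u) (A.rep i ut) t z ≤ Lop (P i) (A.rep i v) (A.rep i vt) t z)
    (h0 : ∀ x ∈ A.X, u 0 x ≤ v 0 x) : ∀ t ∈ Icc 0 T, ∀ x ∈ A.X, u t x ≤ v t x := by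
  have h := A.maxP (u := fun t x => u t x - v t x) (ut := fun t x => ut t x - vt t x) hP
    (fun i => (hu i).sub isOpen_ball (hv i)) hb (fun i t ht z hz => by
      have := Lop_sub (P i) (ut := A.rep i ut) (vt := A.rep i vt) isOpen_ball hz
        ((hu i).c2 t ht) ((hv i).c2 t ht)
      have h2 : Lop (P i) (A.rep i fun t x => u t x - v t x) (A.rep i fun t x => ut t x - vt t x) t z
          = Lop (P i) (A.rep i u) (A.rep i ut) t z - Lop (P i) (A.rep i v) (A.rep i vt) t z := this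
      rw [h2]
      linarith [hL i t ht z hz]) (fun x hx => by linarith [h0 x hx])
  intro t ht x hx
  linarith [h t ht x hx]

/-- **M3, sup bound**. -/
theorem sup_bound {T M K0 F0 : ℝ} {P : A.ι → Op E} {u ut : ℝ → V → ℝ}
    (hP : A.BddM (Icc 0 T) M P) (hu : A.C21M (Icc 0 T) u ut)
    (hb : ∃ K, ∀ t ∈ Icc 0 T, ∀ x ∈ A.X, |u t x| ≤ K)
    (hL : ∀ i, ∀ t ∈ Icc 0 T, ∀ z ∈ ball (0 : E) 3, |Lop (P i) (A.rep i u) (A.rep i ut) t z| ≤ F0)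
    (h0 : ∀ x ∈ A.X, |u 0 x| ≤ K0) :
    ∀ t ∈ Icc 0 T, ∀ x ∈ A.X, |u t x| ≤ Real.exp (M * t) * (K0 + t * F0) := by
  intro t₁ ht₁ x₁ hx₁
  obtain ⟨K, hK⟩ := hb
  obtain ⟨i₁, z₁, hz₁', hzx⟩ := A.cover x₁ hx₁
  have hz₁ : z₁ ∈ ball (0 : E) 3 := ball_subset_ball (by norm_num) hz₁'
  have hM0 : 0 ≤ M := (norm_nonneg _).trans ((hP i₁).le t₁ ht₁ z₁ hz₁)
  have hF0 : 0 ≤ F0 := (abs_nonneg _).trans (hL i₁ t₁ ht₁ z₁ hz₁)
  have hK0 : 0 ≤ K0 := (abs_nonneg _).trans (h0 x₁ hx₁)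
  set ψ : ℝ → ℝ := fun t => Real.exp (M * t) * (K0 + t * F0) with hψ
  set ψ' : ℝ → ℝ := fun t => M * ψ t + Real.exp (M * t) * F0 with hψ'
  have hψd : ∀ t, HasDerivAt ψ (ψ' t) t := by
    intro t
    have h1 : HasDerivAt (fun s : ℝ => Real.exp (M * s)) (Real.exp (M * t) * (M * 1)) t :=
      ((hasDerivAt_id t).const_mul M).exp
    have h2 : HasDerivAt (fun s : ℝ => K0 + s * F0) (1 * F0) t :=
      ((hasDerivAt_id t).mul_const F0).const_add K0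
    refine (h1.mul h2).congr_deriv ?_
    simp only [hψ', hψ]; ring
  have hψ'c : Continuous ψ' := by
    simp only [hψ', hψ]; fun_prop
  have hΨ : C21 (Icc 0 T) (ball (0 : E) 3) (fun t _ => ψ t) (fun t _ => ψ' t) :=
    C21.of_time (fun t _ => (hψd t).hasDerivWithinAt) hψ'c.continuousOn
  have hψ0 : ∀ t ∈ Icc 0 T, 0 ≤ ψ t := fun t ht => by
    simp only [hψ]
    have := ht.1
    positivity
  have hLψ : ∀ i, ∀ t ∈ Icc 0 T, ∀ x ∈ ball (0 : E) 3,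
      F0 ≤ Lop (P i) (fun t _ => ψ t) (fun t _ => ψ' t) t x := by
    intro i t ht x hx
    rw [Lop, jet_of_time]
    have h3 := (P i t x).le_opNorm ((ψ t, 0, 0) : Jet E)
    have h4 := (hP i).le t ht x hx
    have h5 : ‖((ψ t, 0, 0) : Jet E)‖ = ψ t := by
      simp [Prod.norm_def, abs_of_nonneg (hψ0 t ht), hψ0 t ht]
    rw [h5] at h3
    have h6 : P i t x ((ψ t, 0, 0) : Jet E) ≤ M * ψ t :=
      (le_abs_self _).trans (h3.trans (mul_le_mul_of_nonneg_right h4 (hψ0 t ht)))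
    have h7 : 1 ≤ Real.exp (M * t) := Real.one_le_exp (mul_nonneg hM0 ht.1)
    simp only [hψ']
    nlinarith
  have hψ00 : ψ 0 = K0 := by simp [hψ]
  have hup : ∀ a : ℝ, |a| = 1 → ∀ t ∈ Icc 0 T, ∀ x ∈ A.X, a * u t x + (-1) * ψ t ≤ 0 := by
    intro a ha
    refine A.maxP (u := fun t x => a * u t x + (-1) * ψ t)
      (ut := fun t x => a * ut t x + (-1) * ψ' t) hP
      (fun i => C21.lin a (-1) isOpen_ball (hu i) hΨ) ⟨K, fun t ht x hx => ?_⟩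
      (fun i t ht x hx => ?_) (fun x hx => ?_)
    · have h1 : a * u t x ≤ |a * u t x| := le_abs_self _
      rw [abs_mul, ha, one_mul] at h1
      linarith [hK t ht x hx, hψ0 t ht]
    · have h2 : Lop (P i) (A.rep i fun t x => a * u t x + (-1) * ψ t)
          (A.rep i fun t x => a * ut t x + (-1) * ψ' t) t x
          = a * Lop (P i) (A.rep i u) (A.rep i ut) t x
            + (-1) * Lop (P i) (fun t _ => ψ t) (fun t _ => ψ' t) t x :=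
        Lop_lin (P i) a (-1) isOpen_ball hx ((hu i).c2 t ht) (hΨ.c2 t ht)
      rw [h2]
      have h1 : a * Lop (P i) (A.rep i u) (A.rep i ut) t x
          ≤ |a * Lop (P i) (A.rep i u) (A.rep i ut) t x| := le_abs_self _
      rw [abs_mul, ha, one_mul] at h1
      linarith [hL i t ht x hx, hLψ i t ht x hx]
    · have h1 : a * u 0 x ≤ |a * u 0 x| := le_abs_self _
      rw [abs_mul, ha, one_mul] at h1
      rw [hψ00]
      linarith [h0 x hx]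
  have h1 := hup 1 (by simp) t₁ ht₁ x₁ hx₁
  have h2 := hup (-1) (by simp) t₁ ht₁ x₁ hx₁
  rw [abs_le]
  constructor <;> linarith

/-- **M3, uniqueness** of bounded solutions of the linear Cauchy problem. -/
theorem unique {T M : ℝ} {P : A.ι → Op E} {u ut v vt : ℝ → V → ℝ} (hP : A.BddM (Icc 0 T) M P)
    (hu : A.C21M (Icc 0 T) u ut) (hv : A.C21M (Icc 0 T) v vt)
    (hbu : ∃ K, ∀ t ∈ Icc 0 T, ∀ x ∈ A.X, |u t x| ≤ K)
    (hbv : ∃ K, ∀ t ∈ Icc 0 T, ∀ x ∈ A.X, |v t x| ≤ K)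
    (hL : ∀ i, ∀ t ∈ Icc 0 T, ∀ z ∈ ball (0 : E) 3,
      Lop (P i) (A.rep i u) (A.rep i ut) t z = Lop (P i) (A.rep i v) (A.rep i vt) t z)
    (h0 : ∀ x ∈ A.X, u 0 x = v 0 x) : ∀ t ∈ Icc 0 T, ∀ x ∈ A.X, u t x = v t x := by
  obtain ⟨K₁, hK₁⟩ := hbu
  obtain ⟨K₂, hK₂⟩ := hbv
  have h1 := A.compare hP hu hv ⟨K₁ + K₂, fun t ht x hx => by
    have a := abs_le.mp (hK₁ t ht x hx)
    have b := abs_le.mp (hK₂ t ht x hx)
    linarith [a.2, b.1]⟩ (fun i t ht x hx => (hL i t ht x hx).le) (fun x hx => (h0 x hx).le)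
  have h2 := A.compare hP hv hu ⟨K₁ + K₂, fun t ht x hx => by
    have a := abs_le.mp (hK₁ t ht x hx)
    have b := abs_le.mp (hK₂ t ht x hx)
    linarith [a.1, b.2]⟩ (fun i t ht x hx => (hL i t ht x hx).ge) (fun x hx => (h0 x hx).ge)
  exact fun t ht x hx => le_antisymm (h1 t ht x hx) (h2 t ht x hx)

/-- **M3, nonlinear comparison**: sub- and supersolutions whose jets stay in a convex set `𝒦 i t z` on which
`F i t z` is differentiable, with bounded and degenerate elliptic derivative. -/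
theorem compareN {T M : ℝ} {F : A.ι → ℝ → E → Jet E → ℝ} {𝒦 : A.ι → ℝ → E → Set (Jet E)}
    {u ut v vt : ℝ → V → ℝ}
    (hconv : ∀ i t z, Convex ℝ (𝒦 i t z))
    (hd : ∀ i, ∀ t ∈ Icc 0 T, ∀ z ∈ ball (0 : E) 3, ∀ J ∈ 𝒦 i t z, DifferentiableAt ℝ (F i t z) J)
    (hM : ∀ i, ∀ t ∈ Icc 0 T, ∀ z ∈ ball (0 : E) 3, ∀ J ∈ 𝒦 i t z, ‖fderiv ℝ (F i t z) J‖ ≤ M)
    (hell : ∀ i, ∀ t ∈ Icc 0 T, ∀ z ∈ ball (0 : E) 3, ∀ J ∈ 𝒦 i t z, ∀ ξ : E →L[ℝ] ℝ,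
      0 ≤ fderiv ℝ (F i t z) J (topJ (sqB ξ)))
    (hu : A.C21M (Icc 0 T) u ut) (hv : A.C21M (Icc 0 T) v vt)
    (hju : ∀ i, ∀ t ∈ Icc 0 T, ∀ z ∈ ball (0 : E) 3, jet (A.rep i u) t z ∈ 𝒦 i t z)
    (hjv : ∀ i, ∀ t ∈ Icc 0 T, ∀ z ∈ ball (0 : E) 3, jet (A.rep i v) t z ∈ 𝒦 i t z)
    (hb : ∃ K, ∀ t ∈ Icc 0 T, ∀ x ∈ A.X, u t x - v t x ≤ K)
    (hsub : ∀ i, ∀ t ∈ Icc 0 T, ∀ z ∈ ball (0 : E) 3,
      A.rep i ut t z ≤ F i t z (jet (A.rep i u) t z))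
    (hsup : ∀ i, ∀ t ∈ Icc 0 T, ∀ z ∈ ball (0 : E) 3,
      F i t z (jet (A.rep i v) t z) ≤ A.rep i vt t z)
    (h0 : ∀ x ∈ A.X, u 0 x ≤ v 0 x) : ∀ t ∈ Icc 0 T, ∀ x ∈ A.X, u t x ≤ v t x := by
  classical
  have hmvt : ∀ i t z, ∃ L : Jet E →L[ℝ] ℝ, t ∈ Icc 0 T → z ∈ ball (0 : E) 3 →
      (‖L‖ ≤ M ∧ (∀ ξ : E →L[ℝ] ℝ, 0 ≤ L (topJ (sqB ξ))) ∧
        F i t z (jet (A.rep i u) t z) - F i t z (jet (A.rep i v) t z)
          = L (jet (A.rep i u) t z - jet (A.rep i v) t z)) := by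
    intro i t z
    by_cases h : t ∈ Icc 0 T ∧ z ∈ ball (0 : E) 3
    · obtain ⟨ht, hz⟩ := h
      obtain ⟨J, hJ, hJe⟩ := domain_mvt (f := F i t z) (f' := fderiv ℝ (F i t z))
        (fun J hJ => (hd i t ht z hz J hJ).hasFDerivAt.hasFDerivWithinAt) (hconv i t z)
        (hjv i t ht z hz) (hju i t ht z hz)
      have hJK : J ∈ 𝒦 i t z := (hconv i t z).segment_subset (hjv i t ht z hz) (hju i t ht z hz) hJ
      exact ⟨fderiv ℝ (F i t z) J, fun _ _ => ⟨hM i t ht z hz J hJK, hell i t ht z hz J hJK, hJe⟩⟩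
    · exact ⟨0, fun h1 h2 => absurd ⟨h1, h2⟩ h⟩
  choose P hP using hmvt
  refine A.compare (P := P) (M := M) (fun i => ⟨fun t ht z hz => (hP i t z ht hz).2.1,
    fun t ht z hz => (hP i t z ht hz).1⟩) hu hv hb (fun i t ht z hz => ?_) h0
  simp only [Lop]
  have h1 := (hP i t z ht hz).2.2
  rw [map_sub] at h1
  linarith [hsub i t ht z hz, hsup i t ht z hz]

end UAtlas

end Claimed.Agent.R316.B8M
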