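import Claimed.Agent.R316.B8M.Push
import Claimed.Agent.R316.B8.Interp
import Claimed.Agent.R316.B8.Complete

/-!
# B8M-TIME: gluing in time, completeness on open sets (explicit `tsum`), time continuity of jets on the manifold

PROVED (helper111): B8M-GLUET (section `Glue`), B8M-COMPLETE (section `Complete`), B8M-JETTIME (section `JetTime`).

Recipes.
* `C21.glueT`.  `w t = if t ≤ b then u t else v t`.  For `t < b` (resp. `t > b`) `w = u` (resp. `v`) on a neighbourhood of `t` in `Icc a c`: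
  `HasDerivWithinAt.congr_of_eventuallyEq`, `hasDerivWithinAt_inter`-type arguments (`Icc a c ∩ Iio b`).  At `t = b`:
  `Icc a c = Icc a b ∪ Icc b c` and `HasDerivWithinAt.union`; on `Icc b c` the function `s ↦ w s x` equals `s ↦ v s x` (at `s = b` by `h0`).
  Continuity on `Icc a c ×ˢ S = (Icc a b ×ˢ S) ∪ (Icc b c ×ˢ S)`: both pieces are relatively closed, `ContinuousOn.union_of_isClosed`-type lemma, or
  `ContinuousOn.if`/`continuousOn_if` with the frontier `{t = b}`; note `D1 w t = D1 u t` for `t ≤ b` definitionally after `simp [D1, if_pos]`, and on `t = b`,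
  `D1 u b x = D1 v b x`, `D2 u b x = D2 v b x` for `x ∈ S` because `u b = v b` on the open set `S` (`B8.jet_congr`).
* `X_complete_on`: as `B8/Complete.lean` but on an open set: work on a small ball around the point (`hasFDerivAt_tsum_of_isPreconnected`, convex ⇒ preconnected), bounds
  `A (1/2)^k` summable.  Time derivative: FTC + `hasSum_integral_of_summable_norm`, see the recipe in `B8/Complete.lean`.
* `jet_time`: in each chart on `ball 0 1 ⊆ ball 0 (1 + 2)`: `B8.XB.u_time`, `interp1`/`interp2` as in `B8.XB.D2_time_ball` (`r = 1`, `δ = 2`) and the analogous bound for `D1`;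
  then `A.jet_rep` + `A.norm_pull_le` + `A.pull_sub` carry the bound from unit balls to all of `ball 0 3` (`A.exists_chart`).
-/

set_option autoImplicit false
set_option maxSynthPendingDepth 3
set_option linter.unusedSectionVars false
set_option linter.unusedVariables false

open scoped Topology ContDiff
open Set Filter Metric

namespace Claimed.Agent.R316.B8M

open Claimed.Agent.R316.B8

section Glue

variable {E : Type*} [NormedAddCommGroup E] [NormedSpace ℝ E]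

open Classical in
/-- concatenation in time at `t = b`. -/
noncomputable def catT {G : Type*} (b : ℝ) (u v : ℝ → G) : ℝ → G := fun t => if t ≤ b then u t else v t

theorem catT_of_le {G : Type*} {b t : ℝ} (u v : ℝ → G) (h : t ≤ b) : catT b u v t = u t := by
  simp [catT, h]

theorem catT_of_lt {G : Type*} {b t : ℝ} (u v : ℝ → G) (h : b < t) : catT b u v t = v t := by
  simp [catT, not_le.mpr h]

theorem jet_catT_of_le {b t : ℝ} (u v : ℝ → E → ℝ) (h : t ≤ b) (x : E) :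
    jet (catT b u v) t x = jet u t x := by
  simp [jet, D1, D2, catT_of_le u v h]

theorem jet_catT_of_lt {b t : ℝ} (u v : ℝ → E → ℝ) (h : b < t) (x : E) :
    jet (catT b u v) t x = jet v t x := by
  simp [jet, D1, D2, catT_of_lt u v h]

theorem hasDerivWithinAt_Icc_glue {f : ℝ → ℝ} {f' a b c t : ℝ}
    (ht : t ∈ Icc a c) (h : t ∈ Icc a b → HasDerivWithinAt f f' (Icc a b) t)
    (h' : t ∈ Icc b c → HasDerivWithinAt f f' (Icc b c) t) :
    HasDerivWithinAt f f' (Icc a c) t := by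
  rcases lt_trichotomy t b with hlt | heq | hgt
  · refine (h ⟨ht.1, hlt.le⟩).mono_of_mem_nhdsWithin ?_
    have hs : Icc a c ∩ Iio b ⊆ Icc a b := fun s hs => ⟨hs.1.1, le_of_lt hs.2⟩
    exact Filter.mem_of_superset (inter_mem_nhdsWithin _ (Iio_mem_nhds hlt)) hs
  · have h1 := (h ⟨ht.1, heq.le⟩).union (h' ⟨heq.ge, ht.2⟩)
    rwa [Icc_union_Icc_eq_Icc (heq ▸ ht.1) (heq ▸ ht.2)] at h1
  · refine (h' ⟨hgt.le, ht.2⟩).mono_of_mem_nhdsWithin ?_
    have hs : Icc a c ∩ Ioi b ⊆ Icc b c := fun s hs => ⟨le_of_lt hs.2, hs.1.2⟩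
    exact Filter.mem_of_superset (inter_mem_nhdsWithin _ (Ioi_mem_nhds hgt)) hs

theorem continuousOn_time_glue {Z : Type*} [TopologicalSpace Z] {a b c : ℝ} (hab : a ≤ b)
    (hbc : b ≤ c) {S : Set E} {g : ℝ × E → Z} (h1 : ContinuousOn g (Icc a b ×ˢ S))
    (h2 : ContinuousOn g (Icc b c ×ˢ S)) : ContinuousOn g (Icc a c ×ˢ S) := by
  intro q hq
  have e : Icc a c ×ˢ S = Icc a b ×ˢ S ∪ Icc b c ×ˢ S := by
    rw [← union_prod, Icc_union_Icc_eq_Icc hab hbc]
  rw [e, continuousWithinAt_union]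
  constructor
  · by_cases h : q.1 ≤ b
    · exact h1 q ⟨⟨hq.1.1, h⟩, hq.2⟩
    · refine continuousWithinAt_of_notMem_closure fun hc => h ?_
      rw [closure_prod_eq, closure_Icc] at hc
      exact hc.1.2
  · by_cases h : b ≤ q.1
    · exact h2 q ⟨⟨h, hq.1.2⟩, hq.2⟩
    · refine continuousWithinAt_of_notMem_closure fun hc => h ?_
      rw [closure_prod_eq, closure_Icc] at hc
      exact hc.1.1

theorem C21.glueT {a b c : ℝ} (hab : a ≤ b) (hbc : b ≤ c) {S : Set E} (hS : IsOpen S)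
    {u ut v vt : ℝ → E → ℝ} (hu : C21 (Icc a b) S u ut) (hv : C21 (Icc b c) S v vt)
    (h0 : ∀ x ∈ S, u b x = v b x) (h1 : ∀ x ∈ S, ut b x = vt b x) :
    C21 (Icc a c) S (catT b u v) (catT b ut vt) := by
  -- values on the two pieces
  have eu : ∀ t ∈ Icc a b, catT b u v t = u t := fun t ht => catT_of_le u v ht.2
  have eut : ∀ t ∈ Icc a b, catT b ut vt t = ut t := fun t ht => catT_of_le ut vt ht.2
  have ev : ∀ t ∈ Icc b c, ∀ x ∈ S, catT b u v t x = v t x := by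
    intro t ht x hx
    rcases eq_or_lt_of_le ht.1 with h | h
    · rw [← h, catT_of_le u v le_rfl, h0 x hx]
    · rw [catT_of_lt u v h]
  have evt : ∀ t ∈ Icc b c, ∀ x ∈ S, catT b ut vt t x = vt t x := by
    intro t ht x hx
    rcases eq_or_lt_of_le ht.1 with h | h
    · rw [← h, catT_of_le ut vt le_rfl, h1 x hx]
    · rw [catT_of_lt ut vt h]
  have ju : ∀ t ∈ Icc a b, ∀ x, jet (catT b u v) t x = jet u t x :=
    fun t ht x => jet_catT_of_le u v ht.2 x
  have jv : ∀ t ∈ Icc b c, ∀ x ∈ S, jet (catT b u v) t x = jet v t x :=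
    fun t ht x hx => jet_congr hS hx (ev t ht)
  refine ⟨fun t ht => ?_, fun t ht x hx => ?_, ?_, ?_, ?_, ?_⟩
  · rcases le_or_gt t b with h | h
    · rw [catT_of_le u v h]
      exact hu.c2 t ⟨ht.1, h⟩
    · rw [catT_of_lt u v h]
      exact hv.c2 t ⟨h.le, ht.2⟩
  · refine hasDerivWithinAt_Icc_glue (b := b) ht (fun h => ?_) (fun h => ?_)
    · rw [eut t h]
      exact (hu.dt t h x hx).congr (fun s hs => by rw [eu s hs]) (by rw [eu t h])
    · rw [evt t h x hx]
      exact (hv.dt t h x hx).congr (fun s hs => ev s hs x hx) (ev t h x hx)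
  · exact continuousOn_time_glue hab hbc (hu.cont0.congr fun q hq => by rw [eu q.1 hq.1])
      (hv.cont0.congr fun q hq => ev q.1 hq.1 q.2 hq.2)
  · exact continuousOn_time_glue hab hbc
      (hu.cont1.congr fun q hq => congrArg (fun J : Jet E => J.2.1) (ju q.1 hq.1 q.2))
      (hv.cont1.congr fun q hq => congrArg (fun J : Jet E => J.2.1) (jv q.1 hq.1 q.2 hq.2))
  · exact continuousOn_time_glue hab hbc
      (hu.cont2.congr fun q hq => congrArg (fun J : Jet E => J.2.2) (ju q.1 hq.1 q.2))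
      (hv.cont2.congr fun q hq => congrArg (fun J : Jet E => J.2.2) (jv q.1 hq.1 q.2 hq.2))
  · exact continuousOn_time_glue hab hbc (hu.contt.congr fun q hq => by rw [eut q.1 hq.1])
      (hv.contt.congr fun q hq => evt q.1 hq.1 q.2 hq.2)

theorem XB.glueT {a b c α K : ℝ} {S : Set E} {u ut v vt : ℝ → E → ℝ}
    (hu : XB α (Icc a b) S u ut K) (hv : XB α (Icc b c) S v vt K) :
    XB α (Icc a c) S (catT b u v) (catT b ut vt) K := by
  have key : ∀ t ∈ Icc a c, (t ∈ Icc a b ∧ catT b u v t = u t ∧ catT b ut vt t = ut t ∧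
      D1 (catT b u v) t = D1 u t ∧ D2 (catT b u v) t = D2 u t) ∨
      (t ∈ Icc b c ∧ catT b u v t = v t ∧ catT b ut vt t = vt t ∧
      D1 (catT b u v) t = D1 v t ∧ D2 (catT b u v) t = D2 v t) := by
    intro t ht
    rcases le_or_gt t b with h | h
    · exact Or.inl ⟨⟨ht.1, h⟩, catT_of_le u v h, catT_of_le ut vt h,
        funext fun x => congrArg (fun J : Jet E => J.2.1) (jet_catT_of_le u v h x),
        funext fun x => congrArg (fun J : Jet E => J.2.2) (jet_catT_of_le u v h x)⟩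
    · exact Or.inr ⟨⟨h.le, ht.2⟩, catT_of_lt u v h, catT_of_lt ut vt h,
        funext fun x => congrArg (fun J : Jet E => J.2.1) (jet_catT_of_lt u v h x),
        funext fun x => congrArg (fun J : Jet E => J.2.2) (jet_catT_of_lt u v h x)⟩
  refine ⟨fun t ht => ?_, fun t ht => ?_, fun t ht => ?_, fun t ht => ?_, fun t ht => ?_,
    fun t ht => ?_⟩ <;>
  rcases key t ht with ⟨h, e0, et, e1, e2⟩ | ⟨h, e0, et, e1, e2⟩
  · rw [e0]; exact hu.b0 t h
  · rw [e0]; exact hv.b0 t h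
  · rw [e1]; exact hu.b1 t h
  · rw [e1]; exact hv.b1 t h
  · rw [e2]; exact hu.b2 t h
  · rw [e2]; exact hv.b2 t h
  · rw [et]; exact hu.bt t h
  · rw [et]; exact hv.bt t h
  · rw [e2]; exact hu.h2 t h
  · rw [e2]; exact hv.h2 t h
  · rw [et]; exact hu.ht t h
  · rw [et]; exact hv.ht t h

/-- joint smoothness is local in time: two relatively open pieces. -/
theorem contDiffOn_time_union {G : Type*} [NormedAddCommGroup G] [NormedSpace ℝ G] {a b b' c : ℝ}
    (h1 : a ≤ b') (h2 : b' < b) (h3 : b ≤ c) {S : Set E} {f : ℝ × E → G}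
    (hf : ContDiffOn ℝ ∞ f (Icc a b ×ˢ S)) (hf' : ContDiffOn ℝ ∞ f (Icc b' c ×ˢ S)) :
    ContDiffOn ℝ ∞ f (Icc a c ×ˢ S) := by
  intro q hq
  rcases lt_or_ge q.1 b with hlt | hge
  · refine (hf q ⟨⟨hq.1.1, hlt.le⟩, hq.2⟩).mono_of_mem_nhdsWithin ?_
    have hn : Iio b ×ˢ (univ : Set E) ∈ 𝓝 q :=
      (isOpen_Iio.prod isOpen_univ).mem_nhds ⟨hlt, mem_univ _⟩
    refine Filter.mem_of_superset (inter_mem_nhdsWithin _ hn) ?_
    rintro p ⟨hp1, hp2⟩
    exact ⟨⟨hp1.1.1, le_of_lt hp2.1⟩, hp1.2⟩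
  · refine (hf' q ⟨⟨(h2.trans_le hge).le, hq.1.2⟩, hq.2⟩).mono_of_mem_nhdsWithin ?_
    have hn : Ioi b' ×ˢ (univ : Set E) ∈ 𝓝 q :=
      (isOpen_Ioi.prod isOpen_univ).mem_nhds ⟨h2.trans_le hge, mem_univ _⟩
    refine Filter.mem_of_superset (inter_mem_nhdsWithin _ hn) ?_
    rintro p ⟨hp1, hp2⟩
    exact ⟨⟨le_of_lt hp2.1, hp1.1.2⟩, hp1.2⟩

end Glue

section Complete

variable {E : Type*} [NormedAddCommGroup E] [NormedSpace ℝ E] [FiniteDimensional ℝ E]

/-- a series in `X(I × S)`, `S` open, with geometrically decaying norms converges in `X`; the limit is the pointwise sum. -/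
theorem X_complete_on {α T A : ℝ} (hT : 0 < T) {S : Set E} (hS : IsOpen S) {w wt : ℕ → ℝ → E → ℝ}
    (hw : ∀ k, C21 (Icc 0 T) S (w k) (wt k))
    (hX : ∀ k, XB α (Icc 0 T) S (w k) (wt k) (A * (1 / 2) ^ k)) :
    C21 (Icc 0 T) S (fun t x => ∑' k, w k t x) (fun t x => ∑' k, wt k t x) ∧
    XB α (Icc 0 T) S (fun t x => ∑' k, w k t x) (fun t x => ∑' k, wt k t x) (2 * A) ∧
    (∀ t ∈ Icc 0 T, ∀ x ∈ S,
      HasSum (fun k => jet (w k) t x) (jet (fun t x => ∑' k, w k t x) t x)) ∧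
    (∀ t ∈ Icc 0 T, ∀ x ∈ S, HasSum (fun k => wt k t x) (∑' k, wt k t x)) := by
  have hg : HasSum (fun k : ℕ => A * (1 / 2 : ℝ) ^ k) (2 * A) := by
    have := hasSum_geometric_two.mul_left A
    rwa [mul_comm A 2] at this
  have hloc : ∀ x ∈ S, ∃ r > 0, ball x r ⊆ S ∧
      C21 (Icc 0 T) (ball x r) (fun t x => ∑' k, w k t x) (fun t x => ∑' k, wt k t x) ∧
      (∀ t ∈ Icc 0 T, ∀ y ∈ ball x r,
        HasSum (fun k => jet (w k) t y) (jet (fun t x => ∑' k, w k t x) t y)) ∧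
      (∀ t ∈ Icc 0 T, ∀ y ∈ ball x r, HasSum (fun k => wt k t y) (∑' k, wt k t y)) := by
    intro x hx
    obtain ⟨r, hr, hsub⟩ := Metric.isOpen_iff.mp hS x hx
    exact ⟨r, hr, hsub, C21_tsum hT isOpen_ball (convex_ball x r) hg.summable
      (fun k => (hw k).subset subset_rfl hsub)
      (fun k t ht y hy => (hX k).jet_sup t ht y (hsub hy))
      (fun k t ht y hy => (hX k).bt t ht y (hsub hy))⟩
  have h1 : C21 (Icc 0 T) S (fun t x => ∑' k, w k t x) (fun t x => ∑' k, wt k t x) :=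
    C21.of_local fun x hx => by
      obtain ⟨r, hr, _, hc, _⟩ := hloc x hx
      exact ⟨ball x r, isOpen_ball, mem_ball_self hr, hc⟩
  have h2 : ∀ t ∈ Icc 0 T, ∀ x ∈ S,
      HasSum (fun k => jet (w k) t x) (jet (fun t x => ∑' k, w k t x) t x) := by
    intro t ht x hx
    obtain ⟨r, hr, _, _, hj, _⟩ := hloc x hx
    exact hj t ht x (mem_ball_self hr)
  have h3 : ∀ t ∈ Icc 0 T, ∀ x ∈ S, HasSum (fun k => wt k t x) (∑' k, wt k t x) := by
    intro t ht x hx
    obtain ⟨r, hr, _, _, _, hj⟩ := hloc x hx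
    exact hj t ht x (mem_ball_self hr)
  refine ⟨h1, ?_, h2, h3⟩
  have p0 : ∀ t ∈ Icc 0 T, ∀ x ∈ S, HasSum (fun k => w k t x) (∑' k, w k t x) := fun t ht x hx =>
    (ContinuousLinearMap.fst ℝ ℝ ((E →L[ℝ] ℝ) × Bil E)).hasSum (h2 t ht x hx)
  have p1 : ∀ t ∈ Icc 0 T, ∀ x ∈ S, HasSum (fun k => D1 (w k) t x)
      (D1 (fun t x => ∑' k, w k t x) t x) := fun t ht x hx =>
    ((ContinuousLinearMap.fst ℝ (E →L[ℝ] ℝ) (Bil E)).comp
      (ContinuousLinearMap.snd ℝ ℝ ((E →L[ℝ] ℝ) × Bil E))).hasSum (h2 t ht x hx)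
  have p2 : ∀ t ∈ Icc 0 T, ∀ x ∈ S, HasSum (fun k => D2 (w k) t x)
      (D2 (fun t x => ∑' k, w k t x) t x) := fun t ht x hx =>
    ((ContinuousLinearMap.snd ℝ (E →L[ℝ] ℝ) (Bil E)).comp
      (ContinuousLinearMap.snd ℝ ℝ ((E →L[ℝ] ℝ) × Bil E))).hasSum (h2 t ht x hx)
  refine ⟨fun t ht x hx => ?_, fun t ht x hx => ?_, fun t ht x hx => ?_, fun t ht x hx => ?_,
    fun t ht x hx y hy => ?_, fun t ht x hx y hy => ?_⟩
  · exact (p0 t ht x hx).norm_le_of_bounded hg (fun k => (hX k).b0 t ht x hx)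
  · exact (p1 t ht x hx).norm_le_of_bounded hg (fun k => (hX k).b1 t ht x hx)
  · exact (p2 t ht x hx).norm_le_of_bounded hg (fun k => (hX k).b2 t ht x hx)
  · exact (h3 t ht x hx).norm_le_of_bounded hg (fun k => (hX k).bt t ht x hx)
  · exact ((p2 t ht x hx).sub (p2 t ht y hy)).norm_le_of_bounded (hg.mul_right _)
      (fun k => (hX k).h2 t ht x hx y hy)
  · exact ((h3 t ht x hx).sub (h3 t ht y hy)).norm_le_of_bounded (hg.mul_right _)
      (fun k => (hX k).ht t ht x hx y hy)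

end Complete

section JetTime

variable {V E : Type} [NormedAddCommGroup V] [NormedSpace ℝ V]
  [NormedAddCommGroup E] [InnerProductSpace ℝ E] [FiniteDimensional ℝ E]

/-- time continuity of the jet on the unit ball of one chart. -/
theorem jet_time_ball1 {α T Tm K : ℝ} (hα : 0 < α) (hα1 : α ≤ 1) (hT : T ≤ Tm) (hTm : 1 ≤ Tm)
    {u ut : ℝ → E → ℝ} (hu : C21 (Icc 0 T) (ball (0 : E) 3) u ut)
    (hX : XB α (Icc 0 T) (ball (0 : E) 3) u ut K) :
    ∀ t ∈ Icc 0 T, ∀ s ∈ Icc 0 T, ∀ x ∈ ball (0 : E) 1,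
      ‖jet u t x - jet u s x‖ ≤ (2 * Tm + 28) * K * |t - s| ^ (α / (2 + α)) := by
  intro t ht s hs x hx
  have hx3 : x ∈ ball (0 : E) 3 := ball_subset_ball (by norm_num) hx
  have hK : 0 ≤ K := (norm_nonneg _).trans (hX.b0 t ht x hx3)
  obtain ⟨d, hd⟩ : ∃ d, d = |t - s| := ⟨_, rfl⟩
  obtain ⟨θ, hθdef⟩ : ∃ θ, θ = α / (2 + α) := ⟨_, rfl⟩
  rw [← hd, ← hθdef]
  have hd0 : 0 ≤ d := hd ▸ abs_nonneg _
  have hdT : d ≤ Tm := by
    rw [hd, abs_le]
    constructor <;> linarith [ht.1, ht.2, hs.1, hs.2]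
  have hθ : 0 < θ := by rw [hθdef]; positivity
  have hθ1 : θ ≤ 1 := by
    rw [hθdef, div_le_one (by linarith)]
    linarith
  have hr : 0 ≤ d ^ θ := Real.rpow_nonneg hd0 _
  have hd1 : d ≤ Tm * d ^ θ := by
    have := rpow_le_Tm hd0 hdT hTm hθ hθ1 le_rfl
    rwa [Real.rpow_one] at this
  have e3 : (3 : ℝ) = 2 + 1 := by norm_num
  have h2α : (2 / 1 : ℝ) ^ α ≤ 2 := by
    have := Real.rpow_le_rpow_of_exponent_le (x := 2) (by norm_num) hα1
    rw [Real.rpow_one] at this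
    simpa using this
  -- second derivatives on `ball 0 2`
  have hD2 : ∀ y ∈ ball (0 : E) 2, ‖D2 u t y - D2 u s y‖ ≤ 28 * K * d ^ θ := by
    intro y hy
    have := XB.D2_time_ball (x₀ := (0 : E)) (r := 2) (δ := 1) hα one_pos (by rw [← e3]; exact hu)
      (by rw [← e3]; exact hX) t ht s hs y hy
    rw [← hd, ← hθdef] at this
    refine this.trans ?_
    have h3 : 0 ≤ K * d ^ θ := mul_nonneg hK hr
    nlinarith
  obtain ⟨f1, f2, f3, f4⟩ := slice_sub_facts isOpen_ball hu hX ht hs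
  rw [← hd] at f2
  have hsub : closedBall x 1 ⊆ ball (0 : E) 2 := by
    intro y hy
    rw [mem_ball_zero_iff]
    have h1 : ‖y - x‖ ≤ 1 := by simpa [dist_eq_norm] using hy
    have h2 : ‖x‖ < 1 := by simpa using hx
    calc ‖y‖ = ‖(y - x) + x‖ := by rw [sub_add_cancel]
      _ ≤ ‖y - x‖ + ‖x‖ := norm_add_le _ _
      _ < 2 := by linarith
  have hsub3 : closedBall x 1 ⊆ ball (0 : E) 3 := hsub.trans (ball_subset_ball (by norm_num))
  have hD1 : ‖D1 u t x - D1 u s x‖ ≤ 2 * (K * d) / 1 + 1 * (28 * K * d ^ θ) := by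
    rw [← f3 x hx3]
    exact interp1 isOpen_ball f1 one_pos hsub3 (f2.subset hsub3) fun y hy => by
      rw [f4 y (hsub3 hy)]
      exact hD2 y (hsub hy)
  have hKd : K * d ≤ K * (Tm * d ^ θ) := by gcongr
  have hKr : 0 ≤ K * d ^ θ := mul_nonneg hK hr
  have e : jet u t x - jet u s x = (u t x - u s x, D1 u t x - D1 u s x, D2 u t x - D2 u s x) := rfl
  rw [e, Prod.norm_def, Prod.norm_def]
  refine max_le ?_ (max_le ?_ ?_)
  · refine (f2 x hx3).trans ?_
    nlinarith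
  · refine le_trans hD1 ?_
    nlinarith
  · refine le_trans (hD2 x (ball_subset_ball (by norm_num) hx)) ?_
    nlinarith

/-- the chart jets of `u ∈ X` are uniformly Hölder continuous in time. -/
theorem UAtlas.exists_jet_time (A : UAtlas V E) (α Tm : ℝ) (hα : 0 < α) (hα1 : α ≤ 1) (hTm : 0 < Tm) :
    ∃ C : ℝ, 0 ≤ C ∧ ∀ (T K : ℝ) (u ut : ℝ → V → ℝ), T ≤ Tm → 0 ≤ K → A.C21M (Icc 0 T) u ut →
      A.XM α (Icc 0 T) u ut K → ∀ i, ∀ t ∈ Icc 0 T, ∀ s ∈ Icc 0 T, ∀ z ∈ ball (0 : E) 3,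
        ‖jet (A.rep i u) t z - jet (A.rep i u) s z‖ ≤ C * K * |t - s| ^ (α / (2 + α)) := by
  have hT1 : (1 : ℝ) ≤ max 1 Tm := le_max_left _ _
  refine ⟨|A.Cp| * (2 * max 1 Tm + 28), by positivity, ?_⟩
  intro T K u ut hT hK hu hX i t ht s hs z hz
  obtain ⟨j, hd, h1⟩ := A.exists_chart (i := i) hz
  rw [A.jet_rep hd ((hu j).c2 t ht), A.jet_rep hd ((hu j).c2 s hs), ← A.pull_sub]
  refine (A.norm_pull_le hd _).trans ?_
  have h2 := jet_time_ball1 hα hα1 (hT.trans (le_max_right 1 Tm)) hT1 (hu j) (hX j) t ht s hs _ h1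
  calc A.Cp * ‖jet (A.rep j u) t (A.tr i j z) - jet (A.rep j u) s (A.tr i j z)‖
      ≤ |A.Cp| * ((2 * max 1 Tm + 28) * K * |t - s| ^ (α / (2 + α))) := by
        gcongr
        exact le_abs_self _
    _ = |A.Cp| * (2 * max 1 Tm + 28) * K * |t - s| ^ (α / (2 + α)) := by ring

end JetTime

end Claimed.Agent.R316.B8M
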