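import Claimed.Agent.R316.B8M.Push
import Claimed.Agent.R316.B8M.Time
import Claimed.Agent.R316.B8M.MaxP
import Claimed.Agent.R316.Pack015_2
import Claimed.Agent.R316.B8.SmDq
import Claimed.Agent.R316.B8.Bridge

/-!
# B8M-LIN (M4, M5): the linear Cauchy problem on a manifold with a uniform atlas

`u_t - P(jet u) = f`, `u(0) = g` in the classes `A.XM`, `A.YM`, `A.C2aM`.  Parametrix + Neumann series on a short time interval, then time stepping.

LEAVES (proofs only): B8M-LIN-A = `exists_small_time`, `YB_lip_cutoff`;  B8M-LIN-B = `exists_param_step`;  B8M-LIN-C = `exists_lin_short0`, `exists_lin_short`;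
B8M-LIN-D = `exists_lin_solve`, `exists_lin_apriori`.

Recipes.
* `exists_small_time` (`θ = (1-α)/2`, `T ≤ 1`).  `|v| ≤ K T` (`B8.XB.u_time`, `v 0 = 0`), `|Dv| ≤ 2 K T / √T + √T K = 3 K √T` (`B8.interp1` with `ρ = √T`), `Dv` is `K`-Lipschitz, so
  `[Dv]_α ≤ 2 (3 K √T)^{1-α} K^α ≤ 6 K T^θ` (`B8.HolB.of_lip_scaled` with `A = 3 K √T`, `ρ = 3 √T`), `[v]_α ≤ 2 (K T)^{1-α} (3 K √T)^α`-type bound `≤ 6 K T^θ`.
  `commJ ψ v = (0, v • Dψ, Dψ ⊗ Dv + Dv ⊗ Dψ + v • D²ψ)`; `Dψ, D²ψ` bounded and Hölder (`B8.Cut.hol1`, `B8.Cut.hol2`, `ρ = 1/2`); product rules `B8.HolB.smul`, ….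
  Continuity: `B8.commJ_YB` (its `cont` field) or directly.
* `YB_lip_cutoff`: `B8.HolB.cutoff_smul`, `B8.SupB.cutoff_smul` with `S' = ball 0 3`, `[χ]_α ≤ 2 + L` (`B8.HolB.of_lip`); continuity on `I ×ˢ univ`: cover by `ball 0 3` and `(closedBall 0 (3/2))ᶜ`.
* `exists_param_step`.  `M'` from `B8.extend_adm` (`R = 3`, unchanged on `ball 0 (9/4)`), `C₁` from `B8.cauchy_solve_bound (α, γ, min 1 lam, M', Tm = 1)`, `(χ, L)` from `A.exists_pu`,
  `ψ` with `B8.Cut ψ 0 (3/2) (1/2) Cc`, `C₂, C₃` from `A.exists_XM_sumP`, `A.exists_YM_sumP`, `C₄` from `exists_small_time`.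
  For each `j`: `P'_j` the extension of `P j`; `f_j t z = χ j z * rep j f t z ∈ Y(univ)`, norm `≤ (3 + L) K`; `v_j` solves `Lop P'_j v_j = f_j`, `v_j 0 = 0`, `XB … (C₁ (3+L) K)`;
  `w_j = ψ v_j` (`B8.C21.cutoff_mul`, `B8.XB.cutoff_mul` with `S = univ`), `Supp 2`.  `u = A.sumP w`, `ut = A.sumP wt`.
  For `z ∈ ball 0 3`: `Lop (P j) w_j wt_j t z = f_j t z - r_j t z`, `r_j t z = P'_j t z (commJ ψ v_j t z)`: on `ball 0 (9/4)` by `B8.Lop_cutoff`, `P j = P'_j`, `ψ f_j = f_j`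
  (`χ j = 0` off `closedBall 0 (3/2)`, `ψ = 1` on it); off `ball 0 2` everything vanishes (`B8.jet_cutoff_eq_zero`, `B8.Cut.deriv_eq_zero`).
  `r = A.sumP r_j`; `|r_j|_Y ≤ 2 M' C₄ T^θ C₁ (3+L) K` (`B8.YB.clm_apply`), so `|r|_Y ≤ C₃ … T^θ K ≤ K/2` for `T ≤ ε`.
  `A.Lop_sumP`, `A.sumP_congr`, `A.sumP_sub`, `A.exists_pu` give `SolL … (f - r)`.
* `exists_lin_short0`: `f₀ = f`, `(u_k, ut_k, f_{k+1})` from `exists_param_step` applied to `(f_k, K / 2^k)` (recursion with `Classical.choose` on a subtype);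
  `u t x = ∑' k, u_k t x`; `X_complete_on` in every chart (`A = C K`); `B8.X_complete_Lop`: `Lop (P i) (rep i u) … = ∑ (f_k - f_{k+1}) = f` (telescoping, `|f_k| ≤ K/2^k → 0`).
* `exists_lin_short`: `v` solves `L v = f + P (jet g)` with `v 0 = 0`; the right hand side is `A.glue` of the chart expressions (`A.compat_op`, `A.rep_glue`, `B8.YB_static_jet`); `u = v + g`.
* `exists_lin_solve`: induction on `n` with `T ≤ n ε`: solve on `[0, n ε]`, restart at `b = n ε` with `g = u b` (`B8.XB.slice`) for the shifted data (`B8.shiftT`, `B8.Adm.shift`, `B8.C21.shift`, …), glue with `C21.glueT`,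
  `XB.glueT`; at the junction `ut b = vt b` follows from the two equations and `jet` equality (`B8.jet_congr`).
* `exists_lin_apriori`: the solution of `exists_lin_solve` coincides with `u` on `A.X` (`A.unique`, `B8.Adm.bdd`), their time derivatives too (`B8.strip_unique_dt`); `B8.XB.congr`.
-/

set_option autoImplicit false
set_option maxSynthPendingDepth 3
set_option linter.unusedSectionVars false

open scoped Topology ContDiff
open Set Filter Metric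

namespace Claimed.Agent.R316.B8M

open Claimed.Agent.R316.B8

variable {V E : Type} [NormedAddCommGroup V] [NormedSpace ℝ V]
  [NormedAddCommGroup E] [InnerProductSpace ℝ E] [FiniteDimensional ℝ E]

/-- bounds of the commutator in terms of `C^{1,α}` bounds of `u`. -/
theorem commJ_bounds_small {ζ : E → ℝ} {x₀ : E} {r ρ Cc α : ℝ} {u : ℝ → E → ℝ}
    (hζ : Cut ζ x₀ r ρ Cc) (hCc : 1 ≤ Cc) (hρ : 0 < ρ) (hρ1 : ρ ≤ 1) (hα0 : 0 < α)
    (hα1 : α ≤ 1) {t n : ℝ} (hn : 0 ≤ n) (hb0 : SupB univ (u t) n)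
    (hb1 : SupB univ (fderiv ℝ (u t)) n) (hh0 : HolB α univ (u t) n)
    (hh1 : HolB α univ (fderiv ℝ (u t)) n) :
    SupB univ (commJ ζ u t) (9 * (Cc / ρ ^ (2 + α)) * n) ∧
      HolB α univ (commJ ζ u t) (9 * (Cc / ρ ^ (2 + α)) * n) := by
  set Λ := Cc / ρ ^ (2 + α) with hΛ
  have hΛ0 : 0 ≤ Λ := div_nonneg (by linarith) (Real.rpow_nonneg hρ.le _)
  have hΛN : 0 ≤ Λ * n := mul_nonneg hΛ0 hn
  have ca : Cc / ρ ≤ Λ := by
    have := cut_const_le (α := α) hCc hρ hρ1 (β := 1) (by linarith)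
    rwa [Real.rpow_one] at this
  have ca' : 2 * Cc / ρ ^ (1 + α) ≤ 2 * Λ := by
    have := cut_const_le (α := α) hCc hρ hρ1 (β := 1 + α) (by linarith)
    rw [mul_div_assoc]; linarith
  have cb : Cc / ρ ^ 2 ≤ Λ := by
    have := cut_const_le (α := α) hCc hρ hρ1 (β := 2) (by linarith)
    rwa [Real.rpow_two] at this
  have cb' : 2 * Cc / ρ ^ (2 + α) ≤ 2 * Λ := by rw [mul_div_assoc]
  have z1 : ∀ x, x ∉ (univ : Set E) → fderiv ℝ ζ x = 0 := fun x hx => absurd (mem_univ x) hx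
  have z2 : ∀ x, x ∉ (univ : Set E) → fderiv ℝ (fderiv ℝ ζ) x = 0 :=
    fun x hx => absurd (mem_univ x) hx
  have s1 : SupB univ (fderiv ℝ ζ) Λ := fun x _ => (hζ.d1 x).trans ca
  have s2 : SupB univ (fderiv ℝ (fderiv ℝ ζ)) Λ := fun x _ => (hζ.d2 x).trans cb
  have l1 : HolB α univ (fderiv ℝ ζ) (2 * Λ) := (hζ.hol1 hCc hρ hα0 hα1).mono ca'
  have l2 : HolB α univ (fderiv ℝ (fderiv ℝ ζ)) (2 * Λ) := (hζ.hol2 hCc hρ hα0 hα1).mono cb'
  have h2Λ : 0 ≤ 2 * Λ := by linarith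
  have T1 := cutoff_bil ((ContinuousLinearMap.lsmul ℝ ℝ : ℝ →L[ℝ] (E →L[ℝ] ℝ) →L[ℝ] (E →L[ℝ] ℝ)).flip)
    (fun a b => by simp [norm_smul, mul_comm]) z1 s1 l1 hb0 hh0 hΛ0 h2Λ hn hn
  have T2 := cutoff_bil (ContinuousLinearMap.smulRightL ℝ E (E →L[ℝ] ℝ))
    (fun a b => by simp) z1 s1 l1 hb1 hh1 hΛ0 h2Λ hn hn
  have T3 := cutoff_bil (ContinuousLinearMap.smulRightL ℝ E (E →L[ℝ] ℝ)).flip
    (fun a b => by simp [mul_comm]) z1 s1 l1 hb1 hh1 hΛ0 h2Λ hn hn
  have T4 := cutoff_bil ((ContinuousLinearMap.lsmul ℝ ℝ : ℝ →L[ℝ] (Bil E) →L[ℝ] (Bil E)).flip)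
    (fun a b => by simp [norm_smul, mul_comm]) z2 s2 l2 hb0 hh0 hΛ0 h2Λ hn hn
  have e5 : Λ * n + 2 * Λ * n = 3 * (Λ * n) := by ring
  rw [e5] at T1 T2 T3 T4
  have hsup3 := (T2.1.add T3.1).add T4.1
  have hhol3 := (T2.2.add T3.2).add T4.2
  constructor
  · refine SupB.prodMk' (fun x _ => by simp; positivity) (SupB.prodMk' (T1.1.mono (by nlinarith)) ?_)
    exact hsup3.mono (by nlinarith)
  · refine HolB.prodMk' ((HolB.const (0 : ℝ)).mono (by positivity))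
      (HolB.prodMk' (T1.2.mono (by nlinarith)) ?_)
    exact hhol3.mono (le_of_eq (by ring))

/-- the commutator with a fixed cutoff is small for short time when `v(0) = 0`. -/
theorem exists_small_time (α Cc : ℝ) (hα : 0 < α) (hα1 : α < 1) (hCc : 1 ≤ Cc) : ∃ C : ℝ, 0 ≤ C ∧
    ∀ (ψ : E → ℝ) (T K : ℝ) (v vt : ℝ → E → ℝ), Cut ψ 0 (3 / 2) (1 / 2) Cc → 0 < T → T ≤ 1 → 0 ≤ K →
      C21 (Icc 0 T) univ v vt → XB α (Icc 0 T) univ v vt K → (∀ x, v 0 x = 0) →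
      YB α (Icc 0 T) univ (commJ ψ v) (C * T ^ ((1 - α) / 2) * K) := by
  have hΛ : 0 ≤ Cc / (1 / 2 : ℝ) ^ (2 + α) := by positivity
  refine ⟨54 * (Cc / (1 / 2 : ℝ) ^ (2 + α)), by positivity, ?_⟩
  intro ψ T K v vt hψ hT hT1 hK hv hX h0
  obtain ⟨θ, hθ⟩ : ∃ θ, θ = (1 - α) / 2 := ⟨_, rfl⟩
  rw [← hθ]
  obtain ⟨s, hs⟩ : ∃ s, s = T ^ (1 / 2 : ℝ) := ⟨_, rfl⟩
  have hs0 : 0 < s := hs ▸ Real.rpow_pos_of_pos hT _
  have hss : s * s = T := by
    rw [hs, ← Real.rpow_add hT]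
    norm_num
  have hTθ : 0 < T ^ θ := Real.rpow_pos_of_pos hT _
  have hsθ : s ≤ T ^ θ := by
    rw [hs]
    exact Real.rpow_le_rpow_of_exponent_ge hT hT1 (by rw [hθ]; linarith)
  have hs1 : s ≤ 1 := by
    rw [hs]
    exact Real.rpow_le_one hT.le hT1 (by norm_num)
  have hTs : T ≤ s := by nlinarith
  have h0I : (0 : ℝ) ∈ Icc (0 : ℝ) T := ⟨le_rfl, hT.le⟩
  obtain ⟨n, hn⟩ : ∃ n, n = 6 * K * T ^ θ := ⟨_, rfl⟩
  have hn0 : 0 ≤ n := by rw [hn]; positivity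
  have hKs : 0 ≤ K * s := by positivity
  have key : ∀ t ∈ Icc 0 T, SupB univ (v t) n ∧ SupB univ (fderiv ℝ (v t)) n ∧
      HolB α univ (v t) n ∧ HolB α univ (fderiv ℝ (v t)) n := by
    intro t ht
    have b0 : SupB univ (v t) (K * T) := by
      intro x _
      have := hX.u_time hv t ht 0 h0I x (mem_univ _)
      rw [h0 x, sub_zero, sub_zero, abs_of_nonneg ht.1] at this
      exact this.trans (by gcongr; exact ht.2)
    have b1 : SupB univ (fderiv ℝ (v t)) (3 * K * s) := by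
      intro x _
      have := interp1 isOpen_univ (hv.c2 t ht) hs0 (subset_univ (closedBall x s))
        (b0.subset (subset_univ _)) ((hX.b2 t ht).subset (subset_univ _))
      refine this.trans (le_of_eq ?_)
      rw [← hss]
      field_simp
      ring
    have hd0 : DifferentiableOn ℝ (v t) univ := (hv.c2 t ht).differentiableOn (by norm_num)
    have hd1 : DifferentiableOn ℝ (fderiv ℝ (v t)) univ :=
      ((hv.c2 t ht).fderiv_of_isOpen isOpen_univ (m := 1) (by norm_num)).differentiableOn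
        (by norm_num)
    have l0 := lip_of_fderiv isOpen_univ convex_univ hd0 b1
    have l1 := lip_of_fderiv isOpen_univ convex_univ hd1 (hX.b2 t ht)
    have e3 : 3 * K * s ≤ n := by
      rw [hn]
      have : K * s ≤ K * T ^ θ := by gcongr
      nlinarith
    have hh0 : HolB α univ (v t) (2 * (3 * K * s) / (1 : ℝ) ^ α) :=
      HolB.of_lip_scaled hα hα1.le one_pos (b0.mono (by nlinarith))
        (fun x hx y hy => by rw [div_one]; exact l0 x hx y hy) (by positivity)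
    have hh1 : HolB α univ (fderiv ℝ (v t)) (2 * (3 * K * s) / (3 * s) ^ α) :=
      HolB.of_lip_scaled hα hα1.le (by positivity) b1
        (fun x hx y hy => by
          have e : 3 * K * s / (3 * s) = K := by field_simp
          rw [e]
          exact l1 x hx y hy) (by positivity)
    refine ⟨b0.mono ?_, b1.mono e3, hh0.mono ?_, hh1.mono ?_⟩
    · have : K * T ≤ K * s := by gcongr
      nlinarith
    · rw [Real.one_rpow, div_one, hn]
      have : K * s ≤ K * T ^ θ := by gcongr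
      nlinarith
    · have h1 : s ^ α ≤ (3 * s) ^ α := Real.rpow_le_rpow hs0.le (by linarith) hα.le
      have h2 : 0 < s ^ α := Real.rpow_pos_of_pos hs0 _
      have h3 : s / s ^ α = T ^ θ := by
        nth_rewrite 1 [← Real.rpow_one s]
        rw [← Real.rpow_sub hs0, hs, ← Real.rpow_mul hT.le, hθ]
        congr 1
        ring
      calc 2 * (3 * K * s) / (3 * s) ^ α ≤ 2 * (3 * K * s) / s ^ α := by gcongr
        _ = 6 * K * (s / s ^ α) := by ring
        _ = n := by rw [h3, hn]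
  have hc := (commJ_YB hψ hCc (by norm_num) (by norm_num) hα hα1.le isOpen_univ (subset_univ _) hv
    (fun t ht => (hX.jet_sup t ht).subset (subset_univ _)) hK).cont
  have e : 54 * (Cc / (1 / 2 : ℝ) ^ (2 + α)) * T ^ θ * K = 9 * (Cc / (1 / 2 : ℝ) ^ (2 + α)) * n := by
    rw [hn]
    ring
  rw [e]
  refine ⟨hc, fun t ht => ?_, fun t ht => ?_⟩
  · obtain ⟨a, b, c, d⟩ := key t ht
    exact (commJ_bounds_small hψ hCc (by norm_num) (by norm_num) hα hα1.le hn0 a b c d).1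
  · obtain ⟨a, b, c, d⟩ := key t ht
    exact (commJ_bounds_small hψ hCc (by norm_num) (by norm_num) hα hα1.le hn0 a b c d).2

/-- product of `f ∈ Y(ball 0 3)` with a Lipschitz function vanishing outside `closedBall 0 (3/2)`. -/
theorem YB_lip_cutoff {α L K : ℝ} (hα : 0 < α) (hα1 : α ≤ 1) (hL : 0 ≤ L) (hK : 0 ≤ K) {χ : E → ℝ}
    (h01 : ∀ z, 0 ≤ χ z ∧ χ z ≤ 1) (hsupp : ∀ z, 3 / 2 < ‖z‖ → χ z = 0)
    (hlip : ∀ z z', |χ z - χ z'| ≤ L * ‖z - z'‖) {I : Set ℝ} {f : ℝ → E → ℝ}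
    (hf : YB α I (ball (0 : E) 3) f K) : YB α I univ (fun t z => χ z * f t z) ((3 + L) * K) := by
  have hz : ∀ x, x ∉ ball (0 : E) 3 → χ x = 0 := fun x hx => hsupp x (by
    rw [mem_ball_zero_iff, not_lt] at hx
    linarith)
  have hs1 : SupB univ χ 1 := fun x _ => by
    rw [Real.norm_eq_abs, abs_of_nonneg (h01 x).1]
    exact (h01 x).2
  have hh : HolB α univ χ (2 * 1 + L) :=
    HolB.of_lip hα hα1 hs1 (fun x _ y _ => hlip x y) hL
  have hχc : Continuous χ := by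
    have : LipschitzWith ⟨L, hL⟩ χ := LipschitzWith.of_dist_le_mul fun x y => by
      rw [Real.dist_eq, dist_eq_norm]
      exact hlip x y
    exact this.continuous
  refine ⟨?_, fun t ht => ?_, fun t ht => ?_⟩
  · refine continuousOn_prod_of_local fun x _ => ?_
    by_cases hx : x ∈ ball (0 : E) 3
    · exact ⟨ball 0 3, isOpen_ball, hx, ((hχc.comp continuous_snd).continuousOn).mul hf.cont⟩
    · refine ⟨(closedBall (0 : E) (3 / 2))ᶜ, isClosed_closedBall.isOpen_compl, ?_, ?_⟩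
      · intro h
        exact hx (closedBall_subset_ball (by norm_num) h)
      · refine continuousOn_const.congr (f := fun _ => (0 : ℝ)) fun q hq => ?_
        have : 3 / 2 < ‖q.2‖ := by
          have := hq.2
          rw [mem_compl_iff, mem_closedBall_zero_iff, not_le] at this
          exact this
        show χ q.2 * f q.1 q.2 = 0
        rw [hsupp _ this, zero_mul]
  · exact (SupB.cutoff_smul (g := f t) hz hs1 (hf.sup t ht) hK).mono (by nlinarith)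
  · exact (HolB.cutoff_smul (g := f t) hz hs1 hh (hf.sup t ht) (hf.hol t ht) hK hK
      (by linarith)).mono (le_of_eq (by ring))

theorem linb_C2aB_zero (α : ℝ) : C2aB α (univ : Set E) (fun _ => (0 : ℝ)) 0 := by
  have h1 : fderiv ℝ (fun _ : E => (0 : ℝ)) = fun _ => 0 := by
    funext x; simp
  have h2 : fderiv ℝ (fderiv ℝ (fun _ : E => (0 : ℝ))) = fun _ => 0 := by
    rw [h1]; funext x; simp
  refine ⟨contDiffOn_const, fun x _ => by simp, fun x _ => by rw [h1]; simp,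
    fun x _ => by rw [h2]; simp, fun x _ y _ => by rw [h2]; simp⟩

/-- dependent choice with an index dependent invariant. -/
theorem linc_exists_seq {X : Type*} (Pr : ℕ → X → Prop) (R : ℕ → X → X → Prop) (x0 : X)
    (h0 : Pr 0 x0) (hstep : ∀ k x, Pr k x → ∃ y, Pr (k + 1) y ∧ R k x y) :
    ∃ s : ℕ → X, s 0 = x0 ∧ ∀ k, Pr k (s k) ∧ R k (s k) (s (k + 1)) := by
  classical
  let F : (k : ℕ) → {x // Pr k x} := fun k => Nat.rec (motive := fun k => {x // Pr k x}) ⟨x0, h0⟩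
    (fun k p => ⟨(hstep k p.1 p.2).choose, (hstep k p.1 p.2).choose_spec.1⟩) k
  refine ⟨fun k => (F k).1, rfl, fun k => ⟨(F k).2, ?_⟩⟩
  exact (hstep k (F k).1 (F k).2).choose_spec.2

/-- telescoping with geometric decay. -/
theorem linc_telescope {a : ℕ → ℝ} {K : ℝ} (h : ∀ k, |a k| ≤ K * (1 / 2) ^ k) :
    HasSum (fun k => a k - a (k + 1)) (a 0) := by
  have hs : Summable a := by
    refine Summable.of_norm_bounded (g := fun k : ℕ => K * (1 / 2 : ℝ) ^ k)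
      (summable_geometric_two.mul_left K) fun k => ?_
    simpa using h k
  have h1 := hs.hasSum
  have h2 : HasSum (fun k => a (k + 1)) (∑' k, a k - a 0) := by
    have := (hasSum_nat_add_iff' (f := a) 1).2 h1
    simpa using this
  have := h1.sub h2
  simpa using this

namespace UAtlas

variable (A : UAtlas V E)

theorem linb_sumP_zero {w : A.ι → ℝ → E → ℝ} {t : ℝ} (h : ∀ j z, w j t z = 0) (x : V) :
    A.sumP w t x = 0 := by
  unfold sumP
  apply finsum_eq_zero_of_forall_eq_zero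
  intro j
  unfold push
  split_ifs
  · exact h j _
  · rfl

/-- the chart level construction of one term of the parametrix -/
theorem linb_local {α γ lam' M' C₁ C₄ Cc L : ℝ} (hα : 0 < α) (hα1 : α < 1) (hM' : 0 ≤ M')
    (hC₁ : 0 ≤ C₁) (hC₄ : 0 ≤ C₄) (hCc : 1 ≤ Cc) (hL : 0 ≤ L)
    (H₁ : ∀ (T : ℝ) (P : Op E) (f : ℝ → E → ℝ) (g : E → ℝ) (F0 G0 : ℝ), 0 < T → T ≤ 1 →
      Adm P α γ lam' M' (Icc 0 T) univ → YB α (Icc 0 T) univ f F0 → C2aB α univ g G0 →
      ∃ u ut : ℝ → E → ℝ, C21 (Icc 0 T) univ u ut ∧ XB α (Icc 0 T) univ u ut (C₁ * (F0 + G0)) ∧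
        (∀ x, u 0 x = g x) ∧ ∀ t ∈ Icc 0 T, ∀ x, Lop P u ut t x = f t x)
    (H₄ : ∀ (ψ : E → ℝ) (T K : ℝ) (v vt : ℝ → E → ℝ), Cut ψ 0 (3 / 2) (1 / 2) Cc → 0 < T → T ≤ 1 →
      0 ≤ K → C21 (Icc 0 T) univ v vt → XB α (Icc 0 T) univ v vt K → (∀ x, v 0 x = 0) →
      YB α (Icc 0 T) univ (commJ ψ v) (C₄ * T ^ ((1 - α) / 2) * K))
    {ψ : E → ℝ} (hψ : Cut ψ 0 (3 / 2) (1 / 2) Cc) {χ : E → ℝ} (h01 : ∀ z, 0 ≤ χ z ∧ χ z ≤ 1)
    (hsupp : ∀ z, 3 / 2 < ‖z‖ → χ z = 0) (hlip : ∀ z z', |χ z - χ z'| ≤ L * ‖z - z'‖)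
    {T K : ℝ} (hT : 0 < T) (hT1 : T ≤ 1) (hK : 0 ≤ K) {P P' : Op E}
    (hP' : Adm P' α γ lam' M' (Icc 0 T) univ)
    (hPP : ∀ t, ∀ x ∈ ball (0 : E) (3 * 3 / 4), P' t x = P t x) {f : ℝ → E → ℝ}
    (hf : YB α (Icc 0 T) (ball (0 : E) 3) f K) :
    ∃ w wt r : ℝ → E → ℝ, Supp (5 / 2) w ∧ Supp (5 / 2) wt ∧ Supp (5 / 2) r ∧
      C21 (Icc 0 T) (ball (0 : E) 3) w wt ∧
      XB α (Icc 0 T) (ball (0 : E) 3) w wt (40 * Cc / (1 / 2 : ℝ) ^ (2 + α) * (C₁ * ((3 + L) * K))) ∧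
      (∀ z, w 0 z = 0) ∧
      YB α (Icc 0 T) (ball (0 : E) 3) r
        (2 * M' * (C₄ * T ^ ((1 - α) / 2) * (C₁ * ((3 + L) * K)))) ∧
      ∀ t ∈ Icc 0 T, ∀ z ∈ ball (0 : E) 3, Lop P w wt t z = χ z * f t z - r t z := by
  have hfj := YB_lip_cutoff hα hα1.le hL hK h01 hsupp hlip hf
  obtain ⟨v, vt, hv, hX, hv0, hLv⟩ := H₁ T P' _ _ _ 0 hT hT1 hP' hfj (linb_C2aB_zero α)
  rw [add_zero] at hX
  have hK₁ : 0 ≤ C₁ * ((3 + L) * K) := by positivity
  have hz2 : ∀ z : E, 2 < ‖z‖ → z ∉ ball (0 : E) (3 / 2 + 1 / 2) := by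
    intro z hz hz'
    rw [mem_ball_zero_iff] at hz'
    norm_num at hz'
    linarith
  have hψ0 : ∀ z : E, 2 < ‖z‖ → ψ z = 0 := fun z hz => hψ.eq_zero z (hz2 z hz)
  have hcomm := H₄ ψ T _ v vt hψ hT hT1 hK₁ hv hX hv0
  have hr := YB.clm_apply hP'.coef hcomm hM' (by positivity)
  refine ⟨fun t z => ψ z * v t z, fun t z => ψ z * vt t z, fun t z => P' t z (commJ ψ v t z),
    fun t z hz => ?_, fun t z hz => ?_, fun t z hz => ?_,
    (hv.cutoff_mul hψ.smooth isOpen_univ).subset subset_rfl (subset_univ _),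
    (XB.cutoff_mul hψ hCc (by norm_num) (by norm_num) hα hα1.le isOpen_univ (subset_univ _) hv
      (hX.subset subset_rfl (subset_univ _)) hK₁).subset subset_rfl (subset_univ _),
    fun z => by simp [hv0 z], hr.subset subset_rfl (subset_univ _), ?_⟩
  · simp only [hψ0 z (by linarith), zero_mul]
  · simp only [hψ0 z (by linarith), zero_mul]
  · simp only [commJ_eq_zero hψ (hz2 z (by linarith)), map_zero]
  · intro t ht z hz
    by_cases hz94 : z ∈ ball (0 : E) (3 * 3 / 4)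
    · have e1 : Lop P (fun t z => ψ z * v t z) (fun t z => ψ z * vt t z) t z
          = Lop P' (fun t z => ψ z * v t z) (fun t z => ψ z * vt t z) t z := by
        simp only [Lop, hPP t z hz94]
      rw [e1, Lop_cutoff P' hψ.smooth isOpen_univ (mem_univ z) (hv.c2 t ht), hLv t ht z]
      congr 1
      by_cases h32 : ‖z‖ ≤ 3 / 2
      · rw [hψ.eq_one z (by simpa using h32), one_mul]
      · rw [hsupp z (not_le.1 h32), zero_mul, mul_zero]
    · have hn : 9 / 4 ≤ ‖z‖ := by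
        rw [mem_ball_zero_iff, not_lt] at hz94
        linarith
      have hj : jet (fun t z => ψ z * v t z) t z = 0 :=
        jet_cutoff_eq_zero (Kc := closedBall (0 : E) 2) isClosed_closedBall
          (fun y hy => hψ0 y (by simpa using hy)) (by simp; linarith)
      simp only [Lop, hj, map_zero, hψ0 z (by linarith), zero_mul, hsupp z (by linarith),
        commJ_eq_zero hψ (hz2 z (by linarith)), sub_zero]

/-- **M4, one step of the parametrix**: an approximate solution with error `≤ K/2`. -/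
theorem exists_param_step (α γ lam M : ℝ) (hα : 0 < α) (hα1 : α < 1) (hγ : 0 < γ) (hlam : 0 < lam)
    (hM : 0 ≤ M) : ∃ ε C : ℝ, 0 < ε ∧ ε ≤ 1 ∧ 0 ≤ C ∧
    ∀ (T : ℝ) (P : A.ι → Op E) (f : ℝ → V → ℝ) (K : ℝ), 0 < T → T ≤ ε → 0 ≤ K →
      A.CompatL (Icc 0 T) P → A.AdmM (Icc 0 T) α γ lam M P → A.YM α (Icc 0 T) f K →
      ∃ u ut r : ℝ → V → ℝ, A.C21M (Icc 0 T) u ut ∧ A.XM α (Icc 0 T) u ut (C * K) ∧
        (∀ x, u 0 x = 0) ∧ A.YM α (Icc 0 T) r (K / 2) ∧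
        A.SolL (Icc 0 T) P u ut (fun t x => f t x - r t x) := by
  obtain ⟨M', hM', Hext⟩ := extend_adm (E := E) (γ := γ) (lam := lam) hα hα1 hM
    (show (0 : ℝ) < 3 by norm_num)
  obtain ⟨C₁, hC₁, H₁⟩ := cauchy_solve_bound (E := E) (M := M') (Tm := 1) hα hα1 hγ
    (lt_min one_pos hlam) hM' one_pos
  obtain ⟨χ, L, hL, h01, hsupp, hlip, hpu⟩ := A.exists_pu
  obtain ⟨Cc, hCc, hcut⟩ := exists_cutoff (E := E)
  obtain ⟨ψ, hψ⟩ := hcut 0 (3 / 2) (1 / 2) (by norm_num) (by norm_num)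
  obtain ⟨C₂, hC₂, H₂⟩ := A.exists_XM_sumP α hα hα1.le
  obtain ⟨C₃, hC₃, H₃⟩ := A.exists_YM_sumP α hα hα1.le
  obtain ⟨C₄, hC₄, H₄⟩ := exists_small_time (E := E) α Cc hα hα1 hCc
  have hθ : 0 < (1 - α) / 2 := by linarith
  -- the smallness constant
  set B : ℝ := C₃ * (2 * M' * (C₄ * (C₁ * (3 + L)))) with hB
  have hB0 : 0 ≤ B := by positivity
  set ε : ℝ := min 1 ((1 / (2 * B + 1)) ^ (1 / ((1 - α) / 2))) with hε
  have hε0 : 0 < ε := lt_min one_pos (Real.rpow_pos_of_pos (by positivity) _)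
  refine ⟨ε, C₂ * (40 * Cc / (1 / 2 : ℝ) ^ (2 + α) * (C₁ * (3 + L))), hε0, min_le_left _ _,
    by positivity, ?_⟩
  intro T P f K hT hTε hK hcompat hadm hf
  have hT1 : T ≤ 1 := hTε.trans (min_le_left _ _)
  have hTθ : T ^ ((1 - α) / 2) ≤ 1 / (2 * B + 1) := by
    have h1 : T ≤ (1 / (2 * B + 1)) ^ (1 / ((1 - α) / 2)) := hTε.trans (min_le_right _ _)
    have h2 := Real.rpow_le_rpow hT.le h1 hθ.le
    rwa [← Real.rpow_mul (by positivity), one_div_mul_cancel hθ.ne', Real.rpow_one] at h2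
  choose P' hP' hPP using fun j => Hext (Icc 0 T) 0 (P j) (hadm j)
  choose w wt r hs hst hsr hw hX hw0 hr hL' using fun j =>
    UAtlas.linb_local hα hα1 hM' hC₁ hC₄ hCc hL H₁ H₄ hψ (h01 j) (hsupp j) (hlip j) hT hT1 hK (hP' j)
      (hPP j) (hf j)
  refine ⟨A.sumP w, A.sumP wt, A.sumP r, A.C21M_sumP hs hst hw, ?_, A.linb_sumP_zero hw0, ?_, ?_⟩
  · have := H₂ (Icc 0 T) w wt _ (by positivity) hs hst hw hX
    intro i
    exact (this i).mono (le_of_eq (by ring))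
  · have := H₃ (Icc 0 T) r _ (by positivity) hsr hr
    intro i
    refine (this i).mono ?_
    have h1 : C₃ * (2 * M' * (C₄ * T ^ ((1 - α) / 2) * (C₁ * ((3 + L) * K))))
        = B * T ^ ((1 - α) / 2) * K := by rw [hB]; ring
    rw [h1]
    have h2 : B * T ^ ((1 - α) / 2) ≤ 1 / 2 := by
      calc B * T ^ ((1 - α) / 2) ≤ B * (1 / (2 * B + 1)) := by gcongr
        _ ≤ 1 / 2 := by
          rw [mul_one_div, div_le_div_iff₀ (by positivity) (by norm_num)]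
          linarith
    calc B * T ^ ((1 - α) / 2) * K ≤ 1 / 2 * K := by gcongr
      _ = K / 2 := by ring
  · intro i t ht z hz
    rw [A.Lop_sumP hcompat hs hst (fun j t ht => (hw j).c2 t ht) i ht hz]
    have hx : A.Φ i z ∈ A.X := A.maps i hz
    show A.sumP (fun j => Lop (P j) (w j) (wt j)) t (A.Φ i z) = f t (A.Φ i z) - A.sumP r t (A.Φ i z)
    rw [A.sumP_congr (w' := fun j t z => χ j z * A.rep j f t z - r j t z)
      (fun j z hz => hL' j t ht z hz), A.sumP_sub _ _ t hx, hpu f t _ hx]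

/-- **M4, short time solvability**, zero initial data. -/
theorem exists_lin_short0 (α γ lam M : ℝ) (hα : 0 < α) (hα1 : α < 1) (hγ : 0 < γ) (hlam : 0 < lam)
    (hM : 0 ≤ M) : ∃ ε C : ℝ, 0 < ε ∧ ε ≤ 1 ∧ 0 ≤ C ∧
    ∀ (T : ℝ) (P : A.ι → Op E) (f : ℝ → V → ℝ) (K : ℝ), 0 < T → T ≤ ε → 0 ≤ K →
      A.CompatL (Icc 0 T) P → A.AdmM (Icc 0 T) α γ lam M P → A.YM α (Icc 0 T) f K →
      ∃ u ut : ℝ → V → ℝ, A.C21M (Icc 0 T) u ut ∧ A.XM α (Icc 0 T) u ut (C * K) ∧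
        (∀ x, u 0 x = 0) ∧ A.SolL (Icc 0 T) P u ut f := by
  obtain ⟨ε, C, hε, hε1, hC, H⟩ := A.exists_param_step α γ lam M hα hα1 hγ hlam hM
  refine ⟨ε, 2 * C, hε, hε1, by positivity, ?_⟩
  intro T P f K hT hTε hK hcompat hadm hf
  obtain ⟨F, hF0, hF⟩ := linc_exists_seq (X := ℝ → V → ℝ)
    (fun k g => A.YM α (Icc 0 T) g (K * (1 / 2) ^ k))
    (fun k g g' => ∃ u ut : ℝ → V → ℝ, A.C21M (Icc 0 T) u ut ∧
      A.XM α (Icc 0 T) u ut (C * K * (1 / 2) ^ k) ∧ (∀ x, u 0 x = 0) ∧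
      A.SolL (Icc 0 T) P u ut (fun t x => g t x - g' t x)) f (by simpa using hf) (by
      intro k g hg
      obtain ⟨u, ut, r, h1, h2, h3, h4, h5⟩ := H T P g (K * (1 / 2) ^ k) hT hTε (by positivity)
        hcompat hadm hg
      refine ⟨r, ?_, u, ut, h1, ?_, h3, h5⟩
      · intro i
        exact (h4 i).mono (le_of_eq (by rw [pow_succ]; ring))
      · intro i
        exact (h2 i).mono (le_of_eq (by ring)))
  choose hY u ut hu hX hu0 hsol using hF
  have hcomp := fun i => X_complete_on (α := α) (A := C * K) hT (isOpen_ball (x := (0 : E)) (ε := 3))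
    (w := fun k => A.rep i (u k)) (wt := fun k => A.rep i (ut k)) (fun k => hu k i) (fun k => hX k i)
  refine ⟨fun t x => ∑' k, u k t x, fun t x => ∑' k, ut k t x, fun i => (hcomp i).1,
    fun i => (hcomp i).2.1.mono (le_of_eq (by ring)), fun x => by simp [hu0], ?_⟩
  intro i t ht z hz
  have h1 := X_complete_Lop (w := fun k => A.rep i (u k)) (wt := fun k => A.rep i (ut k))
    (u := fun t z => ∑' k, A.rep i (u k) t z) (ut := fun t z => ∑' k, A.rep i (ut k) t z) (P i)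
    ((hcomp i).2.2.1 t ht z hz) ((hcomp i).2.2.2 t ht z hz)
  have h2 : HasSum (fun k => F k t (A.Φ i z) - F (k + 1) t (A.Φ i z)) (F 0 t (A.Φ i z)) :=
    linc_telescope (K := K) fun k => by
      have := (hY k i).sup t ht z hz
      simpa [rep] using this
  have h3 : (fun k => Lop (P i) (A.rep i (u k)) (A.rep i (ut k)) t z)
      = fun k => F k t (A.Φ i z) - F (k + 1) t (A.Φ i z) := by
    funext k
    exact hsol k i t ht z hz
  rw [h3] at h1
  have := h1.unique h2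
  rw [hF0] at this
  exact this

/-- short time solvability with initial data. -/
theorem exists_lin_short (α γ lam M : ℝ) (hα : 0 < α) (hα1 : α < 1) (hγ : 0 < γ) (hlam : 0 < lam)
    (hM : 0 ≤ M) : ∃ ε C : ℝ, 0 < ε ∧ ε ≤ 1 ∧ 0 ≤ C ∧
    ∀ (T : ℝ) (P : A.ι → Op E) (f : ℝ → V → ℝ) (g : V → ℝ) (K : ℝ), 0 < T → T ≤ ε → 0 ≤ K →
      A.CompatL (Icc 0 T) P → A.AdmM (Icc 0 T) α γ lam M P → A.YM α (Icc 0 T) f K → A.C2aM α g K →
      ∃ u ut : ℝ → V → ℝ, A.C21M (Icc 0 T) u ut ∧ A.XM α (Icc 0 T) u ut (C * K) ∧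
        (∀ x, u 0 x = g x) ∧ A.SolL (Icc 0 T) P u ut f := by
  obtain ⟨ε, C, hε, hε1, hC, H⟩ := A.exists_lin_short0 α γ lam M hα hα1 hγ hlam hM
  refine ⟨ε, C * (1 + 6 * M) + 1, hε, hε1, by positivity, ?_⟩
  intro T P f g K hT hTε hK hcompat hadm hf hg
  -- the right hand side
  have hc1 : A.Compat (Icc 0 T) (fun i t z => P i t z (jet (A.rep i (fun _ => g)) t z)) :=
    A.compat_op hcompat (u := fun _ => g) fun i t _ => (hg i).c2
  have hc : A.Compat (Icc 0 T)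
      (fun i t z => A.rep i f t z + P i t z (jet (A.rep i (fun _ => g)) t z)) := by
    intro i j t ht z hz
    have h1 := A.compat_rep (Icc 0 T) f i j t ht z hz
    have h2 := hc1 i j t ht z hz
    simp only at h1 h2 ⊢
    rw [h1, h2]
  have hh : A.YM α (Icc 0 T)
      (A.glue fun i t z => A.rep i f t z + P i t z (jet (A.rep i (fun _ => g)) t z))
      ((1 + 6 * M) * K) := by
    intro i
    have h1 := (hf i).add (YB_static_jet hα hα1.le isOpen_ball (convex_ball (0 : E) 3)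
      (hadm i).coef hM (hg i) hK)
    refine (h1.congr fun t ht z hz => ?_).mono (le_of_eq (by ring))
    rw [A.rep_glue hc i ht hz]
    rfl
  obtain ⟨v, vt, hv, hvX, hv0, hvs⟩ := H T P _ ((1 + 6 * M) * K) hT hTε (by positivity) hcompat hadm hh
  refine ⟨fun t x => v t x + g x, fun t x => vt t x + 0, fun i => ?_, fun i => ?_,
    fun x => by simp [hv0], ?_⟩
  · exact (hv i).add isOpen_ball (C21.static isOpen_ball (hg i).c2)
  · exact ((hvX i).add isOpen_ball (hv i) (C21.static isOpen_ball (hg i).c2)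
      (XB.static (hg i) hK)).mono (le_of_eq (by ring))
  · intro i t ht z hz
    have h1 := Lop_add (P i) (ut := A.rep i vt) (vt := fun _ _ => 0) isOpen_ball hz ((hv i).c2 t ht)
      (v := fun _ => A.rep0 i g) (hg i).c2
    have h2 := hvs i t ht z hz
    rw [A.rep_glue hc i ht hz] at h2
    have h3 : Lop (P i) (fun _ => A.rep0 i g) (fun _ _ => 0) t z
        = - P i t z (jet (A.rep i (fun _ => g)) t z) := by
      simp only [Lop, zero_sub]
      rfl
    have h4 : Lop (P i) (A.rep i fun t x => v t x + g x) (A.rep i fun t x => vt t x + 0) t z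
        = Lop (P i) (fun t x => A.rep i v t x + A.rep0 i g x)
          (fun t x => A.rep i vt t x + 0) t z := rfl
    rw [h4, h1, h2, h3]
    ring

theorem rep_catT {G : Type*} (i : A.ι) (b : ℝ) (u v : ℝ → V → G) :
    A.rep i (catT b u v) = catT b (A.rep i u) (A.rep i v) := by
  funext t z
  rcases le_or_gt t b with h | h
  · rw [catT_of_le _ _ h]
    show catT b u v t _ = _
    rw [catT_of_le _ _ h]
    rfl
  · rw [catT_of_lt _ _ h]
    show catT b u v t _ = _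
    rw [catT_of_lt _ _ h]
    rfl

/-- one more step of length `≤ ε`. -/
theorem lin_step {α γ lam M ε C C' : ℝ} (hC : 0 ≤ C) (hC' : 0 ≤ C') (hε : 0 < ε) {T' : ℝ}
    (hshort : ∀ (T : ℝ) (P : A.ι → Op E) (f : ℝ → V → ℝ) (g : V → ℝ) (K : ℝ), 0 < T → T ≤ ε → 0 ≤ K →
      A.CompatL (Icc 0 T) P → A.AdmM (Icc 0 T) α γ lam M P → A.YM α (Icc 0 T) f K → A.C2aM α g K →
      ∃ u ut : ℝ → V → ℝ, A.C21M (Icc 0 T) u ut ∧ A.XM α (Icc 0 T) u ut (C * K) ∧
        (∀ x, u 0 x = g x) ∧ A.SolL (Icc 0 T) P u ut f)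
    (hlong : ∀ (T : ℝ) (P : A.ι → Op E) (f : ℝ → V → ℝ) (g : V → ℝ) (K : ℝ), 0 < T → T ≤ T' → 0 ≤ K →
      A.CompatL (Icc 0 T) P → A.AdmM (Icc 0 T) α γ lam M P → A.YM α (Icc 0 T) f K → A.C2aM α g K →
      ∃ u ut : ℝ → V → ℝ, A.C21M (Icc 0 T) u ut ∧ A.XM α (Icc 0 T) u ut (C' * K) ∧
        (∀ x, u 0 x = g x) ∧ A.SolL (Icc 0 T) P u ut f) :
    ∀ (T : ℝ) (P : A.ι → Op E) (f : ℝ → V → ℝ) (g : V → ℝ) (K : ℝ), 0 < T → T ≤ T' + ε → 0 ≤ K →
      A.CompatL (Icc 0 T) P → A.AdmM (Icc 0 T) α γ lam M P → A.YM α (Icc 0 T) f K → A.C2aM α g K →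
      ∃ u ut : ℝ → V → ℝ, A.C21M (Icc 0 T) u ut ∧
        A.XM α (Icc 0 T) u ut ((C' + C * (1 + C')) * K) ∧
        (∀ x, u 0 x = g x) ∧ A.SolL (Icc 0 T) P u ut f := by
  intro T P f g K hT hTT hK hcomp hadm hf hg
  have hCC : C * K ≤ (C' + C * (1 + C')) * K := by
    refine mul_le_mul_of_nonneg_right ?_ hK
    nlinarith [mul_nonneg hC hC']
  have hCC' : C' * K ≤ (C' + C * (1 + C')) * K := by
    refine mul_le_mul_of_nonneg_right ?_ hK
    nlinarith [mul_nonneg hC hC']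
  rcases le_or_gt T ε with hTε | hTε
  · obtain ⟨u, ut, h1, h2, h3, h4⟩ := hshort T P f g K hT hTε hK hcomp hadm hf hg
    exact ⟨u, ut, h1, fun i => (h2 i).mono hCC, h3, h4⟩
  obtain ⟨b, hb⟩ : ∃ b, b = T - ε := ⟨_, rfl⟩
  have hb0 : 0 < b := by linarith
  have hbT : b ≤ T := by linarith
  have hbT' : b ≤ T' := by linarith
  have hsub1 : Icc (0 : ℝ) b ⊆ Icc 0 T := Icc_subset_Icc le_rfl hbT
  obtain ⟨u₁, ut₁, a1, a2, a3, a4⟩ := hlong b P f g K hb0 hbT' hK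
    (fun i j t ht => hcomp i j t (hsub1 ht)) (fun i => (hadm i).subset hsub1 subset_rfl)
    (fun i => (hf i).subset hsub1 subset_rfl) hg
  have hbI : b ∈ Icc (0 : ℝ) b := ⟨hb0.le, le_rfl⟩
  have hsub2 : Icc (0 : ℝ) ε ⊆ {t | b + t ∈ Icc (0 : ℝ) T} := fun t ht =>
    ⟨by linarith [ht.1], by linarith [ht.2]⟩
  have hK2 : 0 ≤ (1 + C') * K := by positivity
  obtain ⟨v, vt, c1, c2, c3, c4⟩ := hshort ε (fun i => shiftT b (P i)) (shiftT b f) (u₁ b)
    ((1 + C') * K) hε le_rfl hK2 (fun i j t ht => hcomp i j (b + t) (hsub2 ht))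
    (fun i => ((hadm i).shift (t₀ := b)).subset hsub2 subset_rfl)
    (fun i => ((((hf i).shift (t₀ := b)).subset hsub2 subset_rfl)).mono (by nlinarith))
    (fun i => (XB.slice (a1 i) (a2 i) hbI).mono (by nlinarith))
  have hsub3 : Icc b T ⊆ {t | -b + t ∈ Icc (0 : ℝ) ε} := fun t ht =>
    ⟨by linarith [ht.1], by linarith [ht.2]⟩
  have d1 : ∀ i, C21 (Icc b T) (ball (0 : E) 3) (A.rep i (shiftT (-b) v))
      (A.rep i (shiftT (-b) vt)) := fun i => ((c1 i).shift (t₀ := -b)).subset hsub3 subset_rfl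
  have d2 : ∀ i, XB α (Icc b T) (ball (0 : E) 3) (A.rep i (shiftT (-b) v))
      (A.rep i (shiftT (-b) vt)) (C * ((1 + C') * K)) := fun i =>
    ((c2 i).shift (t₀ := -b)).subset hsub3 subset_rfl
  have e0 : ∀ x, shiftT (-b) v b x = u₁ b x := fun x => by
    show v (-b + b) x = _
    rw [neg_add_cancel, c3]
  have h0I : (0 : ℝ) ∈ Icc (0 : ℝ) ε := ⟨le_rfl, hε.le⟩
  have ejet : ∀ i z, jet (A.rep i v) 0 z = jet (A.rep i u₁) b z := by
    intro i z
    have : A.rep i v 0 = A.rep i u₁ b := by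
      funext y
      exact c3 _
    simp [jet, D1, D2, this]
  have e1 : ∀ i, ∀ z ∈ ball (0 : E) 3, A.rep i ut₁ b z = A.rep i (shiftT (-b) vt) b z := by
    intro i z hz
    have h1 := a4 i b hbI z hz
    have h2 := c4 i 0 h0I z hz
    simp only [Lop] at h1 h2
    rw [ejet] at h2
    have h3 : A.rep i (shiftT (-b) vt) b z = A.rep i vt 0 z := by
      show vt (-b + b) _ = vt 0 _
      rw [neg_add_cancel]
    have h4 : shiftT b (P i) 0 z = P i b z := by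
      show P i (b + 0) z = _
      rw [add_zero]
    have h5 : A.rep i (shiftT b f) 0 z = A.rep i f b z := by
      show f (b + 0) _ = f b _
      rw [add_zero]
    rw [h3]
    rw [h4, h5] at h2
    linarith
  refine ⟨catT b u₁ (shiftT (-b) v), catT b ut₁ (shiftT (-b) vt), fun i => ?_, fun i => ?_,
    fun x => ?_, fun i t ht z hz => ?_⟩
  · rw [A.rep_catT, A.rep_catT]
    exact C21.glueT hb0.le hbT isOpen_ball (a1 i) (d1 i) (fun z _ => (e0 _).symm) (e1 i)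
  · rw [A.rep_catT, A.rep_catT]
    refine XB.glueT ((a2 i).mono hCC') ((d2 i).mono ?_)
    have : 0 ≤ C' * K := mul_nonneg hC' hK
    nlinarith
  · rw [catT_of_le _ _ hb0.le]
    exact a3 x
  · rw [A.rep_catT, A.rep_catT]
    simp only [Lop]
    rcases le_or_gt t b with h | h
    · rw [jet_catT_of_le _ _ h, catT_of_le _ _ h]
      exact a4 i t ⟨ht.1, h⟩ z hz
    · rw [jet_catT_of_lt _ _ h, catT_of_lt _ _ h]
      have h2 := c4 i (-b + t) (hsub3 ⟨h.le, ht.2⟩) z hz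
      simp only [Lop] at h2
      have h4 : shiftT b (P i) (-b + t) z = P i t z := by
        show P i (b + (-b + t)) z = _
        rw [add_neg_cancel_left]
      have h5 : A.rep i (shiftT b f) (-b + t) z = A.rep i f t z := by
        show f (b + (-b + t)) _ = f t _
        rw [add_neg_cancel_left]
      rw [h4, h5] at h2
      exact h2

/-- **M5: the linear Cauchy problem on `[0,T]`**, constant uniform for `T ≤ Tm`. -/
theorem exists_lin_solve (α γ lam M Tm : ℝ) (hα : 0 < α) (hα1 : α < 1) (hγ : 0 < γ) (hlam : 0 < lam)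
    (hM : 0 ≤ M) (hTm : 0 < Tm) : ∃ C : ℝ, 0 ≤ C ∧
    ∀ (T : ℝ) (P : A.ι → Op E) (f : ℝ → V → ℝ) (g : V → ℝ) (K : ℝ), 0 < T → T ≤ Tm → 0 ≤ K →
      A.CompatL (Icc 0 T) P → A.AdmM (Icc 0 T) α γ lam M P → A.YM α (Icc 0 T) f K → A.C2aM α g K →
      ∃ u ut : ℝ → V → ℝ, A.C21M (Icc 0 T) u ut ∧ A.XM α (Icc 0 T) u ut (C * K) ∧
        (∀ x, u 0 x = g x) ∧ A.SolL (Icc 0 T) P u ut f := by
  obtain ⟨ε, C, hε, _, hC, hshort⟩ := A.exists_lin_short α γ lam M hα hα1 hγ hlam hM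
  have key : ∀ n : ℕ, ∃ C' : ℝ, 0 ≤ C' ∧
      ∀ (T : ℝ) (P : A.ι → Op E) (f : ℝ → V → ℝ) (g : V → ℝ) (K : ℝ), 0 < T → T ≤ n * ε → 0 ≤ K →
      A.CompatL (Icc 0 T) P → A.AdmM (Icc 0 T) α γ lam M P → A.YM α (Icc 0 T) f K → A.C2aM α g K →
      ∃ u ut : ℝ → V → ℝ, A.C21M (Icc 0 T) u ut ∧ A.XM α (Icc 0 T) u ut (C' * K) ∧
        (∀ x, u 0 x = g x) ∧ A.SolL (Icc 0 T) P u ut f := by
    intro n
    induction n with
    | zero =>
      refine ⟨0, le_rfl, fun T P f g K hT hT0 => ?_⟩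
      simp only [Nat.cast_zero, zero_mul] at hT0
      exact absurd hT (not_lt.mpr hT0)
    | succ n ih =>
      obtain ⟨C', hC', hlong⟩ := ih
      refine ⟨C' + C * (1 + C'), by positivity, ?_⟩
      have := A.lin_step hC hC' hε hshort hlong
      intro T P f g K hT hT0
      exact this T P f g K hT (by push_cast at hT0; linarith)
  obtain ⟨n, hn⟩ := exists_nat_gt (Tm / ε)
  obtain ⟨C', hC', h⟩ := key n
  refine ⟨C', hC', fun T P f g K hT hTm' => h T P f g K hT ?_⟩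
  have := (div_lt_iff₀ hε).mp hn
  linarith

/-- **M5: a priori estimate** for every bounded solution. -/
theorem exists_lin_apriori (α γ lam M Tm : ℝ) (hα : 0 < α) (hα1 : α < 1) (hγ : 0 < γ)
    (hlam : 0 < lam) (hM : 0 ≤ M) (hTm : 0 < Tm) : ∃ C : ℝ, 0 ≤ C ∧
    ∀ (T : ℝ) (P : A.ι → Op E) (f u ut : ℝ → V → ℝ) (K : ℝ), 0 < T → T ≤ Tm → 0 ≤ K →
      A.CompatL (Icc 0 T) P → A.AdmM (Icc 0 T) α γ lam M P → A.YM α (Icc 0 T) f K →
      A.C2aM α (u 0) K → A.C21M (Icc 0 T) u ut →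
      (∃ K', ∀ t ∈ Icc 0 T, ∀ x ∈ A.X, |u t x| ≤ K') → A.SolL (Icc 0 T) P u ut f →
      A.XM α (Icc 0 T) u ut (C * K) := by
  obtain ⟨C, hC, h⟩ := A.exists_lin_solve α γ lam M Tm hα hα1 hγ hlam hM hTm
  refine ⟨C, hC, fun T P f u ut K hT hTm' hK hcomp hadm hf hg hu hb hsol => ?_⟩
  obtain ⟨v, vt, b1, b2, b3, b4⟩ := h T P f (u 0) K hT hTm' hK hcomp hadm hf hg
  have hbv : ∃ K', ∀ t ∈ Icc 0 T, ∀ x ∈ A.X, |v t x| ≤ K' := by
    refine ⟨C * K, fun t ht x hx => ?_⟩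
    obtain ⟨i, z, hz, rfl⟩ := A.cover x hx
    exact (b2 i).b0 t ht z (ball_subset_ball (by norm_num) hz)
  have huv := A.unique (fun i => (hadm i).bdd hlam.le) hu b1 hb hbv
    (fun i t ht z hz => (hsol i t ht z hz).trans (b4 i t ht z hz).symm) (fun x _ => (b3 x).symm)
  intro i
  have h1 : ∀ t ∈ Icc 0 T, ∀ z ∈ ball (0 : E) 3, A.rep i u t z = A.rep i v t z :=
    fun t ht z hz => huv t ht _ (A.maps i hz)
  exact (b2 i).congr isOpen_ball h1 (strip_unique_dt hT (hu i) (b1 i) h1)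

end UAtlas

end Claimed.Agent.R316.B8M
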