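import Claimed.Agent.R316.B8M.Sm

/-!
# B8M-NL (M6, chart level): estimates for a smooth nonlinearity `F(t, z, J)` on the tube `Icc 0 T₀ × ball 0 3 × ball 0 δ`

TWO LEAVES (proofs only): B8M-NL-A = section `Partial`, `exists_adm_lin0`, `exists_nl_zero`;  B8M-NL-B = `exists_nl_contract`.

Notation: `Tb = Icc 0 T₀ ×ˢ ball 0 3 ×ˢ ball 0 δ ⊆ ℝ × E × Jet E` (convex, `= Icc 0 T₀ ×ˢ U`, `U = ball 0 3 ×ˢ ball 0 δ` open), `hF : SmB Tb (fun q => F q.1 q.2.1 q.2.2) CF`,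
`G t z J = fderiv ℝ (F t z) J` (the linearisation), `Ψ t z J = F t z J - G t z 0 J`.

Recipes.
* `Partial`: `fderiv ℝ (F t z) J = (fderiv ℝ (fun p : E × Jet E => F t p.1 p.2) (z, J)) ∘L inr` and `SmB.fderiv_snd` (`W = E × Jet E`) + `SmB.clm_comp` (restriction to `inr`, norm `≤ 1`).
  The same for the derivative in `z` (`inl`).  Lipschitz bounds: `SmB.lip` on the convex tube.
* `exists_adm_lin0`: `P t z = G t z 0`; `q ↦ G` is `SmB Tb _ (CF (·+1))`; compose with the affine map `(t,z) ↦ (t,z,0)`; `coef`: sup `≤ CF 1`, Lipschitz in `z` with constant `CF 2`, `B8.HolB.of_lip`;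
  `time` (`γ = 1`): `‖G t z 0 - G s z 0‖ ≤ CF 2 |t - s|`, `‖topJ B‖ = ‖B‖`.  `M = 2 CF 1 + CF 2`.
* `exists_nl_zero`: `z ↦ F 0 z 0` is `SmB (ball 0 3) _ CF` (slice + affine composition), `SmB.C2aB`.  `|F t z 0 - F 0 z 0| ≤ CF 1 t`;
  `|(F t x 0 - F 0 x 0) - (F t y 0 - F 0 y 0)| ≤ CF 2 t ‖x - y‖` (mean value inequality in `z` for `z ↦ F t z 0 - F 0 z 0`, whose derivative is `≤ CF 2 t` by Lipschitz continuity in time of the `z`-derivative),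
  and `‖x - y‖ ≤ 6 ‖x - y‖^α` on `ball 0 3`.
* `exists_nl_contract`.  Fix `t`.  `D_J Ψ t z J = G t z J - G t z 0`, `‖·‖ ≤ CF 2 ‖J‖`.  SUP: mean value inequality on the convex set `closedBall 0 ρ`: `|Ψ(J₁) - Ψ(J₂)| ≤ CF 2 ρ ‖J₁ - J₂‖`.
  HÖLDER: for `x, y ∈ ball 0 3`, `Δ = J₁ - J₂`, `J_σ = J₂ + σ Δ`, `h σ = Ψ t x (J_σ x) - Ψ t y (J_σ y)`; the quantity is `h 1 - h 0`, and
  `h' σ = D_JΨ(x, J_σ x)(Δ x - Δ y) + [D_JΨ(x, J_σ x) - D_JΨ(y, J_σ y)] (Δ y)`.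
  First term `≤ CF 2 ρ D ‖x-y‖^α`.  Second: `[G(x,J) - G(x,0)] - [G(y,J') - G(y,0)] = [G(x,J) - G(x,J')] + {[G(x,J') - G(x,0)] - [G(y,J') - G(y,0)]}`; `‖G(x,J) - G(x,J')‖ ≤ CF 2 ‖J - J'‖ ≤ CF 2 ρ ‖x-y‖^α`;
  the curly bracket is `k 1 - k 0` for `k s = G(x, s J') - G(y, s J')`, `‖k' s‖ = ‖[D_J G(x, sJ') - D_J G(y, sJ')] J'‖ ≤ CF 3 ‖x - y‖ ρ`.
  Total `[·]_α ≤ (2 CF 2 + 6 CF 3) ρ D`.  CONTINUITY on `I ×ˢ ball 0 3`: composition of continuous maps.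
-/

set_option autoImplicit false
set_option maxSynthPendingDepth 3
set_option linter.unusedSectionVars false

open scoped Topology ContDiff
open Set Filter Metric

namespace Claimed.Agent.R316.B8M

open Claimed.Agent.R316.B8

variable {E : Type} [NormedAddCommGroup E] [NormedSpace ℝ E] [FiniteDimensional ℝ E]

/-- the tube. -/
def Tube (E : Type) [NormedAddCommGroup E] [NormedSpace ℝ E] (I : Set ℝ) (R δ : ℝ) :
    Set (ℝ × E × Jet E) := I ×ˢ ball (0 : E) R ×ˢ ball (0 : Jet E) δ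

/-- `F` is smooth with bounded derivatives on the tube. -/
def SmF {G : Type*} [NormedAddCommGroup G] [NormedSpace ℝ G] (I : Set ℝ) (R δ : ℝ)
    (F : ℝ → E → Jet E → G) (C : ℕ → ℝ) : Prop :=
  SmB (Tube E I R δ) (fun q : ℝ × E × Jet E => F q.1 q.2.1 q.2.2) C

section Partial

variable {G : Type*} [NormedAddCommGroup G] [NormedSpace ℝ G]
variable {I : Set ℝ} {R δ : ℝ} {F : ℝ → E → Jet E → G} {CF : ℕ → ℝ}

theorem uniqueDiffOn_tube (hI : UniqueDiffOn ℝ I) (R δ : ℝ) : UniqueDiffOn ℝ (Tube E I R δ) :=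
  hI.prod (isOpen_ball.prod isOpen_ball).uniqueDiffOn

theorem convex_tube (hI : Convex ℝ I) (R δ : ℝ) : Convex ℝ (Tube E I R δ) :=
  hI.prod ((convex_ball _ _).prod (convex_ball _ _))

theorem SmF.norm_le (hF : SmF I R δ F CF) {t : ℝ} (ht : t ∈ I) {z : E} (hz : z ∈ ball (0 : E) R)
    {J : Jet E} (hJ : J ∈ ball (0 : Jet E) δ) : ‖F t z J‖ ≤ CF 0 :=
  SmB.norm_le hF (q := (t, z, J)) ⟨ht, hz, hJ⟩

theorem SmF.nonneg (hF : SmF I R δ F CF) {t : ℝ} (ht : t ∈ I) {z : E} (hz : z ∈ ball (0 : E) R)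
    {J : Jet E} (hJ : J ∈ ball (0 : Jet E) δ) (k : ℕ) : 0 ≤ CF k :=
  SmB.nonneg hF (q := (t, z, J)) ⟨ht, hz, hJ⟩ k

/-- joint differentiability in `(z, J)`. -/
theorem SmF.differentiableAt_zJ (hF : SmF I R δ F CF) {t : ℝ} (ht : t ∈ I) {z : E}
    (hz : z ∈ ball (0 : E) R) {J : Jet E} (hJ : J ∈ ball (0 : Jet E) δ) :
    DifferentiableAt ℝ (fun p : E × Jet E => F t p.1 p.2) (z, J) :=
  SmB.differentiableAt_snd (isOpen_ball.prod isOpen_ball) hF ht (w := (z, J)) ⟨hz, hJ⟩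

theorem SmF.hasFDerivAt_J (hF : SmF I R δ F CF) {t : ℝ} (ht : t ∈ I) {z : E}
    (hz : z ∈ ball (0 : E) R) {J : Jet E} (hJ : J ∈ ball (0 : Jet E) δ) :
    HasFDerivAt (F t z) ((fderiv ℝ (fun p : E × Jet E => F t p.1 p.2) (z, J)) ∘L
      ContinuousLinearMap.inr ℝ E (Jet E)) J := by
  have h1 := (hF.differentiableAt_zJ ht hz hJ).hasFDerivAt
  exact HasFDerivAt.comp (g := fun p : E × Jet E => F t p.1 p.2) (f := fun J' : Jet E => (z, J')) J h1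
    (hasFDerivAt_prodMk_right z J)

theorem SmF.hasFDerivAt_z (hF : SmF I R δ F CF) {t : ℝ} (ht : t ∈ I) {z : E}
    (hz : z ∈ ball (0 : E) R) {J : Jet E} (hJ : J ∈ ball (0 : Jet E) δ) :
    HasFDerivAt (fun z' => F t z' J) ((fderiv ℝ (fun p : E × Jet E => F t p.1 p.2) (z, J)) ∘L
      ContinuousLinearMap.inl ℝ E (Jet E)) z := by
  have h1 := (hF.differentiableAt_zJ ht hz hJ).hasFDerivAt
  exact HasFDerivAt.comp (g := fun p : E × Jet E => F t p.1 p.2) (f := fun z' : E => (z', J)) z h1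
    (hasFDerivAt_prodMk_left z J)

theorem SmF.differentiableAt_J (hF : SmF I R δ F CF) {t : ℝ} (ht : t ∈ I) {z : E}
    (hz : z ∈ ball (0 : E) R) {J : Jet E} (hJ : J ∈ ball (0 : Jet E) δ) :
    DifferentiableAt ℝ (F t z) J := (hF.hasFDerivAt_J ht hz hJ).differentiableAt

theorem SmF.differentiableAt_z (hF : SmF I R δ F CF) {t : ℝ} (ht : t ∈ I) {z : E}
    (hz : z ∈ ball (0 : E) R) {J : Jet E} (hJ : J ∈ ball (0 : Jet E) δ) :
    DifferentiableAt ℝ (fun z' => F t z' J) z := (hF.hasFDerivAt_z ht hz hJ).differentiableAt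

/-- the derivative in `(z, J)` is again smooth with bounded derivatives. -/
theorem SmF.fderiv_zJ (hI : UniqueDiffOn ℝ I) (hF : SmF I R δ F CF) :
    SmF I R δ (fun t z J => fderiv ℝ (fun p : E × Jet E => F t p.1 p.2) (z, J))
      (fun k => CF (k + 1)) :=
  SmB.fderiv_snd hI (isOpen_ball.prod isOpen_ball) hF

/-- precomposition with a fixed contraction is a contraction. -/
theorem norm_compL_flip_le_one {W₁ W₂ G' : Type*} [NormedAddCommGroup W₁] [NormedSpace ℝ W₁]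
    [NormedAddCommGroup W₂] [NormedSpace ℝ W₂] [NormedAddCommGroup G'] [NormedSpace ℝ G']
    (L : W₁ →L[ℝ] W₂) (hL : ‖L‖ ≤ 1) : ‖(ContinuousLinearMap.compL ℝ W₁ W₂ G').flip L‖ ≤ 1 := by
  refine ContinuousLinearMap.opNorm_le_bound _ zero_le_one (fun A => ?_)
  rw [one_mul]
  change ‖A ∘L L‖ ≤ ‖A‖
  calc ‖A ∘L L‖ ≤ ‖A‖ * ‖L‖ := ContinuousLinearMap.opNorm_comp_le _ _
    _ ≤ ‖A‖ * 1 := mul_le_mul_of_nonneg_left hL (norm_nonneg _)
    _ = ‖A‖ := mul_one _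

/-- the derivative in `J` is again smooth with bounded derivatives. -/
theorem SmF.fderiv_J (hI : UniqueDiffOn ℝ I) (hF : SmF I R δ F CF) :
    SmF I R δ (fun t z J => fderiv ℝ (F t z) J) (fun k => CF (k + 1)) := by
  have h1 := SmB.clm_comp_le_one (hF.fderiv_zJ hI) (uniqueDiffOn_tube hI R δ)
    ((ContinuousLinearMap.compL ℝ (Jet E) (E × Jet E) G).flip (ContinuousLinearMap.inr ℝ E (Jet E)))
    (norm_compL_flip_le_one _ (ContinuousLinearMap.norm_inr_le_one ℝ E (Jet E)))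
  refine SmB.congr h1 (fun q hq => ?_)
  exact (hF.hasFDerivAt_J hq.1 hq.2.1 hq.2.2).fderiv

/-- the derivative in `z` is again smooth with bounded derivatives. -/
theorem SmF.fderiv_z (hI : UniqueDiffOn ℝ I) (hF : SmF I R δ F CF) :
    SmF I R δ (fun t z J => fderiv ℝ (fun z' => F t z' J) z) (fun k => CF (k + 1)) := by
  have h1 := SmB.clm_comp_le_one (hF.fderiv_zJ hI) (uniqueDiffOn_tube hI R δ)
    ((ContinuousLinearMap.compL ℝ E (E × Jet E) G).flip (ContinuousLinearMap.inl ℝ E (Jet E)))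
    (norm_compL_flip_le_one _ (ContinuousLinearMap.norm_inl_le_one ℝ E (Jet E)))
  refine SmB.congr h1 (fun q hq => ?_)
  exact (hF.hasFDerivAt_z hq.1 hq.2.1 hq.2.2).fderiv

theorem SmF.fderiv_zJ_apply (hF : SmF I R δ F CF) {t : ℝ} (ht : t ∈ I) {z : E}
    (hz : z ∈ ball (0 : E) R) {J : Jet E} (hJ : J ∈ ball (0 : Jet E) δ) (e : E) (J' : Jet E) :
    fderiv ℝ (fun p : E × Jet E => F t p.1 p.2) (z, J) (e, J')
      = fderiv ℝ (fun z' => F t z' J) z e + fderiv ℝ (F t z) J J' := by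
  rw [(hF.hasFDerivAt_z ht hz hJ).fderiv, (hF.hasFDerivAt_J ht hz hJ).fderiv]
  simp only [ContinuousLinearMap.comp_apply, ContinuousLinearMap.inl_apply,
    ContinuousLinearMap.inr_apply]
  rw [← map_add]
  simp

/-- Lipschitz continuity on the tube (`I` convex). -/
theorem SmF.lip (hI : Convex ℝ I) (hF : SmF I R δ F CF) {t s : ℝ} (ht : t ∈ I) (hs : s ∈ I)
    {z z' : E} (hz : z ∈ ball (0 : E) R) (hz' : z' ∈ ball (0 : E) R) {J J' : Jet E}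
    (hJ : J ∈ ball (0 : Jet E) δ) (hJ' : J' ∈ ball (0 : Jet E) δ) :
    ‖F t z J - F s z' J'‖ ≤ CF 1 * max |t - s| (max ‖z - z'‖ ‖J - J'‖) := by
  have := SmB.lip hF (convex_tube hI R δ) (p := (t, z, J)) (q := (s, z', J')) ⟨ht, hz, hJ⟩
    ⟨hs, hz', hJ'⟩
  simpa only [Prod.mk_sub_mk, Prod.norm_mk, Real.norm_eq_abs] using this

theorem SmF.continuousOn (hF : SmF I R δ F CF) :
    ContinuousOn (fun q : ℝ × E × Jet E => F q.1 q.2.1 q.2.2) (Tube E I R δ) :=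
  hF.smooth.continuousOn

/-- restriction to a smaller tube. -/
theorem SmF.subset (hI : UniqueDiffOn ℝ I) (hF : SmF I R δ F CF) {I' : Set ℝ}
    (hI' : UniqueDiffOn ℝ I') (hII : I' ⊆ I) {R' δ' : ℝ} (hR : R' ≤ R) (hδ : δ' ≤ δ) :
    SmF I' R' δ' F CF :=
  SmB.subset hF (uniqueDiffOn_tube hI R δ) (uniqueDiffOn_tube hI' R' δ')
    (Set.prod_mono hII (Set.prod_mono (ball_subset_ball hR) (ball_subset_ball hδ)))

end Partial

/-- composition on the right with a linear contraction. -/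
theorem SmB.comp_clm_le_one {W W' G : Type*} [NormedAddCommGroup W] [NormedSpace ℝ W]
    [NormedAddCommGroup W'] [NormedSpace ℝ W'] [NormedAddCommGroup G] [NormedSpace ℝ G]
    {Q : Set W} {g : W → G} {C : ℕ → ℝ} (h : SmB Q g C) (hQ : UniqueDiffOn ℝ Q) (L : W' →L[ℝ] W)
    (hL : ‖L‖ ≤ 1) (hQ' : UniqueDiffOn ℝ (L ⁻¹' Q)) : SmB (L ⁻¹' Q) (fun q => g (L q)) C := by
  refine ⟨h.smooth.comp L.contDiff.contDiffOn (fun q hq => hq), fun k q hq => ?_⟩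
  have h2 := L.iteratedFDerivWithin_comp_right h.smooth hQ hQ' (x := q) hq (i := k)
    (by exact_mod_cast le_top)
  have e : (fun q => g (L q)) = g ∘ L := rfl
  rw [e, h2]
  refine (ContinuousMultilinearMap.norm_compContinuousLinearMap_le _ _).trans ?_
  have h3 : ‖iteratedFDerivWithin ℝ k g Q (L q)‖ ≤ C k := h.bdd k _ hq
  have h4 : ∏ _i : Fin k, ‖L‖ ≤ 1 :=
    Finset.prod_le_one (fun _ _ => norm_nonneg _) (fun _ _ => hL)
  calc _ ≤ C k * 1 := mul_le_mul h3 h4 (Finset.prod_nonneg (fun _ _ => norm_nonneg _))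
        ((norm_nonneg _).trans h3)
    _ = C k := mul_one _

variable {T₀ δ : ℝ} {F : ℝ → E → Jet E → ℝ} {CF : ℕ → ℝ}

/-- the linearisation at the zero jet is an admissible operator (`γ = 1`). -/
theorem exists_adm_lin0 (α lam : ℝ) (CF : ℕ → ℝ) (hα : 0 < α) (hα1 : α ≤ 1) : ∃ M : ℝ, 0 ≤ M ∧
    ∀ (T₀ δ : ℝ) (F : ℝ → E → Jet E → ℝ), 0 < T₀ → 0 < δ → SmF (Icc 0 T₀) 3 δ F CF →
      (∀ t ∈ Icc 0 T₀, ∀ z ∈ ball (0 : E) 3, ∀ ξ : E →L[ℝ] ℝ,
        lam * ‖ξ‖ ^ 2 ≤ fderiv ℝ (F t z) 0 (topJ (sqB ξ))) →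
      Adm (fun t z => fderiv ℝ (F t z) 0) α 1 lam M (Icc 0 T₀) (ball (0 : E) 3) := by
  refine ⟨2 * |CF 1| + |CF 2|, by positivity, ?_⟩
  intro T₀ δ F hT hδ hF hell
  have hI : UniqueDiffOn ℝ (Icc (0 : ℝ) T₀) := uniqueDiffOn_Icc hT
  have hIc : Convex ℝ (Icc (0 : ℝ) T₀) := convex_Icc _ _
  have hG := hF.fderiv_J hI
  have h0 : (0 : Jet E) ∈ ball (0 : Jet E) δ := mem_ball_self hδ
  have hn : ∀ k, 0 ≤ CF k := fun k =>
    hF.nonneg (t := 0) ⟨le_rfl, hT.le⟩ (z := 0) (mem_ball_self (by norm_num)) h0 k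
  rw [abs_of_nonneg (hn 1), abs_of_nonneg (hn 2)]
  refine ⟨hell, ⟨?_, fun t ht x hx => ?_, fun t ht => ?_⟩, fun t ht s hs x hx B => ?_⟩
  · refine hG.continuousOn.comp (f := fun q : ℝ × E => ((q.1, q.2, 0) : ℝ × E × Jet E)) ?_
      (fun q hq => ⟨hq.1, hq.2, h0⟩)
    fun_prop
  · have := hG.norm_le ht hx h0
    have h2 := hn 1
    have h3 := hn 2
    linarith
  · refine HolB.of_lip hα hα1 (fun x hx => hG.norm_le ht hx h0) (fun x hx y hy => ?_) (hn 2)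
    have := hG.lip hIc ht ht hx hy h0 h0
    simpa using this
  · have h1 := hG.lip hIc ht hs hx hx h0 h0
    simp only [sub_self, norm_zero, max_self] at h1
    rw [max_eq_left (abs_nonneg _)] at h1
    rw [← _root_.sub_apply, Real.rpow_one, ← Real.norm_eq_abs]
    refine (ContinuousLinearMap.le_opNorm _ _).trans ?_
    rw [norm_topJ]
    refine mul_le_mul_of_nonneg_right (h1.trans ?_) (norm_nonneg _)
    refine mul_le_mul_of_nonneg_right ?_ (abs_nonneg _)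
    have h2 := hn 1
    have h3 := hn 2
    linarith

/-- `‖x - y‖ ≤ 6 ‖x - y‖ ^ α` on `ball 0 3`. -/
theorem norm_sub_le_six_rpow {α : ℝ} (hα : 0 < α) (hα1 : α ≤ 1) {x y : E} (hx : x ∈ ball (0 : E) 3)
    (hy : y ∈ ball (0 : E) 3) : ‖x - y‖ ≤ 6 * ‖x - y‖ ^ α := by
  have hd : 0 ≤ ‖x - y‖ := norm_nonneg _
  have h6 : ‖x - y‖ ≤ 6 := by
    rw [mem_ball_zero_iff] at hx hy
    have := norm_sub_le x y
    linarith
  rcases le_total ‖x - y‖ 1 with h | h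
  · have h1 : ‖x - y‖ ≤ ‖x - y‖ ^ α := by
      have := Real.rpow_le_rpow_of_exponent_ge' hd h hα.le hα1
      rwa [Real.rpow_one] at this
    have h2 : 0 ≤ ‖x - y‖ ^ α := Real.rpow_nonneg hd _
    linarith
  · have h1 : 1 ≤ ‖x - y‖ ^ α := Real.one_le_rpow h hα.le
    linarith

/-- the zero jet: `F(0,·,0) ∈ C^{2+α}` and `F(t,·,0) - F(0,·,0) = O(t)` in `Y`. -/
theorem exists_nl_zero (α : ℝ) (CF : ℕ → ℝ) (hα : 0 < α) (hα1 : α ≤ 1) : ∃ C : ℝ, 0 ≤ C ∧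
    ∀ (T₀ δ : ℝ) (F : ℝ → E → Jet E → ℝ), 0 < T₀ → 0 < δ → SmF (Icc 0 T₀) 3 δ F CF →
      C2aB α (ball (0 : E) 3) (fun z => F 0 z 0) C ∧
      ∀ T, 0 ≤ T → T ≤ T₀ →
        YB α (Icc 0 T) (ball (0 : E) 3) (fun t z => F t z 0 - F 0 z 0) (C * T) := by
  refine ⟨|CF 0| + |CF 1| + 6 * |CF 2| + |CF 3|, by positivity, ?_⟩
  intro T₀ δ F hT hδ hF
  have hI : UniqueDiffOn ℝ (Icc (0 : ℝ) T₀) := uniqueDiffOn_Icc hT
  have hIc : Convex ℝ (Icc (0 : ℝ) T₀) := convex_Icc _ _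
  have hZ := hF.fderiv_z hI
  have h0 : (0 : Jet E) ∈ ball (0 : Jet E) δ := mem_ball_self hδ
  have ht0 : (0 : ℝ) ∈ Icc (0 : ℝ) T₀ := ⟨le_rfl, hT.le⟩
  have hn : ∀ k, 0 ≤ CF k := fun k =>
    hF.nonneg (t := 0) ht0 (z := 0) (mem_ball_self (by norm_num)) h0 k
  rw [abs_of_nonneg (hn 0), abs_of_nonneg (hn 1), abs_of_nonneg (hn 2), abs_of_nonneg (hn 3)]
  have n0 := hn 0
  have n1 := hn 1
  have n2 := hn 2
  have n3 := hn 3
  constructor
  · have hU : IsOpen (ball (0 : E) 3 ×ˢ ball (0 : Jet E) δ) := isOpen_ball.prod isOpen_ball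
    have h1 : SmB (ball (0 : E) 3 ×ˢ ball (0 : Jet E) δ) (fun w : E × Jet E => F 0 w.1 w.2) CF :=
      SmB.slice hI hU hF ht0
    have hpre : (ContinuousLinearMap.inl ℝ E (Jet E)) ⁻¹' (ball (0 : E) 3 ×ˢ ball (0 : Jet E) δ)
        = ball (0 : E) 3 := by
      ext z
      simp [hδ]
    have h2 := h1.comp_clm_le_one hU.uniqueDiffOn (ContinuousLinearMap.inl ℝ E (Jet E))
      (ContinuousLinearMap.norm_inl_le_one ℝ E (Jet E)) (by rw [hpre]; exact isOpen_ball.uniqueDiffOn)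
    rw [hpre] at h2
    have h3 : SmB (ball (0 : E) 3) (fun z => F 0 z 0) CF := h2
    exact (h3.C2aB isOpen_ball (convex_ball _ _) hα hα1).mono (by linarith)
  · intro T hT0 hTT
    have hsub : Icc (0 : ℝ) T ⊆ Icc (0 : ℝ) T₀ := Icc_subset_Icc le_rfl hTT
    refine ⟨?_, fun t ht x hx => ?_, fun t ht x hx y hy => ?_⟩
    · refine ContinuousOn.sub ?_ ?_
      · refine hF.continuousOn.comp (f := fun q : ℝ × E => ((q.1, q.2, 0) : ℝ × E × Jet E)) ?_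
          (fun q hq => ⟨hsub hq.1, hq.2, h0⟩)
        fun_prop
      · refine hF.continuousOn.comp (f := fun q : ℝ × E => ((0, q.2, 0) : ℝ × E × Jet E)) ?_
          (fun q hq => ⟨ht0, hq.2, h0⟩)
        fun_prop
    · have h1 := hF.lip hIc (hsub ht) ht0 hx hx h0 h0
      simp only [sub_self, norm_zero, max_self, sub_zero] at h1
      rw [max_eq_left (abs_nonneg _), abs_of_nonneg ht.1] at h1
      refine h1.trans ?_
      calc CF 1 * t ≤ CF 1 * T := mul_le_mul_of_nonneg_left ht.2 n1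
        _ ≤ (CF 0 + CF 1 + 6 * CF 2 + CF 3) * T := mul_le_mul_of_nonneg_right (by linarith) hT0
    · -- mean value inequality in `z`
      have hd : ∀ z ∈ ball (0 : E) 3, HasFDerivWithinAt (fun z' => F t z' 0 - F 0 z' 0)
          (fderiv ℝ (fun z' => F t z' 0) z - fderiv ℝ (fun z' => F 0 z' 0) z) (ball (0 : E) 3) z := by
        intro z hz
        exact ((hF.differentiableAt_z (hsub ht) hz h0).hasFDerivAt.sub
          (hF.differentiableAt_z ht0 hz h0).hasFDerivAt).hasFDerivWithinAt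
      have hb : ∀ z ∈ ball (0 : E) 3,
          ‖fderiv ℝ (fun z' => F t z' 0) z - fderiv ℝ (fun z' => F 0 z' 0) z‖ ≤ CF 2 * T := by
        intro z hz
        have h1 := hZ.lip hIc (hsub ht) ht0 hz hz h0 h0
        simp only [sub_self, norm_zero, max_self, sub_zero] at h1
        rw [max_eq_left (abs_nonneg _), abs_of_nonneg ht.1] at h1
        exact h1.trans (mul_le_mul_of_nonneg_left ht.2 n2)
      have h2 := (convex_ball (0 : E) 3).norm_image_sub_le_of_norm_hasFDerivWithin_le hd hb hy hx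
      refine h2.trans ?_
      have h3 := norm_sub_le_six_rpow hα hα1 hx hy
      have h4 : 0 ≤ ‖x - y‖ ^ α := Real.rpow_nonneg (norm_nonneg _) _
      calc CF 2 * T * ‖x - y‖ ≤ CF 2 * T * (6 * ‖x - y‖ ^ α) :=
            mul_le_mul_of_nonneg_left h3 (mul_nonneg n2 hT0)
        _ = (6 * CF 2) * T * ‖x - y‖ ^ α := by ring
        _ ≤ (CF 0 + CF 1 + 6 * CF 2 + CF 3) * T * ‖x - y‖ ^ α := by
            refine mul_le_mul_of_nonneg_right (mul_le_mul_of_nonneg_right (by linarith) hT0) h4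

/-- **the quadratic estimate**: `Ψ(J) = F(J) - D_J F(0) J` is a contraction with constant `C ρ` on jets of `Y`-norm `≤ ρ`. -/
theorem exists_nl_contract (α : ℝ) (CF : ℕ → ℝ) (hα : 0 < α) (hα1 : α ≤ 1) : ∃ C : ℝ, 0 ≤ C ∧
    ∀ (T₀ δ ρ D : ℝ) (F : ℝ → E → Jet E → ℝ) (I : Set ℝ) (J₁ J₂ : ℝ → E → Jet E), 0 < T₀ → 0 < ρ →
      ρ < δ → 0 ≤ D → I ⊆ Icc 0 T₀ → SmF (Icc 0 T₀) 3 δ F CF →
      YB α I (ball (0 : E) 3) J₁ ρ → YB α I (ball (0 : E) 3) J₂ ρ →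
      YB α I (ball (0 : E) 3) (fun t z => J₁ t z - J₂ t z) D →
      YB α I (ball (0 : E) 3)
        (fun t z => (F t z (J₁ t z) - fderiv ℝ (F t z) 0 (J₁ t z))
          - (F t z (J₂ t z) - fderiv ℝ (F t z) 0 (J₂ t z))) (C * ρ * D) := by
  refine ⟨2 * |CF 2| + 6 * |CF 3|, by positivity, ?_⟩
  intro T₀ δ ρ D F I J₁ J₂ hT hρ hρδ hD hII hF hJ₁ hJ₂ hΔ
  have hI : UniqueDiffOn ℝ (Icc (0 : ℝ) T₀) := uniqueDiffOn_Icc hT
  have hIc : Convex ℝ (Icc (0 : ℝ) T₀) := convex_Icc _ _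
  have hG := hF.fderiv_J hI
  have hH := hG.fderiv_J hI
  have hδ : 0 < δ := hρ.trans hρδ
  have h0 : (0 : Jet E) ∈ ball (0 : Jet E) δ := mem_ball_self hδ
  have ht0 : (0 : ℝ) ∈ Icc (0 : ℝ) T₀ := ⟨le_rfl, hT.le⟩
  have hn : ∀ k, 0 ≤ CF k := fun k =>
    hF.nonneg (t := 0) ht0 (z := 0) (mem_ball_self (by norm_num)) h0 k
  rw [abs_of_nonneg (hn 2), abs_of_nonneg (hn 3)]
  have n2 := hn 2
  have n3 := hn 3
  have hcb : closedBall (0 : Jet E) ρ ⊆ ball (0 : Jet E) δ := closedBall_subset_ball hρδ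
  have hm₁ : ∀ t ∈ I, ∀ z ∈ ball (0 : E) 3, J₁ t z ∈ closedBall (0 : Jet E) ρ := fun t ht z hz => by
    rw [mem_closedBall_zero_iff]; exact hJ₁.sup t ht z hz
  have hm₂ : ∀ t ∈ I, ∀ z ∈ ball (0 : E) 3, J₂ t z ∈ closedBall (0 : Jet E) ρ := fun t ht z hz => by
    rw [mem_closedBall_zero_iff]; exact hJ₂.sup t ht z hz
  -- the derivative of `Ψ`
  have hΨ : ∀ t ∈ Icc (0 : ℝ) T₀, ∀ z ∈ ball (0 : E) 3, ∀ J ∈ ball (0 : Jet E) δ,
      HasFDerivAt (fun J' => F t z J' - fderiv ℝ (F t z) 0 J')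
        (fderiv ℝ (F t z) J - fderiv ℝ (F t z) 0) J := fun t ht z hz J hJ =>
    (hF.differentiableAt_J ht hz hJ).hasFDerivAt.sub (fderiv ℝ (F t z) 0).hasFDerivAt
  have hΨn : ∀ t ∈ Icc (0 : ℝ) T₀, ∀ z ∈ ball (0 : E) 3, ∀ J ∈ closedBall (0 : Jet E) ρ,
      ‖fderiv ℝ (F t z) J - fderiv ℝ (F t z) 0‖ ≤ CF 2 * ρ := by
    intro t ht z hz J hJ
    have h1 := hG.lip hIc ht ht hz hz (hcb hJ) h0
    simp only [sub_self, norm_zero, abs_zero, sub_zero] at h1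
    rw [max_eq_right (norm_nonneg _), max_eq_right (norm_nonneg _)] at h1
    exact h1.trans (mul_le_mul_of_nonneg_left (mem_closedBall_zero_iff.1 hJ) n2)
  have hΨd : ∀ t ∈ Icc (0 : ℝ) T₀, ∀ x ∈ ball (0 : E) 3, ∀ y ∈ ball (0 : E) 3,
      ∀ J ∈ closedBall (0 : Jet E) ρ, ∀ J' ∈ closedBall (0 : Jet E) ρ,
      ‖(fderiv ℝ (F t x) J - fderiv ℝ (F t x) 0) - (fderiv ℝ (F t y) J' - fderiv ℝ (F t y) 0)‖
        ≤ CF 2 * ‖J - J'‖ + CF 3 * ‖x - y‖ * ρ := by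
    intro t ht x hx y hy J hJ J' hJ'
    have h1 := hG.lip hIc ht ht hx hx (hcb hJ) (hcb hJ')
    simp only [sub_self, norm_zero, abs_zero] at h1
    rw [max_eq_right (norm_nonneg _), max_eq_right (norm_nonneg _)] at h1
    have hd : ∀ K ∈ ball (0 : Jet E) δ, HasFDerivWithinAt
        (fun K' => fderiv ℝ (F t x) K' - fderiv ℝ (F t y) K')
        (fderiv ℝ (fun K' => fderiv ℝ (F t x) K') K - fderiv ℝ (fun K' => fderiv ℝ (F t y) K') K)
        (ball (0 : Jet E) δ) K := fun K hK =>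
      ((hG.differentiableAt_J ht hx hK).hasFDerivAt.sub
        (hG.differentiableAt_J ht hy hK).hasFDerivAt).hasFDerivWithinAt
    have hb : ∀ K ∈ ball (0 : Jet E) δ,
        ‖fderiv ℝ (fun K' => fderiv ℝ (F t x) K') K - fderiv ℝ (fun K' => fderiv ℝ (F t y) K') K‖
          ≤ CF 3 * ‖x - y‖ := by
      intro K hK
      have h2 := hH.lip hIc ht ht hx hy hK hK
      simp only [sub_self, norm_zero, abs_zero] at h2
      rw [max_eq_left (norm_nonneg _), max_eq_right (norm_nonneg _)] at h2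
      exact h2
    have h3 := (convex_ball (0 : Jet E) δ).norm_image_sub_le_of_norm_hasFDerivWithin_le hd hb h0
      (hcb hJ')
    rw [sub_zero] at h3
    have h4 : CF 3 * ‖x - y‖ * ‖J'‖ ≤ CF 3 * ‖x - y‖ * ρ :=
      mul_le_mul_of_nonneg_left (mem_closedBall_zero_iff.1 hJ') (mul_nonneg n3 (norm_nonneg _))
    have e : (fderiv ℝ (F t x) J - fderiv ℝ (F t x) 0) - (fderiv ℝ (F t y) J' - fderiv ℝ (F t y) 0)
        = (fderiv ℝ (F t x) J - fderiv ℝ (F t x) J')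
          + ((fderiv ℝ (F t x) J' - fderiv ℝ (F t y) J')
            - (fderiv ℝ (F t x) 0 - fderiv ℝ (F t y) 0)) := by abel
    rw [e]
    exact (norm_add_le _ _).trans (add_le_add h1 (h3.trans h4))
  refine ⟨?_, fun t ht z hz => ?_, fun t ht x hx y hy => ?_⟩
  · -- continuity
    have c0 : ContinuousOn (fun q : ℝ × E => fderiv ℝ (F q.1 q.2) 0) (I ×ˢ ball (0 : E) 3) := by
      refine hG.continuousOn.comp (f := fun q : ℝ × E => ((q.1, q.2, 0) : ℝ × E × Jet E)) ?_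
        (fun q hq => ⟨hII hq.1, hq.2, h0⟩)
      fun_prop
    have c1 : ∀ J : ℝ → E → Jet E, ContinuousOn (fun q : ℝ × E => J q.1 q.2) (I ×ˢ ball (0 : E) 3) →
        (∀ t ∈ I, ∀ z ∈ ball (0 : E) 3, J t z ∈ closedBall (0 : Jet E) ρ) →
        ContinuousOn (fun q : ℝ × E => F q.1 q.2 (J q.1 q.2) - fderiv ℝ (F q.1 q.2) 0 (J q.1 q.2))
          (I ×ˢ ball (0 : E) 3) := by
      intro J hJc hJm
      refine ContinuousOn.sub ?_ (c0.clm_apply hJc)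
      refine hF.continuousOn.comp
        (f := fun q : ℝ × E => ((q.1, q.2, J q.1 q.2) : ℝ × E × Jet E)) ?_
        (fun q hq => ⟨hII hq.1, hq.2, hcb (hJm _ hq.1 _ hq.2)⟩)
      exact continuousOn_fst.prodMk (continuousOn_snd.prodMk hJc)
    exact (c1 J₁ hJ₁.cont hm₁).sub (c1 J₂ hJ₂.cont hm₂)
  · -- sup
    have h1 := (convex_closedBall (0 : Jet E) ρ).norm_image_sub_le_of_norm_hasFDerivWithin_le
      (fun J hJ => (hΨ t (hII ht) z hz J (hcb hJ)).hasFDerivWithinAt)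
      (fun J hJ => hΨn t (hII ht) z hz J hJ) (hm₂ t ht z hz) (hm₁ t ht z hz)
    refine h1.trans ?_
    have h2 : ‖J₁ t z - J₂ t z‖ ≤ D := hΔ.sup t ht z hz
    calc CF 2 * ρ * ‖J₁ t z - J₂ t z‖ ≤ CF 2 * ρ * D :=
          mul_le_mul_of_nonneg_left h2 (mul_nonneg n2 hρ.le)
      _ ≤ (2 * CF 2 + 6 * CF 3) * ρ * D := by
          refine mul_le_mul_of_nonneg_right (mul_le_mul_of_nonneg_right (by linarith) hρ.le) hD
  · -- Hölder
    have ht' := hII ht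
    obtain ⟨r, hr⟩ : ∃ r : ℝ, r = ‖x - y‖ ^ α := ⟨_, rfl⟩
    have hr0 : 0 ≤ r := hr ▸ Real.rpow_nonneg (norm_nonneg _) _
    have h6 : ‖x - y‖ ≤ 6 * r := hr ▸ norm_sub_le_six_rpow hα hα1 hx hy
    rw [← hr]
    obtain ⟨dx, hdx⟩ : ∃ d : Jet E, d = J₁ t x - J₂ t x := ⟨_, rfl⟩
    obtain ⟨dy, hdy⟩ : ∃ d : Jet E, d = J₁ t y - J₂ t y := ⟨_, rfl⟩
    have hdd : ‖dx - dy‖ ≤ D * r := by
      rw [hdx, hdy, hr]; exact hΔ.hol t ht x hx y hy
    have hdyn : ‖dy‖ ≤ D := by rw [hdy]; exact hΔ.sup t ht y hy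
    have hmx : ∀ σ ∈ Icc (0 : ℝ) 1, J₂ t x + σ • dx ∈ closedBall (0 : Jet E) ρ := fun σ hσ => by
      rw [hdx]
      exact (convex_closedBall (0 : Jet E) ρ).add_smul_sub_mem (hm₂ t ht x hx) (hm₁ t ht x hx) hσ
    have hmy : ∀ σ ∈ Icc (0 : ℝ) 1, J₂ t y + σ • dy ∈ closedBall (0 : Jet E) ρ := fun σ hσ => by
      rw [hdy]
      exact (convex_closedBall (0 : Jet E) ρ).add_smul_sub_mem (hm₂ t ht y hy) (hm₁ t ht y hy) hσ
    have hxy : ∀ σ ∈ Icc (0 : ℝ) 1, ‖(J₂ t x + σ • dx) - (J₂ t y + σ • dy)‖ ≤ ρ * r := by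
      intro σ hσ
      have e : (J₂ t x + σ • dx) - (J₂ t y + σ • dy)
          = (1 - σ) • (J₂ t x - J₂ t y) + σ • (J₁ t x - J₁ t y) := by
        rw [hdx, hdy]; module
      rw [e]
      have a1 : ‖J₂ t x - J₂ t y‖ ≤ ρ * r := by rw [hr]; exact hJ₂.hol t ht x hx y hy
      have a2 : ‖J₁ t x - J₁ t y‖ ≤ ρ * r := by rw [hr]; exact hJ₁.hol t ht x hx y hy
      calc ‖(1 - σ) • (J₂ t x - J₂ t y) + σ • (J₁ t x - J₁ t y)‖
          ≤ ‖(1 - σ) • (J₂ t x - J₂ t y)‖ + ‖σ • (J₁ t x - J₁ t y)‖ := norm_add_le _ _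
        _ = (1 - σ) * ‖J₂ t x - J₂ t y‖ + σ * ‖J₁ t x - J₁ t y‖ := by
            rw [norm_smul, norm_smul, Real.norm_of_nonneg hσ.1,
              Real.norm_of_nonneg (sub_nonneg.2 hσ.2)]
        _ ≤ (1 - σ) * (ρ * r) + σ * (ρ * r) :=
            add_le_add (mul_le_mul_of_nonneg_left a1 (sub_nonneg.2 hσ.2))
              (mul_le_mul_of_nonneg_left a2 hσ.1)
        _ = ρ * r := by ring
    have hline : ∀ (a d : Jet E) (σ : ℝ), HasDerivAt (fun s : ℝ => a + s • d) d σ := by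
      intro a d σ
      have := ((hasDerivAt_id σ).smul_const d).const_add a
      simpa using this
    have hder : ∀ σ ∈ Icc (0 : ℝ) 1, HasDerivWithinAt
        (fun s : ℝ => (F t x (J₂ t x + s • dx) - fderiv ℝ (F t x) 0 (J₂ t x + s • dx))
          - (F t y (J₂ t y + s • dy) - fderiv ℝ (F t y) 0 (J₂ t y + s • dy)))
        ((fderiv ℝ (F t x) (J₂ t x + σ • dx) - fderiv ℝ (F t x) 0) dx
          - (fderiv ℝ (F t y) (J₂ t y + σ • dy) - fderiv ℝ (F t y) 0) dy) (Icc (0 : ℝ) 1) σ := by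
      intro σ hσ
      have a1 := (hΨ t ht' x hx _ (hcb (hmx σ hσ))).comp_hasDerivAt σ (hline (J₂ t x) dx σ)
      have a2 := (hΨ t ht' y hy _ (hcb (hmy σ hσ))).comp_hasDerivAt σ (hline (J₂ t y) dy σ)
      exact (a1.sub a2).hasDerivWithinAt
    have hbd : ∀ σ ∈ Ico (0 : ℝ) 1,
        ‖(fderiv ℝ (F t x) (J₂ t x + σ • dx) - fderiv ℝ (F t x) 0) dx
          - (fderiv ℝ (F t y) (J₂ t y + σ • dy) - fderiv ℝ (F t y) 0) dy‖
          ≤ (2 * CF 2 + 6 * CF 3) * ρ * D * r := by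
      intro σ hσ'
      have hσ : σ ∈ Icc (0 : ℝ) 1 := ⟨hσ'.1, hσ'.2.le⟩
      obtain ⟨A, hA⟩ : ∃ A : Jet E →L[ℝ] ℝ,
        A = fderiv ℝ (F t x) (J₂ t x + σ • dx) - fderiv ℝ (F t x) 0 := ⟨_, rfl⟩
      obtain ⟨B, hB⟩ : ∃ B : Jet E →L[ℝ] ℝ,
        B = fderiv ℝ (F t y) (J₂ t y + σ • dy) - fderiv ℝ (F t y) 0 := ⟨_, rfl⟩
      have hAn : ‖A‖ ≤ CF 2 * ρ := hA ▸ hΨn t ht' x hx _ (hmx σ hσ)
      have hAB : ‖A - B‖ ≤ CF 2 * (ρ * r) + CF 3 * (6 * r) * ρ := by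
        rw [hA, hB]
        refine (hΨd t ht' x hx y hy _ (hmx σ hσ) _ (hmy σ hσ)).trans ?_
        refine add_le_add (mul_le_mul_of_nonneg_left (hxy σ hσ) n2) ?_
        exact mul_le_mul_of_nonneg_right (mul_le_mul_of_nonneg_left h6 n3) hρ.le
      rw [← hA, ← hB]
      have e : A dx - B dy = A (dx - dy) + (A - B) dy := by
        simp only [map_sub, _root_.sub_apply]; ring
      rw [e]
      have b1 : ‖A (dx - dy)‖ ≤ (CF 2 * ρ) * (D * r) :=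
        (A.le_opNorm _).trans (mul_le_mul hAn hdd (norm_nonneg _) (mul_nonneg n2 hρ.le))
      have b2 : ‖(A - B) dy‖ ≤ (CF 2 * (ρ * r) + CF 3 * (6 * r) * ρ) * D :=
        ((A - B).le_opNorm _).trans (mul_le_mul hAB hdyn (norm_nonneg _) (by positivity))
      calc ‖A (dx - dy) + (A - B) dy‖ ≤ ‖A (dx - dy)‖ + ‖(A - B) dy‖ := norm_add_le _ _
        _ ≤ (CF 2 * ρ) * (D * r) + (CF 2 * (ρ * r) + CF 3 * (6 * r) * ρ) * D := add_le_add b1 b2
        _ = (2 * CF 2 + 6 * CF 3) * ρ * D * r := by ring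
    have hfin := norm_image_sub_le_of_norm_deriv_le_segment_01' hder hbd
    have e1 : J₂ t x + (1 : ℝ) • dx = J₁ t x := by rw [hdx]; module
    have e2 : J₂ t y + (1 : ℝ) • dy = J₁ t y := by rw [hdy]; module
    simp only [e1, e2, zero_smul, add_zero] at hfin
    refine le_trans (le_of_eq ?_) hfin
    congr 1
    ring

end Claimed.Agent.R316.B8M
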