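import Claimed.Agent.R316.Pack014_2

/-!
# B8M-PRE (M1, real part): from big charts centred at every point to a uniformly locally finite atlas

`PreAtlas V E`: a family of charts `Ψ k : ball 0 R → X`, `k : κ`; every point `x ∈ X` is the centre `Ψ k 0` of a DISTINGUISHED chart (`k ∈ D`); all transitions
`σ k l = (Ψ l)⁻¹ ∘ Ψ k` are smooth with `‖Dσ‖ ≤ L`, and `‖D^m σ(z)‖ ≤ C m` whenever the unit ball around `z` lies in the overlap
(Cauchy estimates in the application), `R ≥ 4 + 7 L`.  (In the recipes below `x, y` denote indices in `κ`, and "the point `y`" means `Ψ y 0`.)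

TWO LEAVES (proofs only):  B8M-PRE-A = `continuation`, `exists_packing`, `exists_maximal_disjoint`;  B8M-PRE-B = `exists_uatlas`.

Recipes.
* `continuation`.  `γ θ = z + θ (z' - z) ∈ ball 0 R` (convex).  Let
  `s = {θ | γ θ ∈ ov x y ∧ ‖σ (γ θ) - σ z‖ ≤ L θ ‖z' - z‖}` and use continuous induction
  `IsClosed.Icc_subset_of_forall_mem_nhdsWithin` on `Icc 0 1`.
  CLOSED (in `Icc 0 1`): if `θ_n → θ`, `θ_n ∈ s` then `σ (γ θ_n)` stays in the compact set `closedBall 0 (‖σ z‖ + L ‖z'-z‖) ⊆ ball 0 R`;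
  a subsequence converges to `w`; `Ψ y w = lim Ψ y (σ (γ θ_n)) = lim Ψ x (γ θ_n) = Ψ x (γ θ)` (`B.cont`), so `γ θ ∈ ov`, `σ (γ θ) = w`
  (`B.inj`), and the inequality passes to the limit.
  RIGHT NEIGHBOURHOOD: `ov` is open, take a ball around `γ θ` inside `ov` (convex) and the mean value inequality with `B.lip`.
* `exists_packing`: cover the compact `closedBall 0 ρ` by finitely many balls of radius `δ/2` (`IsCompact.finite_cover_balls`, `N` = their number);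
  each contains at most one point of `S` (injection `S → centres`).
* `exists_maximal_disjoint`: `zorn_subset` on `{𝒮 ⊆ X | pairwise disjoint}`; if `y` met no member, `insert y 𝒮` would be bigger (`y ∉ 𝒮` because
  `y ∈ Bs y ∩ Bs y`).
* `exists_uatlas`.  `a = 1 / (1 + L)`, `Bs x = Ψ x '' ball 0 a`, `𝒮 ⊆ D` maximal (`exists_maximal_disjoint` with `X = D`); `ι = ↥𝒮`, `Φ i = Ψ i`, `tr i j = σ i j` (the BIG transition).
  COVER: `y ∈ D`, `p = Ψ y w = Ψ x w'` with `‖w‖, ‖w'‖ < a`, `x ∈ 𝒮`; `continuation` from `w` to `0` gives `0 ∈ ov y x`, `‖σ 0‖ < a + L a = 1`.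
  TRANSFER: `k : κ` arbitrary; take `y ∈ D` with `Ψ y 0 = Ψ k 0` (`centre`, `maps`), `x ∈ 𝒮` as in COVER: `Ψ k 0 = Ψ x c`, `‖c‖ < 1`, so `0 ∈ ov k x`, `σ k x 0 = c`.  `τ = σ k x`.  `continuation` from `0`: `ball 0 2 ⊆ ov k x` (`1 + 2 L < R`),
  so `bound` applies at all `z ∈ ball 0 1`; `‖τ z - c‖ ≤ L ‖z‖ < 1` for `‖z‖ < 1/L`.
  `tr_mem/tr_eq`: injectivity on `ball 0 R`.  `dom_open`: `domOf = ball 0 3 ∩ ov ∩ σ⁻¹ (ball 0 3)`, `σ` continuous on the open `ov`.
  `tr_bound`: for `z ∈ domOf`, `ball z 1 ⊆ ov` by `continuation` (`1 < (R - 3)/L`, `ball z 1 ⊆ ball 0 4`).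
  MARGIN: `μ = 1 / (2 L)`.
  FINITENESS: fix `i = x`.  If `domOf i j ≠ ∅` (`j = y`): `Ψ x z = Ψ y z'`; `continuation` for `σ y x` from `z'` to `0` (`‖0 - z'‖ < 3 < (R-3)/L`) gives
  `c_y := σ y x 0 ∈ ball 0 (3 + 3 L)`, `Ψ x c_y = y`.  SEPARATION `‖c_y - c_y'‖ ≥ a / L` for `y ≠ y'`: otherwise `continuation` for `σ x y` from `c_y`
  (where `σ x y c_y = 0`) to `c_y'` gives `y' = Ψ x c_y' = Ψ y (σ x y c_y')` with `‖σ x y c_y'‖ < a`, so `y' ∈ Bs y ∩ Bs y'`: contradiction.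
  `exists_packing (3 + 3 L) (a / L)` bounds the number of such `y`; `nb i` = `Set.Finite.toFinset`.
-/

set_option autoImplicit false
set_option maxSynthPendingDepth 3
set_option linter.unusedSectionVars false

open scoped Topology ContDiff
open Set Filter Metric

namespace Claimed.Agent.R316.B8M

variable {V E : Type} [NormedAddCommGroup V] [NormedSpace ℝ V]
  [NormedAddCommGroup E] [NormedSpace ℝ E]

/-- overlap of two big charts. -/
def ovOf {κ : Type} (Ψ : κ → E → V) (R : ℝ) (x y : κ) : Set E :=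
  ball (0 : E) R ∩ Ψ x ⁻¹' (Ψ y '' ball (0 : E) R)

/-- transition between two big charts. -/
noncomputable def sgOf {κ : Type} (Ψ : κ → E → V) (R : ℝ) (x y : κ) : E → E :=
  Function.invFunOn (Ψ y) (ball (0 : E) R) ∘ Ψ x

variable (V E) in
/-- a family of big charts `Ψ k : ball 0 R → X`, `k : κ`, with uniformly controlled transitions; every point is the centre of a DISTINGUISHED chart (`k ∈ D`). -/
structure PreAtlas where
  X : Set V
  κ : Type
  D : Set κ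
  Ψ : κ → E → V
  R : ℝ
  L : ℝ
  C : ℕ → ℝ
  centre : ∀ x ∈ X, ∃ k ∈ D, Ψ k 0 = x
  maps : ∀ k, MapsTo (Ψ k) (ball 0 R) X
  inj : ∀ k, InjOn (Ψ k) (ball 0 R)
  cont : ∀ k, ContinuousOn (Ψ k) (ball 0 R)
  ov_open : ∀ k l, IsOpen (ovOf Ψ R k l)
  smooth : ∀ k l, ContDiffOn ℝ ∞ (sgOf Ψ R k l) (ovOf Ψ R k l)
  lip : ∀ k l, ∀ z ∈ ovOf Ψ R k l, ‖fderiv ℝ (sgOf Ψ R k l) z‖ ≤ L
  bound : ∀ k l m z, ball z 1 ⊆ ovOf Ψ R k l → ‖iteratedFDeriv ℝ m (sgOf Ψ R k l) z‖ ≤ C m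
  L_pos : 0 < L
  R_large : 4 + 7 * L ≤ R

namespace PreAtlas

variable (B : PreAtlas V E)

/-- overlap. -/
def ov (k l : B.κ) : Set E := ovOf B.Ψ B.R k l

/-- transition. -/
noncomputable def sg (k l : B.κ) : E → E := sgOf B.Ψ B.R k l

theorem sg_mem {k l : B.κ} {z : E} (hz : z ∈ B.ov k l) : B.sg k l z ∈ ball (0 : E) B.R :=
  Function.invFunOn_mem hz.2

theorem sg_spec {k l : B.κ} {z : E} (hz : z ∈ B.ov k l) : B.Ψ l (B.sg k l z) = B.Ψ k z :=
  Function.invFunOn_eq hz.2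

theorem sg_eq {k l : B.κ} {z w : E} (hw : w ∈ ball (0 : E) B.R) (h : B.Ψ k z = B.Ψ l w) :
    B.sg k l z = w := by
  change Function.invFunOn (B.Ψ l) (ball (0 : E) B.R) (B.Ψ k z) = w
  rw [h]
  exact (B.inj l).leftInvOn_invFunOn hw

theorem mem_ov {k l : B.κ} {z w : E} (hz : z ∈ ball (0 : E) B.R) (hw : w ∈ ball (0 : E) B.R)
    (h : B.Ψ k z = B.Ψ l w) : z ∈ B.ov k l := ⟨hz, ⟨w, hw, h.symm⟩⟩

/-- **continuation of transitions along segments** (the margin lemma). -/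
theorem continuation [FiniteDimensional ℝ E] (k l : B.κ) {z z' : E}
    (hz : z ∈ B.ov k l) (hz' : z' ∈ ball (0 : E) B.R) (hd : ‖B.sg k l z‖ + B.L * ‖z' - z‖ < B.R) :
    z' ∈ B.ov k l ∧ ‖B.sg k l z' - B.sg k l z‖ ≤ B.L * ‖z' - z‖ := by
  have hL := B.L_pos
  set σ := B.sg k l with hσ
  set d := ‖z' - z‖ with hdd
  have hd0 : 0 ≤ d := norm_nonneg _
  set γ : ℝ → E := fun θ => z + θ • (z' - z) with hγ
  have hγc : Continuous γ := by fun_prop
  have hγR : ∀ θ ∈ Icc (0 : ℝ) 1, γ θ ∈ ball (0 : E) B.R := by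
    intro θ hθ
    have : γ θ = (1 - θ) • z + θ • z' := by
      simp only [hγ, smul_sub, sub_smul, one_smul]
      abel
    rw [this]
    exact (convex_ball (0 : E) B.R) hz.1 hz' (by linarith [hθ.2]) hθ.1 (by ring)
  set s : Set ℝ := {θ | γ θ ∈ B.ov k l ∧ ‖σ (γ θ) - σ z‖ ≤ B.L * θ * d} with hs
  have hK : IsCompact (closedBall (σ z) (B.L * d)) := isCompact_closedBall _ _
  have hKR : closedBall (σ z) (B.L * d) ⊆ ball (0 : E) B.R := by
    intro w hw
    rw [mem_closedBall, dist_eq_norm] at hw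
    rw [mem_ball_zero_iff]
    calc ‖w‖ = ‖(w - σ z) + σ z‖ := by rw [sub_add_cancel]
      _ ≤ ‖w - σ z‖ + ‖σ z‖ := norm_add_le _ _
      _ < B.R := by linarith
  have hclosed : IsClosed (s ∩ Icc 0 1) := by
    refine IsSeqClosed.isClosed fun θs θ hθs hlim => ?_
    have hθI : θ ∈ Icc (0 : ℝ) 1 := isClosed_Icc.mem_of_tendsto hlim (Eventually.of_forall fun n => (hθs n).2)
    have hwK : ∀ n, σ (γ (θs n)) ∈ closedBall (σ z) (B.L * d) := by
      intro n
      rw [mem_closedBall, dist_eq_norm]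
      refine (hθs n).1.2.trans ?_
      have : B.L * θs n * d ≤ B.L * 1 * d := by
        have := (hθs n).2.2
        gcongr
      linarith
    obtain ⟨w, hwK', φ, hφ, hφlim⟩ := hK.tendsto_subseq hwK
    have hwR := hKR hwK'
    have h1 : Tendsto (fun n => B.Ψ l (σ (γ (θs (φ n))))) atTop (𝓝 (B.Ψ l w)) :=
      ((B.cont l).continuousAt (isOpen_ball.mem_nhds hwR)).tendsto.comp hφlim
    have hθφ : Tendsto (fun n => θs (φ n)) atTop (𝓝 θ) := hlim.comp hφ.tendsto_atTop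
    have h2 : Tendsto (fun n => B.Ψ k (γ (θs (φ n)))) atTop (𝓝 (B.Ψ k (γ θ))) :=
      (((B.cont k).continuousAt (isOpen_ball.mem_nhds (hγR θ hθI))).tendsto.comp
        (hγc.tendsto θ)).comp hθφ
    have h3 : (fun n => B.Ψ l (σ (γ (θs (φ n))))) = fun n => B.Ψ k (γ (θs (φ n))) :=
      funext fun n => PreAtlas.sg_spec B (hθs (φ n)).1.1
    rw [h3] at h1
    have h4 : B.Ψ k (γ θ) = B.Ψ l w := tendsto_nhds_unique h2 h1
    have h5 : σ (γ θ) = w := PreAtlas.sg_eq B hwR h4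
    refine ⟨⟨PreAtlas.mem_ov B (hγR θ hθI) hwR h4, ?_⟩, hθI⟩
    rw [h5]
    refine le_of_tendsto_of_tendsto' ((hφlim.sub_const (σ z)).norm)
      ((hθφ.const_mul B.L).mul_const d) fun n => (hθs (φ n)).1.2
  have h0 : (0 : ℝ) ∈ s := by
    have e0 : γ 0 = z := by simp [hγ]
    refine ⟨by rw [e0]; exact hz, ?_⟩
    rw [e0]
    simp
  have hright : ∀ θ ∈ s ∩ Ico 0 1, s ∈ 𝓝[>] θ := by
    rintro θ ⟨⟨hθov, hθle⟩, hθI⟩
    obtain ⟨ε, hε, hεov⟩ := Metric.isOpen_iff.1 (B.ov_open k l) (γ θ) hθov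
    have h1 : ∀ᶠ θ' in 𝓝[>] θ, γ θ' ∈ ball (γ θ) ε :=
      ((hγc.tendsto θ).eventually (ball_mem_nhds _ hε)).filter_mono nhdsWithin_le_nhds
    filter_upwards [h1, self_mem_nhdsWithin] with θ' hθ' hlt
    have hlt' : θ < θ' := hlt
    refine ⟨hεov hθ', ?_⟩
    have h2 : ‖σ (γ θ') - σ (γ θ)‖ ≤ B.L * ‖γ θ' - γ θ‖ :=
      (convex_ball (γ θ) ε).norm_image_sub_le_of_norm_fderiv_le
        (fun y hy => ((B.smooth k l).differentiableOn (by simp)).differentiableAt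
          ((B.ov_open k l).mem_nhds (hεov hy)))
        (fun y hy => B.lip k l y (hεov hy)) (mem_ball_self hε) hθ'
    have h3 : ‖γ θ' - γ θ‖ = (θ' - θ) * d := by
      have : γ θ' - γ θ = (θ' - θ) • (z' - z) := by
        simp only [hγ, sub_smul]
        abel
      rw [this, norm_smul, Real.norm_of_nonneg (by linarith)]
    calc ‖σ (γ θ') - σ z‖ = ‖(σ (γ θ') - σ (γ θ)) + (σ (γ θ) - σ z)‖ := by rw [sub_add_sub_cancel]
      _ ≤ ‖σ (γ θ') - σ (γ θ)‖ + ‖σ (γ θ) - σ z‖ := norm_add_le _ _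
      _ ≤ B.L * ((θ' - θ) * d) + B.L * θ * d := by rw [← h3]; exact add_le_add h2 hθle
      _ = B.L * θ' * d := by ring
  have h1 := hclosed.Icc_subset_of_forall_mem_nhdsWithin h0 hright (right_mem_Icc.2 zero_le_one)
  have e : γ 1 = z' := by simp [hγ]
  obtain ⟨h2, h3⟩ := h1
  rw [e] at h2 h3
  exact ⟨h2, by simpa using h3⟩

end PreAtlas

/-- packing number of a ball. -/
theorem exists_packing [FiniteDimensional ℝ E] (ρ δ : ℝ) (hδ : 0 < δ) : ∃ N : ℕ, ∀ S : Set E,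
    S ⊆ closedBall (0 : E) ρ → (∀ x ∈ S, ∀ y ∈ S, x ≠ y → δ ≤ ‖x - y‖) → S.Finite ∧ S.ncard ≤ N := by
  obtain ⟨t, -, htf, hcov⟩ := (isCompact_closedBall (0 : E) ρ).finite_cover_balls (half_pos hδ)
  refine ⟨t.ncard, fun S hS hsep => ?_⟩
  have hex : ∀ x ∈ S, ∃ c ∈ t, x ∈ ball c (δ / 2) := fun x hx => by
    simpa using hcov (hS hx)
  choose! f hft hfb using hex
  have hinj : InjOn f S := by
    intro x hx y hy hxy
    by_contra hne
    have h1 := hfb x hx
    have h2 := hfb y hy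
    rw [← hxy] at h2
    have h3 : dist x y < δ := by
      calc dist x y ≤ dist x (f x) + dist y (f x) := dist_triangle_right _ _ _
        _ < δ / 2 + δ / 2 := add_lt_add h1 h2
        _ = δ := by ring
    rw [dist_eq_norm] at h3
    exact absurd (hsep x hx y hy hne) (not_le.2 h3)
  exact ⟨Set.Finite.of_injOn hft hinj htf, Set.ncard_le_ncard_of_injOn f hft hinj htf⟩

/-- a maximal subfamily of pairwise disjoint sets. -/
theorem exists_maximal_disjoint {β γ : Type*} (X : Set β) (Bs : β → Set γ)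
    (hne : ∀ x ∈ X, (Bs x).Nonempty) : ∃ 𝒮 ⊆ X,
      (∀ x ∈ 𝒮, ∀ y ∈ 𝒮, x ≠ y → Disjoint (Bs x) (Bs y)) ∧
      ∀ y ∈ X, ∃ x ∈ 𝒮, (Bs y ∩ Bs x).Nonempty := by
  obtain ⟨m, hm⟩ := zorn_subset {T : Set β | T ⊆ X ∧ T.PairwiseDisjoint Bs} (by
    intro c hc hchain
    refine ⟨⋃₀ c, ⟨Set.sUnion_subset fun T hT => (hc hT).1, ?_⟩, fun T hT => Set.subset_sUnion_of_mem hT⟩
    exact (Set.pairwiseDisjoint_sUnion hchain.directedOn).2 fun T hT => (hc hT).2)
  refine ⟨m, hm.prop.1, fun x hx y hy hxy => hm.prop.2 hx hy hxy, fun y hy => ?_⟩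
  by_contra hcon
  push Not at hcon
  have hins : insert y m ∈ {T : Set β | T ⊆ X ∧ T.PairwiseDisjoint Bs} := by
    refine ⟨Set.insert_subset hy hm.prop.1, hm.prop.2.insert fun j hj _ => ?_⟩
    exact Set.disjoint_iff_inter_eq_empty.2 (hcon j hj)
  have hym : y ∈ m := hm.le_of_ge hins (Set.subset_insert y m) (Set.mem_insert y m)
  have := hcon y hym
  rw [Set.inter_self] at this
  exact (hne y hy).ne_empty this

/-- continuation, in the form used below. -/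
theorem PreAtlas.continuation' [FiniteDimensional ℝ E] (B : PreAtlas V E) {k l : B.κ} {z w z' : E}
    (hz : z ∈ ball (0 : E) B.R) (hw : w ∈ ball (0 : E) B.R) (h : B.Ψ k z = B.Ψ l w)
    (hz' : z' ∈ ball (0 : E) B.R) (hd : ‖w‖ + B.L * ‖z' - z‖ < B.R) :
    z' ∈ B.ov k l ∧ ‖B.sg k l z' - w‖ ≤ B.L * ‖z' - z‖ := by
  have h1 := B.mem_ov hz hw h
  have h2 := B.sg_eq hw h
  have h3 := B.continuation k l h1 hz' (by rw [h2]; exact hd)
  rw [h2] at h3
  exact h3

/-- **M1, real part**: the atlas consists of distinguished charts; EVERY chart of the family is, near its centre, a chart of the atlas composed with a transition with bounded derivatives. -/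
theorem PreAtlas.exists_uatlas [FiniteDimensional ℝ E] (B : PreAtlas V E) :
    ∃ A : UAtlas V E, A.X = B.X ∧ (∀ i, ∃ k ∈ B.D, A.Φ i = B.Ψ k) ∧
      ∀ k : B.κ, ∃ (i : A.ι) (τ : E → E), ContDiffOn ℝ ∞ τ (ball (0 : E) 1) ∧
        (∀ z ∈ ball (0 : E) (min 1 (1 / B.L)), τ z ∈ ball (0 : E) 2 ∧ A.Φ i (τ z) = B.Ψ k z) ∧
        ∀ m, ∀ z ∈ ball (0 : E) 1, ‖iteratedFDeriv ℝ m τ z‖ ≤ B.C m := by
  classical
  have hL := B.L_pos
  have hR := B.R_large
  obtain ⟨a, ha⟩ : ∃ a : ℝ, a = 1 / (1 + B.L) := ⟨_, rfl⟩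
  have ha0 : 0 < a := by rw [ha]; positivity
  have ha1 : a + B.L * a = 1 := by rw [ha]; field_simp
  have haR : a < B.R := by nlinarith
  have h0R : (0 : E) ∈ ball (0 : E) B.R := mem_ball_self (by linarith)
  have hsubR : ∀ {s : ℝ}, s ≤ B.R → ball (0 : E) s ⊆ ball (0 : E) B.R := fun hs => ball_subset_ball hs
  obtain ⟨𝒮, h𝒮D, hdisj, hmax⟩ := exists_maximal_disjoint B.D (fun x => B.Ψ x '' ball (0 : E) a)
    (fun x _ => ⟨B.Ψ x 0, 0, mem_ball_self ha0, rfl⟩)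
  -- COVER
  have hcov : ∀ k : B.κ, ∃ x ∈ 𝒮, ∃ c ∈ ball (0 : E) 1, B.Ψ x c = B.Ψ k 0 := by
    intro k
    obtain ⟨y, hyD, hy0⟩ := B.centre (B.Ψ k 0) (B.maps k h0R)
    obtain ⟨x, hx, p, ⟨w, hw, hwp⟩, ⟨w', hw', hwp'⟩⟩ := hmax y hyD
    rw [mem_ball_zero_iff] at hw hw'
    have h1 := PreAtlas.continuation' B (k := y) (l := x) (z := w) (w := w') (z' := 0)
      (mem_ball_zero_iff.2 (hw.trans haR)) (mem_ball_zero_iff.2 (hw'.trans haR))
      (hwp.trans hwp'.symm) h0R (by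
        rw [zero_sub, norm_neg]
        nlinarith)
    rw [zero_sub, norm_neg] at h1
    refine ⟨x, hx, B.sg y x 0, ?_, (B.sg_spec h1.1).trans hy0⟩
    rw [mem_ball_zero_iff]
    calc ‖B.sg y x 0‖ = ‖(B.sg y x 0 - w') + w'‖ := by rw [sub_add_cancel]
      _ ≤ ‖B.sg y x 0 - w'‖ + ‖w'‖ := norm_add_le _ _
      _ < 1 := by nlinarith [h1.2]
  -- description of the domains
  have hdom : ∀ i j : 𝒮, ∀ z, z ∈ domOf (fun i : 𝒮 => B.Ψ i) i j ↔
      z ∈ ball (0 : E) 3 ∧ z ∈ B.ov i j ∧ B.sg i j z ∈ ball (0 : E) 3 := by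
    intro i j z
    constructor
    · rintro ⟨hz, w, hw, hwz⟩
      have hwR := hsubR (by linarith : (3 : ℝ) ≤ B.R) hw
      have hzR := hsubR (by linarith : (3 : ℝ) ≤ B.R) hz
      refine ⟨hz, B.mem_ov hzR hwR hwz.symm, ?_⟩
      rw [B.sg_eq hwR hwz.symm]
      exact hw
    · rintro ⟨hz, hov, hs⟩
      exact ⟨hz, B.sg i j z, hs, B.sg_spec hov⟩
  -- centres of the neighbours
  obtain ⟨N, hN⟩ := exists_packing (E := E) (3 + 3 * B.L) (a / B.L) (by positivity)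
  have h3R : (3 : ℝ) ≤ B.R := by linarith
  have hcen : ∀ i j : 𝒮, (domOf (fun i : 𝒮 => B.Ψ i) i j).Nonempty →
      B.sg j i 0 ∈ ball (0 : E) (3 + 3 * B.L) ∧ B.Ψ i (B.sg j i 0) = B.Ψ j 0 := by
    rintro i j ⟨z, hz, z', hz', hzz'⟩
    have hz3 := mem_ball_zero_iff.1 hz
    have hz3' := mem_ball_zero_iff.1 hz'
    have h1 := PreAtlas.continuation' B (k := j) (l := i) (z := z') (w := z) (z' := 0)
      (hsubR h3R hz') (hsubR h3R hz) hzz' h0R (by
        rw [zero_sub, norm_neg]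
        nlinarith)
    rw [zero_sub, norm_neg] at h1
    refine ⟨?_, B.sg_spec h1.1⟩
    rw [mem_ball_zero_iff]
    calc ‖B.sg j i 0‖ = ‖(B.sg j i 0 - z) + z‖ := by rw [sub_add_cancel]
      _ ≤ ‖B.sg j i 0 - z‖ + ‖z‖ := norm_add_le _ _
      _ < 3 + 3 * B.L := by nlinarith [h1.2]
  have hsep : ∀ i j j' : 𝒮, (domOf (fun i : 𝒮 => B.Ψ i) i j).Nonempty →
      (domOf (fun i : 𝒮 => B.Ψ i) i j').Nonempty → j ≠ j' →
      a / B.L ≤ ‖B.sg j i 0 - B.sg j' i 0‖ := by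
    intro i j j' hj hj' hne
    by_contra hlt
    push Not at hlt
    obtain ⟨hc, hce⟩ := hcen i j hj
    obtain ⟨hc', hce'⟩ := hcen i j' hj'
    have h33 : 3 + 3 * B.L ≤ B.R := by linarith
    have hlt' : B.L * ‖B.sg j' i 0 - B.sg j i 0‖ < a := by
      rw [norm_sub_rev, mul_comm]
      exact (lt_div_iff₀ hL).1 hlt
    have h1 := PreAtlas.continuation' B (k := i) (l := j) (z := B.sg j i 0) (w := 0)
      (z' := B.sg j' i 0) (hsubR h33 hc) h0R hce (hsubR h33 hc') (by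
        rw [norm_zero, zero_add]
        linarith)
    rw [sub_zero] at h1
    have h2 : B.sg i j (B.sg j' i 0) ∈ ball (0 : E) a :=
      mem_ball_zero_iff.2 (lt_of_le_of_lt h1.2 hlt')
    have h3 : B.Ψ j (B.sg i j (B.sg j' i 0)) = B.Ψ j' 0 := (B.sg_spec h1.1).trans hce'
    have hd := hdisj j j.2 j' j'.2 (fun h => hne (Subtype.ext h))
    exact Set.disjoint_left.1 hd ⟨_, h2, h3⟩ ⟨0, mem_ball_self ha0, rfl⟩
  have hfin : ∀ i : 𝒮, {j : 𝒮 | (domOf (fun i : 𝒮 => B.Ψ i) i j).Nonempty}.Finite ∧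
      {j : 𝒮 | (domOf (fun i : 𝒮 => B.Ψ i) i j).Nonempty}.ncard ≤ N := by
    intro i
    have hinj : InjOn (fun j : 𝒮 => B.sg j i 0)
        {j : 𝒮 | (domOf (fun i : 𝒮 => B.Ψ i) i j).Nonempty} := by
      intro j hj j' hj' h
      by_contra hne
      have h1 := hsep i j j' hj hj' hne
      simp only at h
      rw [h, sub_self, norm_zero] at h1
      exact absurd h1 (not_le.2 (by positivity))
    obtain ⟨h1, h2⟩ := hN ((fun j : 𝒮 => B.sg j i 0) ''
        {j : 𝒮 | (domOf (fun i : 𝒮 => B.Ψ i) i j).Nonempty}) (by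
      rintro _ ⟨j, hj, rfl⟩
      exact ball_subset_closedBall (hcen i j hj).1) (by
      rintro _ ⟨j, hj, rfl⟩ _ ⟨j', hj', rfl⟩ hne
      exact hsep i j j' hj hj' (fun h => hne (by rw [h])))
    exact ⟨h1.of_finite_image hinj, by rwa [hinj.ncard_image] at h2⟩
  let A : UAtlas V E :=
    { X := B.X
      ι := 𝒮
      Φ := fun i => B.Ψ i
      tr := fun i j => B.sg i j
      nb := fun i => (hfin i).1.toFinset
      N := N
      μ := 1 / (2 * B.L)
      Cτ := B.C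
      maps := fun i => (B.maps i).mono (hsubR h3R) subset_rfl
      inj := fun i => (B.inj i).mono (hsubR h3R)
      cont := fun i => (B.cont i).mono (hsubR h3R)
      cover := fun x hx => by
        obtain ⟨k, -, hk⟩ := B.centre x hx
        obtain ⟨y, hy, c, hc, hcy⟩ := hcov k
        exact ⟨⟨y, hy⟩, c, hc, hcy.trans hk⟩
      tr_mem := fun i j z hz => ((hdom i j z).1 hz).2.2
      tr_eq := fun i j z hz => B.sg_spec ((hdom i j z).1 hz).2.1
      dom_open := fun i j => by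
        have e : domOf (fun i : 𝒮 => B.Ψ i) i j =
            (ball (0 : E) 3 ∩ B.ov i j) ∩ B.sg i j ⁻¹' ball (0 : E) 3 := by
          ext z
          rw [hdom]
          simp only [mem_inter_iff, mem_preimage, and_assoc]
        rw [e]
        exact ((B.smooth i j).continuousOn.mono inter_subset_right).isOpen_inter_preimage
          (isOpen_ball.inter (B.ov_open i j)) isOpen_ball
      tr_smooth := fun i j => (B.smooth i j).mono fun z hz => ((hdom i j z).1 hz).2.1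
      tr_bound := fun i j k z hz => by
        obtain ⟨hz3, hov, hs3⟩ := (hdom i j z).1 hz
        rw [mem_ball_zero_iff] at hz3 hs3
        refine B.bound i j k z fun z' hz' => ?_
        rw [mem_ball, dist_eq_norm] at hz'
        refine (B.continuation i j hov ?_ ?_).1
        · rw [mem_ball_zero_iff]
          calc ‖z'‖ = ‖(z' - z) + z‖ := by rw [sub_add_cancel]
            _ ≤ ‖z' - z‖ + ‖z‖ := norm_add_le _ _
            _ < B.R := by linarith
        · nlinarith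
      nb_card := fun i => by
        rw [← Set.ncard_eq_toFinset_card _ (hfin i).1]
        exact (hfin i).2
      mem_nb := fun i j h => (hfin i).1.mem_toFinset.2 h
      μ_pos := by positivity
      margin := fun i j z hz hle z' hz' hlt => by
        obtain ⟨hz3, hov, hs3⟩ := (hdom i j z).1 hz
        have hlt' : B.L * ‖z' - z‖ < 1 / 2 := by
          have := (lt_div_iff₀ (by positivity : 0 < 2 * B.L)).1 hlt
          linarith
        have h1 := B.continuation i j hov (hsubR h3R hz') (by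
          have : ‖B.sg i j z‖ ≤ 5 / 2 := hle
          linarith)
        refine (hdom i j z').2 ⟨hz', h1.1, ?_⟩
        rw [mem_ball_zero_iff]
        have h2 : ‖B.sg i j z‖ ≤ 5 / 2 := hle
        calc ‖B.sg i j z'‖ = ‖(B.sg i j z' - B.sg i j z) + B.sg i j z‖ := by rw [sub_add_cancel]
          _ ≤ ‖B.sg i j z' - B.sg i j z‖ + ‖B.sg i j z‖ := norm_add_le _ _
          _ < 3 := by linarith [h1.2] }
  refine ⟨A, rfl, fun i => ⟨i.1, h𝒮D i.2, rfl⟩, fun k => ?_⟩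
  obtain ⟨x, hx, c, hc, hcx⟩ := hcov k
  have hc1 := mem_ball_zero_iff.1 hc
  have hcR : c ∈ ball (0 : E) B.R := hsubR (by linarith : (1 : ℝ) ≤ B.R) hc
  have hcont : ∀ z ∈ ball (0 : E) 2, z ∈ B.ov k x ∧ ‖B.sg k x z - c‖ ≤ B.L * ‖z‖ := by
    intro z hz
    have hz2 := mem_ball_zero_iff.1 hz
    have h1 := PreAtlas.continuation' B (k := k) (l := x) (z := 0) (w := c) (z' := z) h0R hcR
      hcx.symm (hsubR (by linarith : (2 : ℝ) ≤ B.R) hz) (by
        rw [sub_zero]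
        nlinarith)
    rwa [sub_zero] at h1
  refine ⟨⟨x, hx⟩, B.sg k x, ?_, fun z hz => ?_, fun m z hz => ?_⟩
  · exact (B.smooth k x).mono fun z hz => (hcont z (ball_subset_ball (by norm_num) hz)).1
  · have hz1 := mem_ball_zero_iff.1 hz
    have hz1' : ‖z‖ < 1 := hz1.trans_le (min_le_left _ _)
    have hz2' : B.L * ‖z‖ < 1 := by
      have := (lt_div_iff₀ hL).1 (hz1.trans_le (min_le_right _ _))
      linarith
    obtain ⟨h1, h2⟩ := hcont z (mem_ball_zero_iff.2 (by linarith))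
    refine ⟨?_, B.sg_spec h1⟩
    rw [mem_ball_zero_iff]
    calc ‖B.sg k x z‖ = ‖(B.sg k x z - c) + c‖ := by rw [sub_add_cancel]
      _ ≤ ‖B.sg k x z - c‖ + ‖c‖ := norm_add_le _ _
      _ < 2 := by linarith
  · refine B.bound k x m z fun z' hz' => (hcont z' ?_).1
    rw [mem_ball, dist_eq_norm] at hz'
    have hz1 := mem_ball_zero_iff.1 hz
    rw [mem_ball_zero_iff]
    calc ‖z'‖ = ‖(z' - z) + z‖ := by rw [sub_add_cancel]
      _ ≤ ‖z' - z‖ + ‖z‖ := norm_add_le _ _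
      _ < 2 := by linarith

end Claimed.Agent.R316.B8M
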