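import Claimed.Agent.R316.B8M.Comp
import Claimed.Agent.R316.B8.Cutoff

/-!
# B8M-PUSH / B8M-PU / B8M-COVER: push-forward of compactly supported chart functions, locally finite sums,
partition of unity, from `ball 0 2` to `ball 0 3`

PROVED (helper111): sections `Local`, `Push`, `Sum`, `PU`, `Cover`.

Recipes.
* `rep_push`: `x = Φ i z ∈ Φ j '' ball 0 3` iff `z ∈ A.dom i j`; then `invFunOn (Φ j) (ball 0 3) x = A.tr i j z` by injectivity.
* PUSH (`exists_XB_push`, `YB_push`, `C21_push`).  `ball 0 3 = O₁ ∪ O₂` with `O₁ = A.dom i j` (open) and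
  `O₂ = {z ∈ ball 0 3 | ¬ (z ∈ dom ∧ ‖tr z‖ ≤ 5/2)}` (open: `A.isOpen_off`), and `rep i (push j w) = 0` on `O₂`, `= w ∘ tr` on `O₁`.
  All clauses of `C21` and the sup bounds of `XB` are local.  Hölder seminorms: `B8.HolB.of_balls_in` with `r = μ/2`.
  Let `x ∈ ball 0 3`, `D = ball x (μ/2) ∩ ball 0 3` (open, convex).  If some `y ∈ D` has `y ∈ dom`, `‖tr y‖ ≤ 5/2` then
  `D ⊆ ball y μ ∩ ball 0 3 ⊆ dom` (`A.margin_subset`) and `Inner (A.tr i j) D (ball 0 3) c` with `c = max (Cτ 1) (max (Cτ 2) (Cτ 3))`: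
  use `Comp.lean`.  Otherwise `D ⊆ O₂` and everything vanishes on `D`.
* `Lop_push`: on `O₁` `jet_comp` + `A.CompatL`; on `O₂` both sides vanish (`Lop (P j) w wt` vanishes where `w, wt` vanish locally:
  `{‖z‖ > 5/2}` is open).
* SUM: `rep_sumP` by `finsum_eq_sum_of_support_subset` (if `j ∉ A.nb i` then `A.dom i j = ∅`); then finite sums of `C21`, `XB`, `YB`
  (`B8.C21.add`, ... by `Finset.induction_on`), constant `N * C`.
* PU: `η` = a cutoff `B8.Cut η 0 1 (1/2) C₀` (`B8.exists_cutoff`), `s = A.sumP (fun _ _ => η)`; `s ≥ 1` on `A.X` (cover by unit balls,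
  all terms `≥ 0`), `rep i s` is `C¹` on `ball 0 3` with `‖D‖ ≤ N * (2 C₀) * Cτ 1`; `χ j z = η z / s (Φ j z)` for `‖z‖ < 3`, `0` otherwise.
  `push j χ_j (x) = push j η (x) / s x`.  Global Lipschitz bound: inside `ball 0 3` mean value inequality; if `‖z‖ ≤ 3/2`, `3 ≤ ‖z'‖` then
  `|χ z - 0| ≤ 1 ≤ ‖z - z'‖`.
* COVER: for `z ∈ ball 0 3` (chart `i`) take `j` with `tr i j z ∈ ball 0 1` (`A.exists_chart`), `r = min μ (1 / (Cτ 1 + 1))`,
  `D = ball z r ∩ ball 0 3 ⊆ dom`, `tr '' D ⊆ ball 0 2` (`A.tr_lip`): `Inner (A.tr i j) D (ball 0 2) c`, `rep i u = rep j u ∘ tr` on `D`.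
  Then `B8.HolB.of_balls_in`.
-/

set_option autoImplicit false
set_option maxSynthPendingDepth 3
set_option linter.unusedSectionVars false

open scoped Topology ContDiff
open Set Filter Metric

namespace Claimed.Agent.R316.B8M

open Claimed.Agent.R316.B8

section Local

variable {E : Type*} [NormedAddCommGroup E] [NormedSpace ℝ E]
variable {G : Type*} [NormedAddCommGroup G] [NormedSpace ℝ G]

/-- continuity on `I × S` is local in the space variable. -/
theorem continuousOn_prod_of_local {Z : Type*} [TopologicalSpace Z] {I : Set ℝ} {S : Set E}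
    {f : ℝ × E → Z}
    (h : ∀ x ∈ S, ∃ D : Set E, IsOpen D ∧ x ∈ D ∧ ContinuousOn f (I ×ˢ D)) :
    ContinuousOn f (I ×ˢ S) := by
  intro q hq
  obtain ⟨D, hD, hx, hc⟩ := h q.2 hq.2
  refine (hc q ⟨hq.1, hx⟩).mono_of_mem_nhdsWithin ?_
  have h1 : (univ : Set ℝ) ×ˢ D ∈ 𝓝 q := (isOpen_univ.prod hD).mem_nhds ⟨mem_univ _, hx⟩
  refine Filter.mem_of_superset (inter_mem_nhdsWithin (I ×ˢ S) h1) ?_
  rintro p ⟨hp1, hp2⟩
  exact ⟨hp1.1, hp2.2⟩

theorem C21.of_local {I : Set ℝ} {S : Set E} {u ut : ℝ → E → ℝ}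
    (h : ∀ x ∈ S, ∃ D : Set E, IsOpen D ∧ x ∈ D ∧ C21 I D u ut) : C21 I S u ut := by
  refine ⟨fun t ht x hx => ?_, fun t ht x hx => ?_, ?_, ?_, ?_, ?_⟩
  · obtain ⟨D, hD, hxD, hc⟩ := h x hx
    exact ((hc.c2 t ht).contDiffAt (hD.mem_nhds hxD)).contDiffWithinAt
  · obtain ⟨D, hD, hxD, hc⟩ := h x hx
    exact hc.dt t ht x hxD
  · exact continuousOn_prod_of_local fun x hx => by
      obtain ⟨D, hD, hxD, hc⟩ := h x hx
      exact ⟨D, hD, hxD, hc.cont0⟩
  · exact continuousOn_prod_of_local fun x hx => by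
      obtain ⟨D, hD, hxD, hc⟩ := h x hx
      exact ⟨D, hD, hxD, hc.cont1⟩
  · exact continuousOn_prod_of_local fun x hx => by
      obtain ⟨D, hD, hxD, hc⟩ := h x hx
      exact ⟨D, hD, hxD, hc.cont2⟩
  · exact continuousOn_prod_of_local fun x hx => by
      obtain ⟨D, hD, hxD, hc⟩ := h x hx
      exact ⟨D, hD, hxD, hc.contt⟩

theorem XB.of_local {I : Set ℝ} {S : Set E} {u ut : ℝ → E → ℝ} {α r K : ℝ} (hr : 0 < r)
    (hα : 0 ≤ α) (hK : 0 ≤ K) (h : ∀ x ∈ S, XB α I (ball x r ∩ S) u ut K) :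
    XB α I S u ut (K + 2 * K / r ^ α) := by
  have hK' : K ≤ K + 2 * K / r ^ α := by
    have : 0 ≤ 2 * K / r ^ α := by positivity
    linarith
  have hm : ∀ x ∈ S, x ∈ ball x r ∩ S := fun x hx => ⟨mem_ball_self hr, hx⟩
  refine ⟨fun t ht x hx => ((h x hx).b0 t ht x (hm x hx)).trans hK',
    fun t ht x hx => ((h x hx).b1 t ht x (hm x hx)).trans hK',
    fun t ht x hx => ((h x hx).b2 t ht x (hm x hx)).trans hK',
    fun t ht x hx => ((h x hx).bt t ht x (hm x hx)).trans hK',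
    fun t ht => HolB.of_balls_in hr hα hK (fun x hx => (h x hx).h2 t ht)
      fun x hx => (h x hx).b2 t ht x (hm x hx),
    fun t ht => HolB.of_balls_in hr hα hK (fun x hx => (h x hx).ht t ht)
      fun x hx => (h x hx).bt t ht x (hm x hx)⟩

theorem YB.of_local {I : Set ℝ} {S : Set E} {f : ℝ → E → G} {α r K : ℝ} (hr : 0 < r)
    (hα : 0 ≤ α) (hK : 0 ≤ K) (hS : IsOpen S) (h : ∀ x ∈ S, YB α I (ball x r ∩ S) f K) :
    YB α I S f (K + 2 * K / r ^ α) := by
  have hK' : K ≤ K + 2 * K / r ^ α := by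
    have : 0 ≤ 2 * K / r ^ α := by positivity
    linarith
  have hm : ∀ x ∈ S, x ∈ ball x r ∩ S := fun x hx => ⟨mem_ball_self hr, hx⟩
  refine ⟨continuousOn_prod_of_local fun x hx => ⟨_, isOpen_ball.inter hS, hm x hx, (h x hx).cont⟩,
    fun t ht x hx => ((h x hx).sup t ht x (hm x hx)).trans hK',
    fun t ht => HolB.of_balls_in hr hα hK (fun x hx => (h x hx).hol t ht)
      fun x hx => (h x hx).sup t ht x (hm x hx)⟩

theorem C21.zero (I : Set ℝ) {S : Set E} (hS : IsOpen S) :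
    C21 I S (fun _ _ => (0 : ℝ)) (fun _ _ => 0) :=
  C21.static (g := fun _ => (0 : ℝ)) hS contDiffOn_const

theorem jet_zero_fun (t : ℝ) (x : E) : jet (fun _ (_ : E) => (0 : ℝ)) t x = 0 := by
  have := jet_of_time (E := E) (fun _ => (0 : ℝ)) t x
  rw [this]
  rfl

theorem XB.zero (α : ℝ) (I : Set ℝ) (S : Set E) {K : ℝ} (hK : 0 ≤ K) :
    XB α I S (fun _ _ => (0 : ℝ)) (fun _ _ => 0) K := by
  have h1 : ∀ t x, D1 (fun _ (_ : E) => (0 : ℝ)) t x = 0 := fun t x =>
    congrArg (fun J : Jet E => J.2.1) (jet_zero_fun t x)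
  have h2 : ∀ t x, D2 (fun _ (_ : E) => (0 : ℝ)) t x = 0 := fun t x =>
    congrArg (fun J : Jet E => J.2.2) (jet_zero_fun t x)
  refine ⟨fun t _ x _ => by simpa using hK, fun t _ x _ => by rw [h1]; simpa using hK,
    fun t _ x _ => by rw [h2]; simpa using hK, fun t _ x _ => by simpa using hK,
    fun t _ x _ y _ => ?_, fun t _ x _ y _ => ?_⟩
  · rw [h2, h2, sub_zero, norm_zero]
    positivity
  · simp only [sub_zero, norm_zero]
    positivity

theorem YB.zero (α : ℝ) (I : Set ℝ) (S : Set E) {K : ℝ} (hK : 0 ≤ K) :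
    YB α I S (fun _ _ => (0 : G)) K := by
  refine ⟨continuousOn_const, fun t _ x _ => by simpa using hK, fun t _ x _ y _ => ?_⟩
  simp only [sub_zero, norm_zero]
  positivity

theorem C21.finset_sum {ι : Type*} {I : Set ℝ} {S : Set E} (hS : IsOpen S) (s : Finset ι)
    {u ut : ι → ℝ → E → ℝ} (h : ∀ j ∈ s, C21 I S (u j) (ut j)) :
    C21 I S (fun t x => ∑ j ∈ s, u j t x) (fun t x => ∑ j ∈ s, ut j t x) := by
  classical
  induction s using Finset.induction_on with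
  | empty => simpa using C21.zero I hS
  | insert a s ha ih =>
    have h1 := (h a (Finset.mem_insert_self a s)).add hS
      (ih fun j hj => h j (Finset.mem_insert_of_mem hj))
    simpa [Finset.sum_insert ha] using h1

theorem XB.finset_sum {ι : Type*} {I : Set ℝ} {S : Set E} (hS : IsOpen S) (s : Finset ι)
    {u ut : ι → ℝ → E → ℝ} {α K : ℝ} (h : ∀ j ∈ s, C21 I S (u j) (ut j))
    (hX : ∀ j ∈ s, XB α I S (u j) (ut j) K) :
    XB α I S (fun t x => ∑ j ∈ s, u j t x) (fun t x => ∑ j ∈ s, ut j t x) (s.card * K) := by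
  classical
  induction s using Finset.induction_on with
  | empty => simpa using XB.zero α I S le_rfl
  | insert a s ha ih =>
    have h1 := XB.add hS (h a (Finset.mem_insert_self a s))
      (C21.finset_sum hS s fun j hj => h j (Finset.mem_insert_of_mem hj))
      (hX a (Finset.mem_insert_self a s))
      (ih (fun j hj => h j (Finset.mem_insert_of_mem hj))
        fun j hj => hX j (Finset.mem_insert_of_mem hj))
    have e : ((insert a s).card : ℝ) * K = K + s.card * K := by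
      rw [Finset.card_insert_of_notMem ha]
      push_cast
      ring
    rw [e]
    simpa [Finset.sum_insert ha] using h1

theorem YB.finset_sum {ι : Type*} {I : Set ℝ} {S : Set E} (s : Finset ι)
    {f : ι → ℝ → E → G} {α K : ℝ} (h : ∀ j ∈ s, YB α I S (f j) K) :
    YB α I S (fun t x => ∑ j ∈ s, f j t x) (s.card * K) := by
  classical
  induction s using Finset.induction_on with
  | empty => simpa using YB.zero (G := G) α I S le_rfl
  | insert a s ha ih =>
    have h1 := (h a (Finset.mem_insert_self a s)).add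
      (ih fun j hj => h j (Finset.mem_insert_of_mem hj))
    have e : ((insert a s).card : ℝ) * K = K + s.card * K := by
      rw [Finset.card_insert_of_notMem ha]
      push_cast
      ring
    rw [e]
    simpa [Finset.sum_insert ha] using h1

theorem contDiffOn_finset_sum' {ι : Type*} {S : Set E} (s : Finset ι) {u : ι → E → ℝ}
    (h : ∀ j ∈ s, ContDiffOn ℝ 2 (u j) S) : ContDiffOn ℝ 2 (fun x => ∑ j ∈ s, u j x) S :=
  ContDiffOn.sum h

theorem jet_finset_sum {ι : Type*} {S : Set E} (hS : IsOpen S) (s : Finset ι)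
    {u : ι → ℝ → E → ℝ} {t : ℝ} (h : ∀ j ∈ s, ContDiffOn ℝ 2 (u j t) S) {x : E} (hx : x ∈ S) :
    jet (fun t x => ∑ j ∈ s, u j t x) t x = ∑ j ∈ s, jet (u j) t x := by
  classical
  induction s using Finset.induction_on with
  | empty => simpa using jet_zero_fun t x
  | insert a s ha ih =>
    have h1 := jet_add (u := u a) (v := fun t x => ∑ j ∈ s, u j t x) hS hx
      (h a (Finset.mem_insert_self a s))
      (contDiffOn_finset_sum' s fun j hj => h j (Finset.mem_insert_of_mem hj))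
    rw [Finset.sum_insert ha, ← ih fun j hj => h j (Finset.mem_insert_of_mem hj), ← h1]
    simp [Finset.sum_insert ha]

end Local

variable {V E : Type} [NormedAddCommGroup V] [NormedSpace ℝ V]
  [NormedAddCommGroup E] [InnerProductSpace ℝ E] [FiniteDimensional ℝ E]

/-- `w` vanishes outside `closedBall 0 s`. -/
def Supp {G : Type*} [Zero G] (s : ℝ) (w : ℝ → E → G) : Prop := ∀ t z, s < ‖z‖ → w t z = 0

namespace UAtlas

variable (A : UAtlas V E)

section Push

theorem push_eq_zero (j : A.ι) (w : ℝ → E → ℝ) (t : ℝ) {x : V} (hx : x ∉ A.Φ j '' ball (0 : E) 3) :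
    A.push j w t x = 0 := by
  unfold push
  rw [if_neg hx]

theorem push_apply (j : A.ι) (w : ℝ → E → ℝ) (t : ℝ) {z : E} (hz : z ∈ ball (0 : E) 3) :
    A.push j w t (A.Φ j z) = w t z := by
  have hx : A.Φ j z ∈ A.Φ j '' ball (0 : E) 3 := mem_image_of_mem _ hz
  unfold push
  rw [if_pos hx]
  congr 1
  exact A.inj j (Function.invFunOn_mem hx) hz (Function.invFunOn_eq hx)

open Classical in
theorem rep_push (i j : A.ι) (w : ℝ → E → ℝ) (t : ℝ) {z : E} (hz : z ∈ ball (0 : E) 3) :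
    A.rep i (A.push j w) t z = if z ∈ A.dom i j then w t (A.tr i j z) else 0 := by
  show A.push j w t (A.Φ i z) = _
  split_ifs with h
  · rw [← A.Φ_tr h]
    exact A.push_apply j w t (A.tr_mem_ball h)
  · exact A.push_eq_zero j w t fun hx => h ⟨hz, hx⟩

theorem rep_push_self (j : A.ι) (w : ℝ → E → ℝ) (t : ℝ) {z : E} (hz : z ∈ ball (0 : E) 3) :
    A.rep j (A.push j w) t z = w t z := A.push_apply j w t hz

theorem rep_push_dom (i j : A.ι) (w : ℝ → E → ℝ) (t : ℝ) {z : E} (hz : z ∈ A.dom i j) :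
    A.rep i (A.push j w) t z = w t (A.tr i j z) := by
  rw [A.rep_push i j w t hz.1, if_pos hz]

theorem rep_push_off (i j : A.ι) {w : ℝ → E → ℝ} (hs : Supp (5 / 2) w) (t : ℝ) {z : E}
    (hz : z ∈ ball (0 : E) 3) (h : ¬ (z ∈ A.dom i j ∧ ‖A.tr i j z‖ ≤ 5 / 2)) :
    A.rep i (A.push j w) t z = 0 := by
  classical
  rw [A.rep_push i j w t hz]
  split_ifs with h1
  · exact hs t _ (not_le.mp fun h2 => h ⟨h1, h2⟩)
  · rfl

/-- common bound of the first three derivatives of the transitions. -/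
noncomputable def c3 : ℝ := max (A.Cτ 1) (max (A.Cτ 2) (A.Cτ 3))

theorem inner_tr {i j : A.ι} {D S' : Set E} (hD : IsOpen D) (hc : Convex ℝ D) (hsub : D ⊆ A.dom i j)
    (hS' : IsOpen S') (hm : MapsTo (A.tr i j) D S') : Inner (A.tr i j) D S' A.c3 :=
  ⟨hD, hc, hS', (A.tr_smooth i j).mono hsub, hm,
    fun _ hz => (A.norm_fderiv_tr_le (hsub hz)).trans (le_max_left _ _),
    fun _ hz => (A.norm_fderiv2_tr_le (hsub hz)).trans ((le_max_left _ _).trans (le_max_right _ _)),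
    fun _ hz => (A.norm_fderiv3_tr_le (hsub hz)).trans ((le_max_right _ _).trans (le_max_right _ _))⟩

/-- the local alternative for push-forwards. -/
theorem push_cases (i j : A.ι) (x : E) :
    (ball x (A.μ / 2) ∩ ball (0 : E) 3 ⊆ A.dom i j ∧
      Inner (A.tr i j) (ball x (A.μ / 2) ∩ ball (0 : E) 3) (ball (0 : E) 3) A.c3) ∨
    ∀ y ∈ ball x (A.μ / 2) ∩ ball (0 : E) 3, ¬ (y ∈ A.dom i j ∧ ‖A.tr i j y‖ ≤ 5 / 2) := by
  by_cases h : ∃ y ∈ ball x (A.μ / 2) ∩ ball (0 : E) 3, y ∈ A.dom i j ∧ ‖A.tr i j y‖ ≤ 5 / 2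
  · left
    obtain ⟨y, hy, hyd, hyn⟩ := h
    have hsub : ball x (A.μ / 2) ∩ ball (0 : E) 3 ⊆ A.dom i j := by
      refine Subset.trans ?_ (A.margin_subset hyd hyn)
      rintro z ⟨hz1, hz2⟩
      refine ⟨?_, hz2⟩
      rw [mem_ball] at hz1 ⊢
      have h1 := hy.1
      rw [mem_ball] at h1
      calc dist z y ≤ dist z x + dist x y := dist_triangle _ _ _
        _ < A.μ / 2 + A.μ / 2 := add_lt_add hz1 (by rwa [dist_comm])
        _ = A.μ := by ring
    exact ⟨hsub, A.inner_tr (isOpen_ball.inter isOpen_ball)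
      ((convex_ball _ _).inter (convex_ball _ _)) hsub isOpen_ball
      fun z hz => A.tr_mem_ball (hsub hz)⟩
  · right
    intro y hy hy'
    exact h ⟨y, hy, hy'⟩

theorem isOpen_loc (x : E) : IsOpen (ball x (A.μ / 2) ∩ ball (0 : E) 3) :=
  isOpen_ball.inter isOpen_ball

theorem mem_loc {x : E} (hx : x ∈ ball (0 : E) 3) : x ∈ ball x (A.μ / 2) ∩ ball (0 : E) 3 :=
  ⟨mem_ball_self (half_pos A.μ_pos), hx⟩

theorem C21_push {I : Set ℝ} (i j : A.ι) {w wt : ℝ → E → ℝ} (hs : Supp (5 / 2) w)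
    (hst : Supp (5 / 2) wt) (hw : C21 I (ball (0 : E) 3) w wt) :
    C21 I (ball (0 : E) 3) (A.rep i (A.push j w)) (A.rep i (A.push j wt)) := by
  refine C21.of_local fun x hx => ⟨_, A.isOpen_loc x, A.mem_loc hx, ?_⟩
  rcases A.push_cases i j x with ⟨hsub, hin⟩ | hoff
  · exact (C21.comp_inner hin hw).congr (A.isOpen_loc x)
      (fun t _ y hy => A.rep_push_dom i j w t (hsub hy))
      (fun t _ y hy => A.rep_push_dom i j wt t (hsub hy))
  · exact (C21.zero I (A.isOpen_loc x)).congr (A.isOpen_loc x)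
      (fun t _ y hy => A.rep_push_off i j hs t hy.2 (hoff y hy))
      (fun t _ y hy => A.rep_push_off i j hst t hy.2 (hoff y hy))

theorem contDiffOn_push (i j : A.ι) {w : ℝ → E → ℝ} (hs : Supp (5 / 2) w) {t : ℝ}
    (hw : ContDiffOn ℝ 2 (w t) (ball (0 : E) 3)) :
    ContDiffOn ℝ 2 (A.rep i (A.push j w) t) (ball (0 : E) 3) := by
  intro x hx
  have hn := (A.isOpen_loc x).mem_nhds (A.mem_loc hx)
  refine ContDiffAt.contDiffWithinAt ?_
  rcases A.push_cases i j x with ⟨hsub, hin⟩ | hoff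
  · have h1 : ContDiffOn ℝ 2 (fun y => w t (A.tr i j y)) (ball x (A.μ / 2) ∩ ball (0 : E) 3) :=
      hw.comp (hin.smooth.of_le (WithTop.coe_le_coe.2 le_top)) hin.maps
    exact (h1.congr fun y hy => A.rep_push_dom i j w t (hsub hy)).contDiffAt hn
  · have h1 : ContDiffOn ℝ 2 (fun _ : E => (0 : ℝ)) (ball x (A.μ / 2) ∩ ball (0 : E) 3) :=
      contDiffOn_const
    exact (h1.congr fun y hy => A.rep_push_off i j hs t hy.2 (hoff y hy)).contDiffAt hn

theorem exists_XB_push (α : ℝ) (hα : 0 < α) (hα1 : α ≤ 1) : ∃ C : ℝ, 0 ≤ C ∧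
    ∀ (I : Set ℝ) (i j : A.ι) (w wt : ℝ → E → ℝ) (K : ℝ), 0 ≤ K → Supp (5 / 2) w → Supp (5 / 2) wt →
      C21 I (ball (0 : E) 3) w wt → XB α I (ball (0 : E) 3) w wt K →
      XB α I (ball (0 : E) 3) (A.rep i (A.push j w)) (A.rep i (A.push j wt)) (C * K) := by
  obtain ⟨C, hC, h⟩ := exists_XB_comp_inner (E := E) A.c3 α hα hα1
  have hμ := half_pos A.μ_pos
  refine ⟨C + 2 * C / (A.μ / 2) ^ α, by positivity, ?_⟩
  intro I i j w wt K hK hs hst hw hX
  have hCK : 0 ≤ C * K := mul_nonneg hC hK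
  have key := XB.of_local (I := I) (S := ball (0 : E) 3) (u := A.rep i (A.push j w))
    (ut := A.rep i (A.push j wt)) (α := α) hμ hα.le hCK fun x hx => ?_
  · refine key.mono (le_of_eq ?_)
    ring
  · rcases A.push_cases i j x with ⟨hsub, hin⟩ | hoff
    · exact (h _ _ _ I w wt K hin hK hw hX).congr (A.isOpen_loc x)
        (fun t _ y hy => A.rep_push_dom i j w t (hsub hy))
        (fun t _ y hy => A.rep_push_dom i j wt t (hsub hy))
    · exact (XB.zero α I _ hCK).congr (A.isOpen_loc x)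
        (fun t _ y hy => A.rep_push_off i j hs t hy.2 (hoff y hy))
        (fun t _ y hy => A.rep_push_off i j hst t hy.2 (hoff y hy))

theorem exists_YB_push (α : ℝ) (hα : 0 < α) (hα1 : α ≤ 1) : ∃ C : ℝ, 0 ≤ C ∧
    ∀ (I : Set ℝ) (i j : A.ι) (f : ℝ → E → ℝ) (K : ℝ), 0 ≤ K → Supp (5 / 2) f →
      YB α I (ball (0 : E) 3) f K → YB α I (ball (0 : E) 3) (A.rep i (A.push j f)) (C * K) := by
  have hμ := half_pos A.μ_pos
  obtain ⟨C, hCdef⟩ : ∃ C, C = max 1 A.c3 := ⟨_, rfl⟩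
  have hC : 0 ≤ C := hCdef ▸ (zero_le_one.trans (le_max_left _ _))
  refine ⟨C + 2 * C / (A.μ / 2) ^ α, by positivity, ?_⟩
  intro I i j f K hK hs hf
  have hCK : 0 ≤ C * K := mul_nonneg hC hK
  have key := YB.of_local (I := I) (S := ball (0 : E) 3) (f := A.rep i (A.push j f))
    (α := α) hμ hα.le hCK isOpen_ball fun x hx => ?_
  · refine key.mono (le_of_eq ?_)
    ring
  · rcases A.push_cases i j x with ⟨hsub, hin⟩ | hoff
    · rw [hCdef]
      exact (YB.comp_inner hin hα hα1 hK hf).congr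
        (fun t _ y hy => A.rep_push_dom i j f t (hsub hy))
    · exact (YB.zero α I _ hCK).congr
        (fun t _ y hy => A.rep_push_off i j hs t hy.2 (hoff y hy))

/-- the operator commutes with the push-forward. -/
theorem Lop_push {I : Set ℝ} {P : A.ι → Op E} (hP : A.CompatL I P) (i j : A.ι) {w wt : ℝ → E → ℝ}
    (hs : Supp (5 / 2) w) (hst : Supp (5 / 2) wt) {t : ℝ} (ht : t ∈ I)
    (hw : ContDiffOn ℝ 2 (w t) (ball (0 : E) 3)) {z : E} (hz : z ∈ ball (0 : E) 3) :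
    Lop (P i) (A.rep i (A.push j w)) (A.rep i (A.push j wt)) t z
      = A.rep i (A.push j (Lop (P j) w wt)) t z := by
  by_cases h : z ∈ A.dom i j
  · rw [A.rep_push_dom i j _ t h]
    simp only [Lop]
    rw [A.rep_push_dom i j _ t h]
    have h1 : jet (A.rep i (A.push j w)) t z = A.pull i j z (jet w t (A.tr i j z)) := by
      rw [jet_congr_nhds (v := fun t y => w t (A.tr i j y))]
      · exact jet_comp ((A.tr_contDiffAt h).of_le (WithTop.coe_le_coe.2 le_top))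
          (hw.contDiffAt (isOpen_ball.mem_nhds (A.tr_mem_ball h)))
      · filter_upwards [(A.isOpen_dom i j).mem_nhds h] with y hy
        exact A.rep_push_dom i j w t hy
    rw [h1, hP i j t ht z h]
  · have hoff : ¬ (z ∈ A.dom i j ∧ ‖A.tr i j z‖ ≤ 5 / 2) := fun h' => h h'.1
    have h0 : A.rep i (A.push j (Lop (P j) w wt)) t z = 0 := by
      classical
      rw [A.rep_push i j _ t hz, if_neg h]
    rw [h0]
    simp only [Lop]
    rw [A.rep_push_off i j hst t hz hoff]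
    have h1 : jet (A.rep i (A.push j w)) t z = 0 := by
      rw [jet_congr_nhds (v := fun _ _ => (0 : ℝ)), jet_zero_fun]
      have ho := A.isOpen_off i j (s := 5 / 2) (by norm_num)
      filter_upwards [ho.mem_nhds ⟨hz, hoff⟩] with y hy
      exact A.rep_push_off i j hs t hy.1 hy.2
    rw [h1]
    simp

end Push


section Sum

/-- locally finite sum of push-forwards. -/
noncomputable def sumP (w : A.ι → ℝ → E → ℝ) : ℝ → V → ℝ := fun t x => ∑ᶠ j, A.push j (w j) t x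

theorem rep_sumP (w : A.ι → ℝ → E → ℝ) (i : A.ι) (t : ℝ) {z : E} (hz : z ∈ ball (0 : E) 3) :
    A.rep i (A.sumP w) t z = ∑ j ∈ A.nb i, A.rep i (A.push j (w j)) t z := by
  show ∑ᶠ j, A.push j (w j) t (A.Φ i z) = _
  refine finsum_eq_sum_of_support_subset _ fun j hj => ?_
  by_contra hn
  refine hj (A.push_eq_zero j (w j) t fun hx => hn ?_)
  exact Finset.mem_coe.mpr (A.mem_nb_of_mem_dom (z := z) ⟨hz, hx⟩)

theorem C21M_sumP {I : Set ℝ} {w wt : A.ι → ℝ → E → ℝ} (hs : ∀ j, Supp (5 / 2) (w j))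
    (hst : ∀ j, Supp (5 / 2) (wt j)) (hw : ∀ j, C21 I (ball (0 : E) 3) (w j) (wt j)) :
    A.C21M I (A.sumP w) (A.sumP wt) := by
  intro i
  exact (C21.finset_sum isOpen_ball (A.nb i)
    fun j _ => A.C21_push i j (hs j) (hst j) (hw j)).congr isOpen_ball
    (fun t _ z hz => A.rep_sumP w i t hz) (fun t _ z hz => A.rep_sumP wt i t hz)

theorem exists_XM_sumP (α : ℝ) (hα : 0 < α) (hα1 : α ≤ 1) : ∃ C : ℝ, 0 ≤ C ∧
    ∀ (I : Set ℝ) (w wt : A.ι → ℝ → E → ℝ) (K : ℝ), 0 ≤ K → (∀ j, Supp (5 / 2) (w j)) →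
      (∀ j, Supp (5 / 2) (wt j)) → (∀ j, C21 I (ball (0 : E) 3) (w j) (wt j)) →
      (∀ j, XB α I (ball (0 : E) 3) (w j) (wt j) K) → A.XM α I (A.sumP w) (A.sumP wt) (C * K) := by
  obtain ⟨C, hC, h⟩ := A.exists_XB_push α hα hα1
  refine ⟨A.N * C, by positivity, fun I w wt K hK hs hst hw hX i => ?_⟩
  have h1 := (XB.finset_sum isOpen_ball (A.nb i)
    (fun j _ => A.C21_push i j (hs j) (hst j) (hw j))
    (fun j _ => h I i j (w j) (wt j) K hK (hs j) (hst j) (hw j) (hX j))).congr isOpen_ball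
    (fun t _ z hz => A.rep_sumP w i t hz) (fun t _ z hz => A.rep_sumP wt i t hz)
  refine h1.mono ?_
  have h2 : ((A.nb i).card : ℝ) ≤ A.N := by exact_mod_cast A.nb_card i
  calc ((A.nb i).card : ℝ) * (C * K) ≤ A.N * (C * K) := by gcongr
    _ = A.N * C * K := by ring

theorem exists_YM_sumP (α : ℝ) (hα : 0 < α) (hα1 : α ≤ 1) : ∃ C : ℝ, 0 ≤ C ∧
    ∀ (I : Set ℝ) (f : A.ι → ℝ → E → ℝ) (K : ℝ), 0 ≤ K → (∀ j, Supp (5 / 2) (f j)) →
      (∀ j, YB α I (ball (0 : E) 3) (f j) K) → A.YM α I (A.sumP f) (C * K) := by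
  obtain ⟨C, hC, h⟩ := A.exists_YB_push α hα hα1
  refine ⟨A.N * C, by positivity, fun I f K hK hs hf i => ?_⟩
  have h1 := (YB.finset_sum (A.nb i)
    (fun j _ => h I i j (f j) K hK (hs j) (hf j))).congr
    (fun t _ z hz => A.rep_sumP f i t hz)
  refine h1.mono ?_
  have h2 : ((A.nb i).card : ℝ) ≤ A.N := by exact_mod_cast A.nb_card i
  calc ((A.nb i).card : ℝ) * (C * K) ≤ A.N * (C * K) := by gcongr
    _ = A.N * C * K := by ring

theorem Lop_sumP {I : Set ℝ} {P : A.ι → Op E} (hP : A.CompatL I P) {w wt : A.ι → ℝ → E → ℝ}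
    (hs : ∀ j, Supp (5 / 2) (w j)) (hst : ∀ j, Supp (5 / 2) (wt j))
    (hw : ∀ j, ∀ t ∈ I, ContDiffOn ℝ 2 (w j t) (ball (0 : E) 3)) (i : A.ι) {t : ℝ} (ht : t ∈ I) {z : E}
    (hz : z ∈ ball (0 : E) 3) :
    Lop (P i) (A.rep i (A.sumP w)) (A.rep i (A.sumP wt)) t z
      = A.rep i (A.sumP (fun j => Lop (P j) (w j) (wt j))) t z := by
  rw [A.rep_sumP _ i t hz]
  simp only [Lop]
  rw [A.rep_sumP _ i t hz]
  have h1 : jet (A.rep i (A.sumP w)) t z = ∑ j ∈ A.nb i, jet (A.rep i (A.push j (w j))) t z := by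
    rw [jet_congr (v := fun t z => ∑ j ∈ A.nb i, A.rep i (A.push j (w j)) t z) isOpen_ball hz
      (fun y hy => A.rep_sumP w i t hy)]
    exact jet_finset_sum isOpen_ball (A.nb i)
      (fun j _ => A.contDiffOn_push i j (hs j) (hw j t ht)) hz
  rw [h1, map_sum, ← Finset.sum_sub_distrib]
  refine Finset.sum_congr rfl fun j _ => ?_
  exact A.Lop_push hP i j (hs j) (hst j) ht (hw j t ht) hz

/-- only the values on `ball 0 3` matter. -/
theorem sumP_congr {w w' : A.ι → ℝ → E → ℝ} {t : ℝ}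
    (h : ∀ j, ∀ z ∈ ball (0 : E) 3, w j t z = w' j t z) (x : V) : A.sumP w t x = A.sumP w' t x := by
  unfold sumP
  congr 1
  funext j
  by_cases hx : x ∈ A.Φ j '' ball (0 : E) 3
  · obtain ⟨z, hz, rfl⟩ := hx
    rw [A.push_apply j _ t hz, A.push_apply j _ t hz, h j z hz]
  · rw [A.push_eq_zero j _ t hx, A.push_eq_zero j _ t hx]

theorem sumP_sub (w w' : A.ι → ℝ → E → ℝ) (t : ℝ) {x : V} (hx : x ∈ A.X) :
    A.sumP (fun j t z => w j t z - w' j t z) t x = A.sumP w t x - A.sumP w' t x := by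
  classical
  obtain ⟨i, z, hz1, rfl⟩ := A.cover x hx
  have hz : z ∈ ball (0 : E) 3 := ball_subset_ball (by norm_num) hz1
  have e1 := A.rep_sumP (fun j t z => w j t z - w' j t z) i t hz
  have e2 := A.rep_sumP w i t hz
  have e3 := A.rep_sumP w' i t hz
  show A.rep i (A.sumP fun j t z => w j t z - w' j t z) t z
    = A.rep i (A.sumP w) t z - A.rep i (A.sumP w') t z
  rw [e1, e2, e3, ← Finset.sum_sub_distrib]
  refine Finset.sum_congr rfl fun j _ => ?_
  rw [A.rep_push i j _ t hz, A.rep_push i j _ t hz, A.rep_push i j _ t hz]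
  split_ifs <;> simp

end Sum


section PU

/-- **partition of unity** subordinate to the balls of radius `3/2`, uniformly Lipschitz. -/
theorem exists_pu : ∃ (χ : A.ι → E → ℝ) (C : ℝ), 0 ≤ C ∧ (∀ j z, 0 ≤ χ j z ∧ χ j z ≤ 1) ∧
    (∀ j z, 3 / 2 < ‖z‖ → χ j z = 0) ∧ (∀ j z z', |χ j z - χ j z'| ≤ C * ‖z - z'‖) ∧
    ∀ (f : ℝ → V → ℝ) (t : ℝ), ∀ x ∈ A.X,
      A.sumP (fun j t z => χ j z * A.rep j f t z) t x = f t x := by
  classical
  obtain ⟨C₀, hC₀, hcut⟩ := exists_cutoff (E := E)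
  obtain ⟨η, hη⟩ := hcut 0 1 (1 / 2) (by norm_num) (by norm_num)
  obtain ⟨W, hW⟩ : ∃ W : A.ι → ℝ → E → ℝ, W = fun _ _ => η := ⟨_, rfl⟩
  obtain ⟨s, hsdef⟩ : ∃ s : V → ℝ, s = A.sumP W 0 := ⟨_, rfl⟩
  have hsupp : ∀ z : E, 3 / 2 ≤ ‖z‖ → η z = 0 := fun z hz => hη.eq_zero z (by
    rw [mem_ball_zero_iff]
    linarith)
  have hS : ∀ j, Supp (5 / 2) (W j) := fun j t z hz => by
    rw [hW]
    exact hsupp z (by linarith)
  have hs : ∀ i, ∀ z ∈ ball (0 : E) 3,
      s (A.Φ i z) = ∑ j ∈ A.nb i, if z ∈ A.dom i j then η (A.tr i j z) else 0 := by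
    intro i z hz
    have h1 := A.rep_sumP W i 0 hz
    rw [hsdef]
    show A.rep i (A.sumP W) 0 z = _
    rw [h1]
    refine Finset.sum_congr rfl fun j _ => ?_
    rw [A.rep_push i j _ 0 hz, hW]
  have hs1 : ∀ x ∈ A.X, 1 ≤ s x := by
    intro x hx
    obtain ⟨i, z, hz1, rfl⟩ := A.cover x hx
    have hz : z ∈ ball (0 : E) 3 := ball_subset_ball (by norm_num) hz1
    rw [hs i z hz]
    have hi : i ∈ A.nb i := A.mem_nb_of_mem_dom (A.mem_dom_self hz)
    calc (1 : ℝ) = (if z ∈ A.dom i i then η (A.tr i i z) else 0) := by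
          rw [if_pos (A.mem_dom_self hz), A.tr_self hz, hη.eq_one z (ball_subset_closedBall hz1)]
      _ ≤ _ := Finset.single_le_sum
          (f := fun j => if z ∈ A.dom i j then η (A.tr i j z) else 0)
          (fun j _ => by
            show 0 ≤ if z ∈ A.dom i j then η (A.tr i j z) else 0
            split_ifs
            · exact hη.nonneg _
            · exact le_rfl) hi
  -- Lipschitz bounds
  obtain ⟨C₁, hC₁, hXM⟩ := A.exists_XM_sumP 1 one_pos le_rfl
  obtain ⟨K, hKdef⟩ : ∃ K : ℝ, K = 1 + C₀ / (1 / 2) + C₀ / (1 / 2) ^ 2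
    + 2 * C₀ / (1 / 2 : ℝ) ^ ((2 : ℝ) + 1) := ⟨_, rfl⟩
  have hC₀0 : 0 ≤ C₀ := zero_le_one.trans hC₀
  have p1 : 0 ≤ C₀ / (1 / 2) := by positivity
  have p2 : 0 ≤ C₀ / (1 / 2) ^ 2 := by positivity
  have p3 : 0 ≤ 2 * C₀ / (1 / 2 : ℝ) ^ ((2 : ℝ) + 1) := by positivity
  have hK : 0 ≤ K := by rw [hKdef]; positivity
  have hc2a : C2aB 1 (ball (0 : E) 3) η K := by
    refine ⟨(hη.smooth.of_le (WithTop.coe_le_coe.2 le_top)).contDiffOn, fun z _ => ?_, fun z _ => ?_,
      fun z _ => ?_, ?_⟩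
    · rw [Real.norm_eq_abs, abs_of_nonneg (hη.nonneg z)]
      linarith [hη.le_one z]
    · linarith [hη.d1 z]
    · linarith [hη.d2 z]
    · exact ((hη.hol2 hC₀ (by norm_num) one_pos le_rfl).subset (subset_univ _)).mono (by linarith)
  have hC21W : ∀ j, C21 (univ : Set ℝ) (ball (0 : E) 3) (W j) (fun _ _ => 0) := fun j => by
    rw [hW]
    exact C21.static isOpen_ball hc2a.c2
  have hS0 : ∀ j : A.ι, Supp (5 / 2) (fun (_ : ℝ) (_ : E) => (0 : ℝ)) := fun j t z _ => rfl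
  have hX := hXM univ W (fun _ _ _ => 0) K hK hS hS0 hC21W (fun j => by
    rw [hW]
    exact XB.static hc2a hK)
  have hC21 := A.C21M_sumP (I := univ) hS hS0 hC21W
  have hσlip : ∀ i, ∀ x ∈ ball (0 : E) 3, ∀ y ∈ ball (0 : E) 3,
      |s (A.Φ i x) - s (A.Φ i y)| ≤ C₁ * K * ‖x - y‖ := by
    intro i x hx y hy
    have := lip_of_fderiv isOpen_ball (convex_ball (0 : E) 3)
      (((hC21 i).c2 0 (mem_univ _)).differentiableOn (by norm_num))
      (fun z hz => (hX i).b1 0 (mem_univ _) z hz) x hx y hy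
    rw [hsdef]
    exact this
  have hηlip : ∀ x y : E, |η x - η y| ≤ C₀ / (1 / 2) * ‖x - y‖ := by
    intro x y
    exact lip_of_fderiv isOpen_univ convex_univ
      (hη.smooth.differentiable (by simp)).differentiableOn (fun z _ => hη.d1 z)
      x (mem_univ _) y (mem_univ _)
  have hb : ∀ j, ∀ z ∈ ball (0 : E) 3, 1 ≤ s (A.Φ j z) := fun j z hz => hs1 _ (A.maps j hz)
  refine ⟨fun j z => if ‖z‖ < 3 then η z / s (A.Φ j z) else 0, 1 + C₀ / (1 / 2) + C₁ * K,
    by positivity, ?_, ?_, ?_, ?_⟩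
  · intro j z
    show 0 ≤ (if ‖z‖ < 3 then η z / s (A.Φ j z) else 0)
      ∧ (if ‖z‖ < 3 then η z / s (A.Φ j z) else 0) ≤ 1
    split_ifs with h
    · have h1 := hb j z (by simpa using h)
      refine ⟨div_nonneg (hη.nonneg z) (by linarith), ?_⟩
      rw [div_le_one (by linarith)]
      exact (hη.le_one z).trans h1
    · exact ⟨le_rfl, zero_le_one⟩
  · intro j z hz
    show (if ‖z‖ < 3 then η z / s (A.Φ j z) else 0) = 0
    rw [hsupp z hz.le]
    simp
  · -- one point inside, one outside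
    have hout : ∀ j (z z' : E), ‖z‖ < 3 → ¬ ‖z'‖ < 3 →
        |η z / s (A.Φ j z)| ≤ (1 + C₀ / (1 / 2) + C₁ * K) * ‖z - z'‖ := by
      intro j z z' h h'
      have h1 := hb j z (by simpa using h)
      rcases le_or_gt (3 / 2) ‖z‖ with h2 | h2
      · rw [hsupp z h2]
        simp only [zero_div, abs_zero]
        positivity
      · have h3 : (3 : ℝ) / 2 ≤ ‖z - z'‖ := by
          have := norm_sub_norm_le z' z
          rw [norm_sub_rev] at this
          linarith [not_lt.mp h']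
        have h4 : |η z / s (A.Φ j z)| ≤ 1 := by
          rw [abs_of_nonneg (div_nonneg (hη.nonneg z) (by linarith)), div_le_one (by linarith)]
          exact (hη.le_one z).trans h1
        have h5 : 0 ≤ (C₀ / (1 / 2) + C₁ * K) * ‖z - z'‖ := by positivity
        nlinarith
    intro j z z'
    show |(if ‖z‖ < 3 then η z / s (A.Φ j z) else 0)
      - (if ‖z'‖ < 3 then η z' / s (A.Φ j z') else 0)| ≤ _
    split_ifs with h h' h'
    · have hz : z ∈ ball (0 : E) 3 := by simpa using h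
      have hz' : z' ∈ ball (0 : E) 3 := by simpa using h'
      have h1 := hb j z hz
      have h2 := hb j z' hz'
      have e : η z / s (A.Φ j z) - η z' / s (A.Φ j z')
          = (η z - η z') / s (A.Φ j z)
            + η z' * (s (A.Φ j z') - s (A.Φ j z)) / (s (A.Φ j z) * s (A.Φ j z')) := by
        field_simp
        ring
      rw [e]
      have b1 : |(η z - η z') / s (A.Φ j z)| ≤ C₀ / (1 / 2) * ‖z - z'‖ := by
        rw [abs_div, abs_of_pos (show 0 < s (A.Φ j z) by linarith)]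
        refine (div_le_self (abs_nonneg _) h1).trans (hηlip z z')
      have b2 : |η z' * (s (A.Φ j z') - s (A.Φ j z)) / (s (A.Φ j z) * s (A.Φ j z'))|
          ≤ C₁ * K * ‖z - z'‖ := by
        have hpos : 1 ≤ s (A.Φ j z) * s (A.Φ j z') := by nlinarith
        rw [abs_div, abs_of_pos (show 0 < s (A.Φ j z) * s (A.Φ j z') by linarith)]
        refine (div_le_self (abs_nonneg _) hpos).trans ?_
        rw [abs_mul, abs_of_nonneg (hη.nonneg z')]
        have h3 := hσlip j z' hz' z hz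
        rw [norm_sub_rev] at h3
        calc η z' * |s (A.Φ j z') - s (A.Φ j z)| ≤ 1 * |s (A.Φ j z') - s (A.Φ j z)| := by
              gcongr
              exact hη.le_one z'
          _ ≤ C₁ * K * ‖z - z'‖ := by rw [one_mul]; exact h3
      refine (abs_add_le _ _).trans ?_
      have : 0 ≤ ‖z - z'‖ := norm_nonneg _
      nlinarith
    · rw [sub_zero]
      exact hout j z z' h h'
    · rw [zero_sub, abs_neg, norm_sub_rev]
      exact hout j z' z h' h
    · simp only [sub_zero, abs_zero]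
      positivity
  · intro f t x hx
    obtain ⟨i, z, hz1, rfl⟩ := A.cover x hx
    have hz : z ∈ ball (0 : E) 3 := ball_subset_ball (by norm_num) hz1
    show A.rep i (A.sumP _) t z = _
    rw [A.rep_sumP _ i t hz]
    have h1 : ∀ j ∈ A.nb i, A.rep i (A.push j (fun t z =>
        (if ‖z‖ < 3 then η z / s (A.Φ j z) else 0) * A.rep j f t z)) t z
        = (f t (A.Φ i z) / s (A.Φ i z)) * (if z ∈ A.dom i j then η (A.tr i j z) else 0) := by
      intro j _
      rw [A.rep_push i j _ t hz]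
      split_ifs with h2 h3
      · show η (A.tr i j z) / s (A.Φ j (A.tr i j z)) * f t (A.Φ j (A.tr i j z)) = _
        rw [A.Φ_tr h2]
        ring
      · exact absurd (by simpa using A.tr_mem_ball h2) h3
      · simp
    rw [Finset.sum_congr rfl h1, ← Finset.mul_sum, ← hs i z hz]
    have := hb i z hz
    field_simp

end PU

section Cover

/-- radius of the covering neighbourhoods. -/
noncomputable def rc : ℝ := min A.μ (1 / (|A.Cτ 1| + 1))

theorem rc_pos : 0 < A.rc := lt_min A.μ_pos (by positivity)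

theorem isOpen_locc (x : E) : IsOpen (ball x A.rc ∩ ball (0 : E) 3) :=
  isOpen_ball.inter isOpen_ball

theorem mem_locc {x : E} (hx : x ∈ ball (0 : E) 3) : x ∈ ball x A.rc ∩ ball (0 : E) 3 :=
  ⟨mem_ball_self A.rc_pos, hx⟩

theorem cover_cases (i : A.ι) {x : E} (hx : x ∈ ball (0 : E) 3) :
    ∃ j, ball x A.rc ∩ ball (0 : E) 3 ⊆ A.dom i j ∧
      Inner (A.tr i j) (ball x A.rc ∩ ball (0 : E) 3) (ball (0 : E) 2) A.c3 := by
  obtain ⟨j, hd, h1⟩ := A.exists_chart (i := i) hx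
  have h1' : ‖A.tr i j x‖ < 1 := by simpa using h1
  have h52 : ‖A.tr i j x‖ ≤ 5 / 2 := by linarith
  have hsub' : ball x A.rc ∩ ball (0 : E) 3 ⊆ ball x A.μ ∩ ball (0 : E) 3 :=
    inter_subset_inter_left _ (ball_subset_ball (min_le_left _ _))
  have hsub : ball x A.rc ∩ ball (0 : E) 3 ⊆ A.dom i j := hsub'.trans (A.margin_subset hd h52)
  refine ⟨j, hsub, A.inner_tr (A.isOpen_locc x) ((convex_ball _ _).inter (convex_ball _ _)) hsub
    isOpen_ball fun y hy => ?_⟩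
  have h2 := A.tr_lip hd h52 (hsub' hy) (hsub' (A.mem_locc hx))
  have h3 : ‖y - x‖ < 1 / (|A.Cτ 1| + 1) := by
    have := hy.1
    rw [mem_ball, dist_eq_norm] at this
    exact this.trans_le (min_le_right _ _)
  have h4 : A.Cτ 1 * ‖y - x‖ ≤ 1 := by
    have h5 : |A.Cτ 1| * ‖y - x‖ ≤ (|A.Cτ 1| + 1) * (1 / (|A.Cτ 1| + 1)) := by
      have := abs_nonneg (A.Cτ 1)
      gcongr
      linarith
    have h6 : (|A.Cτ 1| + 1) * (1 / (|A.Cτ 1| + 1)) = 1 := by
      field_simp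
    have h7 : A.Cτ 1 * ‖y - x‖ ≤ |A.Cτ 1| * ‖y - x‖ := by
      gcongr
      exact le_abs_self _
    linarith
  rw [mem_ball_zero_iff]
  calc ‖A.tr i j y‖ = ‖(A.tr i j y - A.tr i j x) + A.tr i j x‖ := by rw [sub_add_cancel]
    _ ≤ ‖A.tr i j y - A.tr i j x‖ + ‖A.tr i j x‖ := norm_add_le _ _
    _ < 2 := by linarith

theorem C21M_of_ball2 {I : Set ℝ} {u ut : ℝ → V → ℝ}
    (h : ∀ i, C21 I (ball (0 : E) 2) (A.rep i u) (A.rep i ut)) : A.C21M I u ut := by
  intro i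
  refine C21.of_local fun x hx => ⟨_, A.isOpen_locc x, A.mem_locc hx, ?_⟩
  obtain ⟨j, hsub, hin⟩ := A.cover_cases i hx
  exact (C21.comp_inner hin (h j)).congr (A.isOpen_locc x)
    (fun t _ y hy => A.rep_eq u (hsub hy) t) (fun t _ y hy => A.rep_eq ut (hsub hy) t)

theorem exists_XM_of_ball2 (α : ℝ) (hα : 0 < α) (hα1 : α ≤ 1) : ∃ C : ℝ, 0 ≤ C ∧
    ∀ (I : Set ℝ) (u ut : ℝ → V → ℝ) (K : ℝ), 0 ≤ K →
      (∀ i, C21 I (ball (0 : E) 2) (A.rep i u) (A.rep i ut)) →
      (∀ i, XB α I (ball (0 : E) 2) (A.rep i u) (A.rep i ut) K) → A.XM α I u ut (C * K) := by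
  obtain ⟨C, hC, h⟩ := exists_XB_comp_inner (E := E) A.c3 α hα hα1
  have hr := A.rc_pos
  refine ⟨C + 2 * C / A.rc ^ α, by positivity, ?_⟩
  intro I u ut K hK hu hX i
  have hCK : 0 ≤ C * K := mul_nonneg hC hK
  have key := XB.of_local (I := I) (S := ball (0 : E) 3) (u := A.rep i u)
    (ut := A.rep i ut) (α := α) hr hα.le hCK fun x hx => ?_
  · refine key.mono (le_of_eq ?_)
    ring
  · obtain ⟨j, hsub, hin⟩ := A.cover_cases i hx
    exact (h _ _ _ I _ _ K hin hK (hu j) (hX j)).congr (A.isOpen_locc x)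
      (fun t _ y hy => A.rep_eq u (hsub hy) t) (fun t _ y hy => A.rep_eq ut (hsub hy) t)

theorem exists_SmM_of_ball2 (C : ℕ → ℝ) : ∃ C' : ℕ → ℝ, ∀ g : V → ℝ,
    (∀ i, SmB (ball (0 : E) 2) (A.rep0 i g) C) → A.SmM g C' := by
  obtain ⟨C', h⟩ := exists_SmB_comp (E := E) (G := ℝ) A.Cτ C
  refine ⟨C', fun g hg i => ?_⟩
  have key : ∀ x ∈ ball (0 : E) 3, SmB (ball x A.rc ∩ ball (0 : E) 3) (A.rep0 i g) C' := by
    intro x hx
    obtain ⟨j, hsub, hin⟩ := A.cover_cases i hx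
    have h1 : SmB (ball x A.rc ∩ ball (0 : E) 3) (A.tr i j) A.Cτ :=
      SmB.of_isOpen (A.isOpen_locc x) hin.smooth fun k q hq => A.tr_bound i j k q (hsub hq)
    exact (h _ _ _ _ (A.isOpen_locc x) isOpen_ball hin.maps h1 (hg j)).congr
      fun y hy => A.rep0_eq g (hsub hy)
  refine SmB.of_isOpen isOpen_ball (fun x hx => ?_) fun k x hx => ?_
  · exact ((key x hx).smooth.contDiffAt ((A.isOpen_locc x).mem_nhds (A.mem_locc hx))).contDiffWithinAt
  · exact (key x hx).iteratedFDeriv_le (A.isOpen_locc x) k (A.mem_locc hx)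

theorem contDiffOn_of_ball2 {I : Set ℝ} {u : ℝ → V → ℝ}
    (h : ∀ i, ContDiffOn ℝ ∞ (fun q : ℝ × E => u q.1 (A.Φ i q.2)) (I ×ˢ ball (0 : E) 2)) :
    ∀ i, ContDiffOn ℝ ∞ (fun q : ℝ × E => u q.1 (A.Φ i q.2)) (I ×ˢ ball (0 : E) 3) := by
  intro i q hq
  obtain ⟨j, hsub, hin⟩ := A.cover_cases i hq.2
  have h1 : ContDiffOn ℝ ∞ (fun q : ℝ × E => u q.1 (A.Φ j (A.tr i j q.2)))
      (I ×ˢ (ball q.2 A.rc ∩ ball (0 : E) 3)) :=
    contDiffOn_comp_inner (f := fun t z => u t (A.Φ j z)) hin.smooth hin.maps (h j)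
  have h2 : ContDiffOn ℝ ∞ (fun q : ℝ × E => u q.1 (A.Φ i q.2))
      (I ×ˢ (ball q.2 A.rc ∩ ball (0 : E) 3)) :=
    h1.congr fun p hp => by rw [A.Φ_tr (hsub hp.2)]
  refine (h2 q ⟨hq.1, A.mem_locc hq.2⟩).mono_of_mem_nhdsWithin ?_
  have h3 : (univ : Set ℝ) ×ˢ (ball q.2 A.rc ∩ ball (0 : E) 3) ∈ 𝓝 q :=
    (isOpen_univ.prod (A.isOpen_locc q.2)).mem_nhds ⟨mem_univ _, A.mem_locc hq.2⟩
  refine Filter.mem_of_superset (inter_mem_nhdsWithin _ h3) ?_
  rintro p ⟨hp1, hp2⟩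
  exact ⟨hp1.1, hp2.2⟩

/-- pointwise bounds of jets: from the unit balls to all charts. -/
theorem jetLe_of_ball1 {I : Set ℝ} {u : ℝ → V → ℝ} {ρ : ℝ}
    (hu : ∀ i, ∀ t ∈ I, ContDiffOn ℝ 2 (A.rep i u t) (ball (0 : E) 3))
    (h : ∀ i, ∀ t ∈ I, ∀ z ∈ ball (0 : E) 1, ‖jet (A.rep i u) t z‖ ≤ ρ) : A.JetLe I u (A.Cp * ρ) := by
  intro i t ht z hz
  obtain ⟨j, hd, h1⟩ := A.exists_chart (i := i) hz
  rw [A.jet_rep hd (hu j t ht)]
  refine (A.norm_pull_le hd _).trans ?_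
  have : Nonempty A.ι := ⟨i⟩
  have := A.one_le_Cp
  gcongr
  exact h j t ht _ h1

end Cover

end UAtlas

end Claimed.Agent.R316.B8M
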