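import Claimed.Agent.R316.B8M.Cont
import Claimed.Agent.Lib.Dgnm.Api

/-!
# B8M-QUASI (M9): the penalised quasilinear equation on a uniform atlas

`w_t = e^{-w} P(jet w) + (1 - e^{-w}) R + pen β (ψ - w)`, `w(0) = a` (a constant), `P` a smooth uniformly elliptic linear operator on the manifold WITHOUT zero order term (`P (1,0,0) = 0`),
`ψ ≥ 0` a supersolution of the equation without penalisation, `0 ≤ a ≤ ψ(0)`, `β ≥ 0`, `pen ≥ 0`.  Unknown `u = w - a` (`u(0) = 0`), nonlinearity `A.qF`.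

ROUTE.  `exists_global_of_apriori` (M8') reduces everything to an a priori bound in `X` for the solutions of the class `A.SolCl` on `[0,T']`, `T' < T`:
1. `QHyp.nlHyp`: `A.qF` is smooth with bounded derivatives, parabolic and compatible on every tube.
2. `QHyp.barrier`: `0 ≤ a + u ≤ ψ` (`A.compareN`).
3. `QHyp.exists_init`: on `[0, ε]` the solution is THE solution of short time existence (`A.exists_short_time`, `A.short_unique`), so it is bounded in `X` by a constant.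
4. `QHyp.exists_holder`: on `[ε₁, T']` Hölder bounds in space-time by De Giorgi-Nash-Moser for `z = e^w` (`Lib.Dgnm.dg_holder`, interior in time: `r² ≤ ε₁`).
5. `QHyp.exists_schauder`: the equation is LINEAR with Hölder coefficients `e^{-w} P`: `A.exists_lin_apriori` on `[ε₁, T']`.

LEAVES (proofs only): B8M-Q-NL = `QHyp.nlHyp`;  B8M-Q-BAR = `QHyp.barrier`;  B8M-Q-INIT = `QHyp.exists_init`;  B8M-Q-DG = `exists_quasi_holder_local`;
B8M-Q-HOL = `exists_holder_of_ball2`, `QHyp.exists_holder`;  B8M-Q-SCH = `QHyp.exists_schauder`, `SmST.const_add`  (`QHyp.exists_apriori`, `exists_quasi` are proved from them).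

Recipes.
* `QHyp.nlHyp`.  COMPAT: `(A.pull i j z J).1 = J.1` (`rfl`), `CompatL`, `A.Φ_tr`.  SMOOTH: on the tube `q = (t,z,J)`: `J ↦ exp (-(a + J.1))` has all derivatives bounded by `exp (|a| + δ)` (compose `Real.exp` restricted to a bounded interval with a linear map: `exists_SmB_comp_gen`;
  `iteratedDeriv` of `exp`), `(t,z,J) ↦ P i t z J`: `exists_SmB_clm_apply`, products: `exists_SmB_bilin` with `ContinuousLinearMap.mul ℝ ℝ`; functions of `(t,z)` only: compose with the projection (`SmB.affine`, `exists_SmB_comp_gen`).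
  ELL: `fderiv ℝ (qF i t z) J (topJ B) = exp (-(a + J.1)) * P i t z (topJ B)` because `(topJ B).1 = 0`; `lam' = exp (-(|a| + δ)) lam`.
* `QHyp.barrier`: `A.compareN` with `𝒦 = ball 0 δ`, `δ` larger than all jets involved (`u`, `ψ - a`, `-a`: bounded because `SmST`), `hd, hM, hell` from `QHyp.nlHyp δ`.  Lower barrier `v = -a` (constant): `qF (jet v) = pen β ψ ≥ 0 = v_t` (`P (-a,0,0) = 0`).
  Upper barrier `v = ψ - a`: `jet v = jet ψ - (a,0,0)`, `P (jet v) = P (jet ψ)`, the penalisation vanishes.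
* `QHyp.exists_init`: `(lam₁, CF₁)` from `nlHyp 1`, `(ε, K₀)` from `A.exists_short_time α 1 lam₁ CF₁`, solution `v` on `[0, min ε T]`.  For a solution `u` of the class on `[0,T']`: `δ_u > ` all jets of `u` and `1`; `A.short_unique` on `[0, min ε T']` with `nlHyp δ_u`: `u = v` on `A.X`;
  the time derivatives agree (`UniqueDiffWithinAt.eq_deriv`/`HasDerivWithinAt.unique…` on `Icc`); `XB.congr`.
* `exists_quasi_holder_local`.  If `finrank ℝ E = 0`: `E` is a subsingleton, `jet w = w • (1,0,0)`, so `|wt| ≤ M₀`, `w` is Lipschitz in time; `α = 1/2`.  Otherwise `2 ≤ finrank ℝ E`; `letI := borel E`.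
  `q = e^w`, `q_t = e^w w_t = P (jet w) + e^w f`.  Write `P t x (c, ξ, B) = 𝔟 ξ + 𝔞 B` (`c`-part vanishes).  `Dw = Dq / q`, `D²w = D (Dq / q)`.  With an orthonormal basis `e_p`: `a t x ξ = ∑_p P t x (topJ ((e_p^*).smulRight ξ)) • e_p` (covector ↦ vector),
  `𝔞 (D ξ) = div (a ξ) - ∑_p (∂_p P)(topJ (e_p^* ⊗ ξ))`.  So `q_t = div ((a / q) Dq) + Dq (b) + g`, `K.a = a / q`, `K.b` = the vector representing `ξ ↦ (𝔟 ξ - ∑_p (∂_p P)(topJ (e_p^* ⊗ ξ))) / q`, `K.g = e^w f`, `K.mu = 1`, `K.f = K.F = 0`, `K.c = 0`.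
  Structure constants: `lam e^{-M₀}`, `Lam` from `CP 0, CP 1, dim, e^{M₀}`; `kg = e^{M₀} M₀`.  `Lib.Dgnm.dg_sol_of_classical`, `dg_holder` with `r = min 1 (sqrt ε₁)`, `t0 = max t s`, `x0 = x`, if `‖x-y‖ ≤ r/2` and `|t-s| ≤ r²/4`; otherwise `|w - w'| ≤ 2 M₀`.
  `|w - w'| ≤ e^{M₀} |q - q'|`; `(a+b)^α ≤ a^α + b^α`.
* `exists_holder_of_ball2`: `μ' = min μ (1 / (Cτ 1 + 1))`.  `x ∈ ball 0 3`: `A.exists_chart` gives `j` with `tr i j x ∈ ball 0 1`.  If `‖x-y‖ < μ'`: `y ∈ dom i j`, `‖tr y - tr x‖ ≤ Cτ 1 ‖x-y‖ < 1` (`A.margin_subset`, `A.tr_lip`), `A.rep_eq`.  Otherwise `2 M₀ ≤ 2 M₀ (‖x-y‖/μ')^α`.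
* `QHyp.exists_holder`: `exists_quasi_holder_local` in every chart for `w = a + rep i u` with `M₀` from `barrier` and the bounds of `ψ, R, β` (`C 0`); then `exists_holder_of_ball2`.
* `QHyp.exists_schauder`: `ũ s = u (ε₁ + s)`; `P̃ i s z = exp (-(a + ũ)) • P i (ε₁ + s) z`, `f̃ = (1 - exp (-(a+ũ))) R + pen β (ψ - a - ũ)`; `AdmM` with `γ = α/2` (`exp` is Lipschitz on bounded sets; products of Hölder functions: `YB.clm_apply`/`HolB.smul`; `SmB.YB`, `SmB.lip_time` for `P`),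
  `YM` for `f̃`; `A.exists_lin_apriori α (α/2) lam' M T`; shift back.
* `QHyp.exists_apriori`: `α` from `exists_holder`, `(ε, K₀)` from `exists_init α`, `ε₁ = ε/2`, `H` from `exists_holder`, `K₁` from `exists_schauder`; `K = max K₀ K₁`.  If `T' ≤ ε`: `exists_init`.  Otherwise `Icc 0 T' = Icc 0 ε ∪ Icc ε₁ T'` (`XB.union`, `XB.slice` at `ε₁`).
* `exists_quasi`: `exists_global_of_apriori`; `w = a + u`.
-/

set_option autoImplicit false
set_option maxSynthPendingDepth 3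
set_option linter.unusedSectionVars false
set_option linter.unusedVariables false

open scoped Topology ContDiff
open Set Filter Metric

namespace Claimed.Agent.R316.B8M

open Claimed.Agent.R316.B8

variable {V E : Type} [NormedAddCommGroup V] [NormedSpace ℝ V]
  [NormedAddCommGroup E] [InnerProductSpace ℝ E] [FiniteDimensional ℝ E]

section QD

/-! ### algebra of the divergence form -/

/-- the dual basis of the standard orthonormal basis. -/
noncomputable def qdE (p : Fin (Module.finrank ℝ E)) : E →L[ℝ] ℝ :=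
  innerSL ℝ (stdOrthonormalBasis ℝ E p)

theorem qdE_apply (p : Fin (Module.finrank ℝ E)) (v : E) :
    qdE p v = inner ℝ (stdOrthonormalBasis ℝ E p) v := rfl

theorem norm_qdE (p : Fin (Module.finrank ℝ E)) : ‖(qdE p : E →L[ℝ] ℝ)‖ = 1 := by
  rw [qdE, innerSL_apply_norm]
  exact (stdOrthonormalBasis ℝ E).orthonormal.1 p

theorem sum_qdE (ξ : E →L[ℝ] ℝ) : ∑ p, ξ (stdOrthonormalBasis ℝ E p) • qdE p = ξ := by
  ext v
  rw [_root_.sum_apply]
  conv_rhs => rw [← (stdOrthonormalBasis ℝ E).sum_repr' v, map_sum]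
  refine Finset.sum_congr rfl (fun p _ => ?_)
  rw [map_smul, _root_.smul_apply, smul_eq_mul, smul_eq_mul, qdE_apply, mul_comm]

/-- `B ↦ (0, 0, B)`. -/
noncomputable def qdJ : Bil E →L[ℝ] Jet E :=
  (ContinuousLinearMap.inr ℝ ℝ ((E →L[ℝ] ℝ) × Bil E)) ∘L
    (ContinuousLinearMap.inr ℝ (E →L[ℝ] ℝ) (Bil E))

theorem qdJ_apply (B : Bil E) : qdJ B = topJ B := rfl

/-- `ξ ↦ (0, 0, e_p^* ⊗ ξ)`. -/
noncomputable def qdT (p : Fin (Module.finrank ℝ E)) : (E →L[ℝ] ℝ) →L[ℝ] Jet E :=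
  qdJ ∘L (ContinuousLinearMap.smulRightL ℝ E (E →L[ℝ] ℝ) (qdE p))

theorem qdT_apply (p : Fin (Module.finrank ℝ E)) (ξ : E →L[ℝ] ℝ) :
    qdT p ξ = topJ ((qdE p).smulRight ξ) := rfl

theorem norm_qdT_le (p : Fin (Module.finrank ℝ E)) (ξ : E →L[ℝ] ℝ) : ‖qdT p ξ‖ ≤ ‖ξ‖ := by
  rw [qdT_apply, norm_topJ, ContinuousLinearMap.norm_smulRight_apply, norm_qdE, one_mul]

theorem sum_qdT (B : Bil E) : ∑ p, qdT p (B (stdOrthonormalBasis ℝ E p)) = topJ B := by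
  have h : ∑ p, (qdE p).smulRight (B (stdOrthonormalBasis ℝ E p)) = B := by
    ext v v'
    rw [_root_.sum_apply, _root_.sum_apply]
    conv_rhs => rw [← (stdOrthonormalBasis ℝ E).sum_repr' v, map_sum,
      _root_.sum_apply]
    refine Finset.sum_congr rfl (fun p _ => ?_)
    rw [map_smul, _root_.smul_apply, ContinuousLinearMap.smulRight_apply,
      _root_.smul_apply, qdE_apply]
  simp only [qdT_apply, ← qdJ_apply]
  rw [← map_sum, h]

theorem sum_qdT_sq (ξ : E →L[ℝ] ℝ) :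
    ∑ p, ξ (stdOrthonormalBasis ℝ E p) • qdT p ξ = topJ (sqB ξ) := by
  have h : ∑ p, ξ (stdOrthonormalBasis ℝ E p) • (qdE p).smulRight ξ = sqB ξ := by
    ext v v'
    have h1 := congrArg (fun η : E →L[ℝ] ℝ => η v * ξ v') (sum_qdE ξ)
    simp only [_root_.sum_apply, _root_.smul_apply, smul_eq_mul,
      Finset.sum_mul] at h1
    rw [_root_.sum_apply, _root_.sum_apply]
    simp only [_root_.smul_apply, ContinuousLinearMap.smulRight_apply, smul_eq_mul,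
      sqB]
    rw [← h1]
    refine Finset.sum_congr rfl (fun p _ => ?_)
    ring
  simp only [qdT_apply, ← qdJ_apply]
  simp only [← map_smul]
  rw [← map_sum, h]

/-- the principal part as a map covector `↦` vector. -/
noncomputable def qdA (L : Jet E →L[ℝ] ℝ) : (E →L[ℝ] ℝ) →L[ℝ] E :=
  ∑ p, (L ∘L qdT p).smulRight (stdOrthonormalBasis ℝ E p)

theorem qdA_apply (L : Jet E →L[ℝ] ℝ) (ξ : E →L[ℝ] ℝ) :
    qdA L ξ = ∑ p, L (qdT p ξ) • stdOrthonormalBasis ℝ E p := by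
  rw [qdA, _root_.sum_apply]
  rfl

theorem apply_qdA (L : Jet E →L[ℝ] ℝ) (ξ : E →L[ℝ] ℝ) : ξ (qdA L ξ) = L (topJ (sqB ξ)) := by
  rw [qdA_apply, map_sum, ← sum_qdT_sq, map_sum]
  refine Finset.sum_congr rfl (fun p _ => ?_)
  rw [map_smul, map_smul, smul_eq_mul, smul_eq_mul, mul_comm]

theorem norm_qdA_le (L : Jet E →L[ℝ] ℝ) (ξ : E →L[ℝ] ℝ) :
    ‖qdA L ξ‖ ≤ (Module.finrank ℝ E : ℝ) * ‖L‖ * ‖ξ‖ := by
  rw [qdA_apply]
  calc ‖∑ p, L (qdT p ξ) • stdOrthonormalBasis ℝ E p‖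
      ≤ ∑ p, ‖L (qdT p ξ) • stdOrthonormalBasis ℝ E p‖ := norm_sum_le _ _
    _ ≤ ∑ _p : Fin (Module.finrank ℝ E), ‖L‖ * ‖ξ‖ := Finset.sum_le_sum (fun p _ => by
        rw [norm_smul, (stdOrthonormalBasis ℝ E).orthonormal.1 p, mul_one]
        exact (L.le_opNorm _).trans (mul_le_mul_of_nonneg_left (norm_qdT_le p ξ) (norm_nonneg _)))
    _ = (Module.finrank ℝ E : ℝ) * ‖L‖ * ‖ξ‖ := by simp [mul_assoc]

/-- the vector representing a functional on covectors. -/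
noncomputable def qdV (ℓ : (E →L[ℝ] ℝ) →L[ℝ] ℝ) : E :=
  ∑ p, ℓ (qdE p) • stdOrthonormalBasis ℝ E p

theorem apply_qdV (ℓ : (E →L[ℝ] ℝ) →L[ℝ] ℝ) (ξ : E →L[ℝ] ℝ) : ξ (qdV ℓ) = ℓ ξ := by
  rw [qdV, map_sum]
  conv_rhs => rw [← sum_qdE ξ, map_sum]
  refine Finset.sum_congr rfl (fun p _ => ?_)
  rw [map_smul, map_smul, smul_eq_mul, smul_eq_mul, mul_comm]

theorem norm_qdV_le (ℓ : (E →L[ℝ] ℝ) →L[ℝ] ℝ) : ‖qdV ℓ‖ ≤ (Module.finrank ℝ E : ℝ) * ‖ℓ‖ := by
  rw [qdV]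
  calc ‖∑ p, ℓ (qdE p) • stdOrthonormalBasis ℝ E p‖
      ≤ ∑ p, ‖ℓ (qdE p) • stdOrthonormalBasis ℝ E p‖ := norm_sum_le _ _
    _ ≤ ∑ _p : Fin (Module.finrank ℝ E), ‖ℓ‖ := Finset.sum_le_sum (fun p _ => by
        rw [norm_smul, (stdOrthonormalBasis ℝ E).orthonormal.1 p, mul_one]
        have := ℓ.le_opNorm (qdE p)
        rwa [norm_qdE, mul_one] at this)
    _ = (Module.finrank ℝ E : ℝ) * ‖ℓ‖ := by simp

/-- `ξ ↦ (0, ξ, 0)`. -/
noncomputable def qdM : (E →L[ℝ] ℝ) →L[ℝ] Jet E :=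
  (ContinuousLinearMap.inr ℝ ℝ ((E →L[ℝ] ℝ) × Bil E)) ∘L
    (ContinuousLinearMap.inl ℝ (E →L[ℝ] ℝ) (Bil E))

theorem qdM_apply (ξ : E →L[ℝ] ℝ) : qdM ξ = ((0 : ℝ), ξ, (0 : Bil E)) := rfl

theorem norm_qdM_le (ξ : E →L[ℝ] ℝ) : ‖qdM ξ‖ ≤ ‖ξ‖ := by
  rw [qdM_apply]
  simp [Prod.norm_def]

/-- the first order part of the divergence form. -/
noncomputable def qdL (L : Jet E →L[ℝ] ℝ) (L' : E →L[ℝ] Jet E →L[ℝ] ℝ) :
    (E →L[ℝ] ℝ) →L[ℝ] ℝ :=
  L ∘L qdM - ∑ p, (L' (stdOrthonormalBasis ℝ E p)) ∘L qdT p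

theorem qdL_apply (L : Jet E →L[ℝ] ℝ) (L' : E →L[ℝ] Jet E →L[ℝ] ℝ) (ξ : E →L[ℝ] ℝ) :
    qdL L L' ξ = L (qdM ξ) - ∑ p, L' (stdOrthonormalBasis ℝ E p) (qdT p ξ) := by
  rw [qdL, _root_.sub_apply, _root_.sum_apply]
  rfl

theorem norm_qdL_le (L : Jet E →L[ℝ] ℝ) (L' : E →L[ℝ] Jet E →L[ℝ] ℝ) :
    ‖qdL L L'‖ ≤ ‖L‖ + (Module.finrank ℝ E : ℝ) * ‖L'‖ := by
  refine ContinuousLinearMap.opNorm_le_bound _ (by positivity) (fun ξ => ?_)
  rw [qdL_apply]
  have h1 : ‖L (qdM ξ)‖ ≤ ‖L‖ * ‖ξ‖ :=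
    (L.le_opNorm _).trans (mul_le_mul_of_nonneg_left (norm_qdM_le ξ) (norm_nonneg _))
  have h2 : ‖∑ p, L' (stdOrthonormalBasis ℝ E p) (qdT p ξ)‖
      ≤ (Module.finrank ℝ E : ℝ) * ‖L'‖ * ‖ξ‖ := by
    calc ‖∑ p, L' (stdOrthonormalBasis ℝ E p) (qdT p ξ)‖
        ≤ ∑ p, ‖L' (stdOrthonormalBasis ℝ E p) (qdT p ξ)‖ := norm_sum_le _ _
      _ ≤ ∑ _p : Fin (Module.finrank ℝ E), ‖L'‖ * ‖ξ‖ := Finset.sum_le_sum (fun p _ => by
          have h3 := L'.le_opNorm (stdOrthonormalBasis ℝ E p)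
          rw [(stdOrthonormalBasis ℝ E).orthonormal.1 p, mul_one] at h3
          exact ((L' (stdOrthonormalBasis ℝ E p)).le_opNorm _).trans
            (mul_le_mul h3 (norm_qdT_le p ξ) (norm_nonneg _) (norm_nonneg L')))
      _ = (Module.finrank ℝ E : ℝ) * ‖L'‖ * ‖ξ‖ := by simp [mul_assoc]
  calc ‖L (qdM ξ) - ∑ p, L' (stdOrthonormalBasis ℝ E p) (qdT p ξ)‖
      ≤ ‖L (qdM ξ)‖ + ‖∑ p, L' (stdOrthonormalBasis ℝ E p) (qdT p ξ)‖ := norm_sub_le _ _
    _ ≤ (‖L‖ + (Module.finrank ℝ E : ℝ) * ‖L'‖) * ‖ξ‖ := by nlinarith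


/-! ### the coefficients -/

open Claimed.Agent.Lib.Dgnm

/-- the coefficients of the divergence form equation of `q = e^w`. -/
noncomputable def qdK (P : Op E) (w wt : ℝ → E → ℝ) : dg_Coef E where
  mu := fun _ _ => 1
  mudt := fun _ _ => 0
  a := fun t x => Real.exp (-(w t x)) • qdA (P t x)
  f := fun _ _ => 0
  b := fun t x => Real.exp (-(w t x)) • qdV (qdL (P t x) (fderiv ℝ (P t) x))
  c := fun _ _ => 0
  F := fun _ _ => 0
  g := fun t x => Real.exp (w t x) * wt t x - P t x (jet w t x)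

/-- the hypotheses of `exists_quasi_holder_local`. -/
structure QdHyp (lam M₀ T' : ℝ) (CP : ℕ → ℝ) (P : Op E) (w wt f : ℝ → E → ℝ) : Prop where
  T_pos : 0 < T'
  sm : SmB (Icc 0 T' ×ˢ ball (0 : E) 3) (fun q : ℝ × E => P q.1 q.2) CP
  ell : ∀ t ∈ Icc 0 T', ∀ z ∈ ball (0 : E) 3, ∀ ξ : E →L[ℝ] ℝ,
    lam * ‖ξ‖ ^ 2 ≤ P t z (topJ (sqB ξ))
  const : ∀ t ∈ Icc 0 T', ∀ z ∈ ball (0 : E) 3, P t z (1, 0, 0) = 0
  reg : C21 (Icc 0 T') (ball (0 : E) 3) w wt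
  bd : ∀ t ∈ Icc 0 T', ∀ z ∈ ball (0 : E) 3, |w t z| ≤ M₀ ∧ |f t z| ≤ M₀
  eq : ∀ t ∈ Icc 0 T', ∀ z ∈ ball (0 : E) 3,
    wt t z = Real.exp (-(w t z)) * P t z (jet w t z) + f t z

namespace QdHyp

variable {lam M₀ T' : ℝ} {CP : ℕ → ℝ} {P : Op E} {w wt f : ℝ → E → ℝ}

theorem slice (h : QdHyp lam M₀ T' CP P w wt f) {t : ℝ} (ht : t ∈ Icc 0 T') :
    SmB (ball (0 : E) 3) (P t) CP :=
  SmB.slice (uniqueDiffOn_Icc h.T_pos) isOpen_ball h.sm ht

theorem norm_P_le (h : QdHyp lam M₀ T' CP P w wt f) {t : ℝ} (ht : t ∈ Icc 0 T') {x : E}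
    (hx : x ∈ ball (0 : E) 3) : ‖P t x‖ ≤ CP 0 := (h.slice ht).norm_le hx

theorem norm_dP_le (h : QdHyp lam M₀ T' CP P w wt f) {t : ℝ} (ht : t ∈ Icc 0 T') {x : E}
    (hx : x ∈ ball (0 : E) 3) : ‖fderiv ℝ (P t) x‖ ≤ CP 1 := by
  rw [← fderivWithin_of_isOpen isOpen_ball hx]
  exact (h.slice ht).norm_fderivWithin_le isOpen_ball.uniqueDiffOn hx

theorem M₀_nonneg (h : QdHyp lam M₀ T' CP P w wt f) : 0 ≤ M₀ :=
  (abs_nonneg _).trans (h.bd 0 ⟨le_rfl, h.T_pos.le⟩ 0 (mem_ball_self (by norm_num))).1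

theorem CP_nonneg (h : QdHyp lam M₀ T' CP P w wt f) (k : ℕ) : 0 ≤ CP k :=
  h.sm.nonneg (q := ((0 : ℝ), (0 : E))) ⟨⟨le_rfl, h.T_pos.le⟩, mem_ball_self (by norm_num)⟩ k

theorem contP (h : QdHyp lam M₀ T' CP P w wt f) {t : ℝ} (ht : t ∈ Icc 0 T') :
    ContinuousOn (P t) (ball (0 : E) 3) := (h.slice ht).smooth.continuousOn

theorem contdP (h : QdHyp lam M₀ T' CP P w wt f) {t : ℝ} (ht : t ∈ Icc 0 T') :
    ContinuousOn (fderiv ℝ (P t)) (ball (0 : E) 3) :=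
  (h.slice ht).smooth.continuousOn_fderiv_of_isOpen isOpen_ball (by simp)

theorem slice_cont {G : Type*} [TopologicalSpace G] {F : ℝ × E → G} {T' : ℝ}
    (hF : ContinuousOn F (Icc 0 T' ×ˢ ball (0 : E) 3)) {t : ℝ} (ht : t ∈ Icc 0 T') :
    ContinuousOn (fun x => F (t, x)) (ball (0 : E) 3) :=
  hF.comp (f := fun x : E => ((t, x) : ℝ × E)) (continuous_const.prodMk continuous_id).continuousOn
    (fun _ hx => ⟨ht, hx⟩)

theorem contw (h : QdHyp lam M₀ T' CP P w wt f) {t : ℝ} (ht : t ∈ Icc 0 T') :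
    ContinuousOn (w t) (ball (0 : E) 3) := slice_cont h.reg.cont0 ht

theorem contjet (h : QdHyp lam M₀ T' CP P w wt f) {t : ℝ} (ht : t ∈ Icc 0 T') :
    ContinuousOn (jet w t) (ball (0 : E) 3) :=
  (h.contw ht).prodMk ((slice_cont h.reg.cont1 ht).prodMk (slice_cont h.reg.cont2 ht))

theorem exp_neg_le (h : QdHyp lam M₀ T' CP P w wt f) {t : ℝ} (ht : t ∈ Icc 0 T') {x : E}
    (hx : x ∈ ball (0 : E) 3) : Real.exp (-(w t x)) ≤ Real.exp M₀ :=
  Real.exp_le_exp.2 ((neg_le_abs _).trans (h.bd t ht x hx).1)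

theorem le_exp_neg (h : QdHyp lam M₀ T' CP P w wt f) {t : ℝ} (ht : t ∈ Icc 0 T') {x : E}
    (hx : x ∈ ball (0 : E) 3) : Real.exp (-M₀) ≤ Real.exp (-(w t x)) :=
  Real.exp_le_exp.2 (neg_le_neg ((le_abs_self _).trans (h.bd t ht x hx).1))

theorem exp_le (h : QdHyp lam M₀ T' CP P w wt f) {t : ℝ} (ht : t ∈ Icc 0 T') {x : E}
    (hx : x ∈ ball (0 : E) 3) : Real.exp (w t x) ≤ Real.exp M₀ :=
  Real.exp_le_exp.2 ((le_abs_self _).trans (h.bd t ht x hx).1)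

/-- the right hand side `g = e^w f`. -/
theorem g_eq (h : QdHyp lam M₀ T' CP P w wt f) {t : ℝ} (ht : t ∈ Icc 0 T') {x : E}
    (hx : x ∈ ball (0 : E) 3) :
    Real.exp (w t x) * wt t x - P t x (jet w t x) = Real.exp (w t x) * f t x := by
  rw [h.eq t ht x hx, mul_add, ← mul_assoc, ← Real.exp_add, add_neg_cancel, Real.exp_zero, one_mul]
  ring

variable [MeasurableSpace E] [BorelSpace E]

/-- the structure conditions. -/
theorem ok (h : QdHyp lam M₀ T' CP P w wt f) (hlam : 0 < lam) :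
    (qdK P w wt).Ok (Icc 0 T') (ball (0 : E) 3) (min 1 (lam * Real.exp (-M₀)))
      (max 1 (Real.exp M₀ * ((Module.finrank ℝ E : ℝ) *
        (CP 0 + (Module.finrank ℝ E : ℝ) * CP 1)))) 0 (Real.exp M₀ * M₀) := by
  have hm : (0 : ℝ) ≤ (Module.finrank ℝ E : ℝ) := Nat.cast_nonneg _
  have hC0 := h.CP_nonneg 0
  have hC1 := h.CP_nonneg 1
  have hL0 : (0 : ℝ) ≤ max 1 (Real.exp M₀ * ((Module.finrank ℝ E : ℝ) *
        (CP 0 + (Module.finrank ℝ E : ℝ) * CP 1))) := zero_le_one.trans (le_max_left _ _)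
  refine
  { mu_dt := fun t _ x _ => hasDerivWithinAt_const _ _ _
    mu_cont := continuousOn_const
    mudt_cont := continuousOn_const
    a_meas := fun t ht => dg_aesm_of_continuousOn isOpen_ball ?_
    f_meas := fun t _ => MeasureTheory.aestronglyMeasurable_const
    b_meas := fun t ht => dg_aesm_of_continuousOn isOpen_ball ?_
    c_meas := fun t _ => MeasureTheory.aestronglyMeasurable_const
    F_meas := fun t _ => MeasureTheory.aestronglyMeasurable_const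
    g_meas := fun t ht => dg_aesm_of_continuousOn isOpen_ball ?_
    mu_lo := fun t _ x _ => min_le_left _ _
    mu_hi := fun t _ x _ => le_max_left _ _
    mudt_le := fun t _ x _ => by simp [qdK]
    a_lo := fun t ht x hx ξ => ?_
    a_hi := fun t ht x hx ξ => ?_
    f_le := fun t _ x _ => by simp [qdK]
    b_le := fun t ht x hx => ?_
    c_le := fun t _ x _ => by simp [qdK]
    F_le := fun t _ x _ => by simp [qdK]
    g_le := fun t ht x hx => ?_ }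
  · -- continuity of `a`
    show ContinuousOn (fun x => Real.exp (-(w t x)) • qdA (P t x)) (ball (0 : E) 3)
    refine ContinuousOn.smul (Real.continuous_exp.comp_continuousOn (h.contw ht).neg) ?_
    rw [continuousOn_clm_apply]
    intro ξ
    simp only [qdA_apply]
    exact continuousOn_finsetSum _ (fun p _ =>
      ((h.contP ht).clm_apply continuousOn_const).smul continuousOn_const)
  · show ContinuousOn (fun x => Real.exp (-(w t x)) • qdV (qdL (P t x) (fderiv ℝ (P t) x)))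
      (ball (0 : E) 3)
    refine ContinuousOn.smul (Real.continuous_exp.comp_continuousOn (h.contw ht).neg) ?_
    simp only [qdV, qdL_apply]
    refine continuousOn_finsetSum _ (fun p _ => ContinuousOn.smul ?_ continuousOn_const)
    refine ((h.contP ht).clm_apply continuousOn_const).sub ?_
    exact continuousOn_finsetSum _ (fun i _ =>
      ((h.contdP ht).clm_apply continuousOn_const).clm_apply continuousOn_const)
  · show ContinuousOn (fun x => Real.exp (w t x) * wt t x - P t x (jet w t x)) (ball (0 : E) 3)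
    exact ((Real.continuous_exp.comp_continuousOn (h.contw ht)).mul
      (slice_cont h.reg.contt ht)).sub ((h.contP ht).clm_apply (h.contjet ht))
  · show min 1 (lam * Real.exp (-M₀)) * ‖ξ‖ ^ 2 ≤ ξ ((Real.exp (-(w t x)) • qdA (P t x)) ξ)
    rw [_root_.smul_apply, map_smul, apply_qdA, smul_eq_mul]
    have h1 := h.ell t ht x hx ξ
    have h2 := h.le_exp_neg ht hx
    have h3 : 0 ≤ lam * ‖ξ‖ ^ 2 := by positivity
    calc min 1 (lam * Real.exp (-M₀)) * ‖ξ‖ ^ 2 ≤ (lam * Real.exp (-M₀)) * ‖ξ‖ ^ 2 :=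
          mul_le_mul_of_nonneg_right (min_le_right _ _) (by positivity)
      _ = Real.exp (-M₀) * (lam * ‖ξ‖ ^ 2) := by ring
      _ ≤ Real.exp (-(w t x)) * (lam * ‖ξ‖ ^ 2) := mul_le_mul_of_nonneg_right h2 h3
      _ ≤ Real.exp (-(w t x)) * P t x (topJ (sqB ξ)) :=
          mul_le_mul_of_nonneg_left h1 (Real.exp_pos _).le
  · show ‖(Real.exp (-(w t x)) • qdA (P t x)) ξ‖ ≤ _
    rw [_root_.smul_apply, norm_smul, Real.norm_eq_abs, abs_of_pos (Real.exp_pos _)]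
    have h1 := norm_qdA_le (P t x) ξ
    have h2 := h.norm_P_le ht hx
    have h3 := h.exp_neg_le ht hx
    have h4 : (Module.finrank ℝ E : ℝ) * ‖P t x‖ * ‖ξ‖ ≤ (Module.finrank ℝ E : ℝ) *
        (CP 0 + (Module.finrank ℝ E : ℝ) * CP 1) * ‖ξ‖ := by
      refine mul_le_mul_of_nonneg_right (mul_le_mul_of_nonneg_left ?_ hm) (norm_nonneg _)
      have : 0 ≤ (Module.finrank ℝ E : ℝ) * CP 1 := by positivity
      linarith
    calc Real.exp (-(w t x)) * ‖qdA (P t x) ξ‖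
        ≤ Real.exp M₀ * ((Module.finrank ℝ E : ℝ) *
          (CP 0 + (Module.finrank ℝ E : ℝ) * CP 1) * ‖ξ‖) :=
          mul_le_mul h3 (h1.trans h4) (norm_nonneg _) (Real.exp_pos _).le
      _ = (Real.exp M₀ * ((Module.finrank ℝ E : ℝ) *
          (CP 0 + (Module.finrank ℝ E : ℝ) * CP 1))) * ‖ξ‖ := by ring
      _ ≤ _ := mul_le_mul_of_nonneg_right (le_max_right _ _) (norm_nonneg _)
  · show ‖Real.exp (-(w t x)) • qdV (qdL (P t x) (fderiv ℝ (P t) x))‖ ≤ _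
    rw [norm_smul, Real.norm_eq_abs, abs_of_pos (Real.exp_pos _)]
    have h1 := norm_qdV_le (qdL (P t x) (fderiv ℝ (P t) x))
    have h2 := norm_qdL_le (P t x) (fderiv ℝ (P t) x)
    have h3 := h.exp_neg_le ht hx
    have h4 := h.norm_P_le ht hx
    have h5 := h.norm_dP_le ht hx
    have h6 : ‖qdL (P t x) (fderiv ℝ (P t) x)‖ ≤ CP 0 + (Module.finrank ℝ E : ℝ) * CP 1 :=
      h2.trans (add_le_add h4 (mul_le_mul_of_nonneg_left h5 hm))
    calc Real.exp (-(w t x)) * ‖qdV (qdL (P t x) (fderiv ℝ (P t) x))‖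
        ≤ Real.exp M₀ * ((Module.finrank ℝ E : ℝ) *
          (CP 0 + (Module.finrank ℝ E : ℝ) * CP 1)) :=
          mul_le_mul h3 (h1.trans (mul_le_mul_of_nonneg_left h6 hm)) (norm_nonneg _)
            (Real.exp_pos _).le
      _ ≤ _ := le_max_right _ _
  · show |Real.exp (w t x) * wt t x - P t x (jet w t x)| ≤ Real.exp M₀ * M₀
    rw [h.g_eq ht hx, abs_mul, abs_of_pos (Real.exp_pos _)]
    exact mul_le_mul (h.exp_le ht hx) (h.bd t ht x hx).2 (abs_nonneg _) (Real.exp_pos _).le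

end QdHyp

/-- the flux `a (Dw)`. -/
noncomputable def qdFlux (P : Op E) (w : ℝ → E → ℝ) (t : ℝ) (x : E) : E :=
  ∑ p, P t x (qdT p (fderiv ℝ (w t) x)) • stdOrthonormalBasis ℝ E p

namespace QdHyp

variable {lam M₀ T' : ℝ} {CP : ℕ → ℝ} {P : Op E} {w wt f : ℝ → E → ℝ}

theorem hasFDerivAt_w (h : QdHyp lam M₀ T' CP P w wt f) {t : ℝ} (ht : t ∈ Icc 0 T') {x : E}
    (hx : x ∈ ball (0 : E) 3) : HasFDerivAt (w t) (fderiv ℝ (w t) x) x :=
  (((h.reg.c2 t ht).contDiffAt (isOpen_ball.mem_nhds hx)).differentiableAt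
    (by norm_num)).hasFDerivAt

theorem fderiv_exp (h : QdHyp lam M₀ T' CP P w wt f) {t : ℝ} (ht : t ∈ Icc 0 T') {x : E}
    (hx : x ∈ ball (0 : E) 3) :
    fderiv ℝ (fun y => Real.exp (w t y)) x = Real.exp (w t x) • fderiv ℝ (w t) x :=
  (h.hasFDerivAt_w ht hx).exp.fderiv

theorem contDiffOn_dw (h : QdHyp lam M₀ T' CP P w wt f) {t : ℝ} (ht : t ∈ Icc 0 T') :
    ContDiffOn ℝ 1 (fderiv ℝ (w t)) (ball (0 : E) 3) :=
  (h.reg.c2 t ht).fderiv_of_isOpen isOpen_ball (by rw [one_add_one_eq_two])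

theorem contDiffOn_flux (h : QdHyp lam M₀ T' CP P w wt f) {t : ℝ} (ht : t ∈ Icc 0 T') :
    ContDiffOn ℝ 1 (qdFlux P w t) (ball (0 : E) 3) := by
  unfold qdFlux
  refine ContDiffOn.sum (fun p _ => ContDiffOn.smul ?_ contDiffOn_const)
  exact ((h.slice ht).smooth.of_le (by exact_mod_cast le_top)).clm_apply
    ((qdT p).contDiff.comp_contDiffOn (h.contDiffOn_dw ht))

variable [MeasurableSpace E] [BorelSpace E]

theorem flux_eq (h : QdHyp lam M₀ T' CP P w wt f) {t : ℝ} (ht : t ∈ Icc 0 T') {x : E}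
    (hx : x ∈ ball (0 : E) 3) :
    dg_flux (qdK P w wt) (fun t x => Real.exp (w t x)) t x = qdFlux P w t x := by
  show (Real.exp (-(w t x)) • qdA (P t x)) (fderiv ℝ (fun y => Real.exp (w t y)) x)
    + Real.exp (w t x) • (0 : E) + 0 = _
  rw [h.fderiv_exp ht hx, smul_zero, add_zero, add_zero, _root_.smul_apply, map_smul,
    smul_smul, ← Real.exp_add, neg_add_cancel, Real.exp_zero, one_smul, qdA_apply]
  rfl

theorem div_flux (h : QdHyp lam M₀ T' CP P w wt f) {t : ℝ} (ht : t ∈ Icc 0 T') {x : E}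
    (hx : x ∈ ball (0 : E) 3) :
    dg_div (qdFlux P w t) x = P t x (topJ (D2 w t x))
      + ∑ p, fderiv ℝ (P t) x (stdOrthonormalBasis ℝ E p) (qdT p (fderiv ℝ (w t) x)) := by
  have hP : HasFDerivAt (P t) (fderiv ℝ (P t) x) x :=
    (((h.slice ht).smooth.contDiffAt (isOpen_ball.mem_nhds hx)).differentiableAt
      (by simp)).hasFDerivAt
  have hD : HasFDerivAt (fderiv ℝ (w t)) (D2 w t x) x :=
    (((h.contDiffOn_dw ht).contDiffAt (isOpen_ball.mem_nhds hx)).differentiableAt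
      one_ne_zero).hasFDerivAt
  have hc : ∀ p, HasFDerivAt (fun y => P t y (qdT p (fderiv ℝ (w t) y)))
      ((P t x).comp ((qdT p).comp (D2 w t x))
        + (fderiv ℝ (P t) x).flip (qdT p (fderiv ℝ (w t) x))) x :=
    fun p => hP.clm_apply ((qdT p).hasFDerivAt.comp x hD)
  have hJ : HasFDerivAt (qdFlux P w t) (∑ p, ((P t x).comp ((qdT p).comp (D2 w t x))
        + (fderiv ℝ (P t) x).flip (qdT p (fderiv ℝ (w t) x))).smulRight
          (stdOrthonormalBasis ℝ E p)) x :=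
    HasFDerivAt.fun_sum (fun p _ => (hc p).smul_const (stdOrthonormalBasis ℝ E p))
  rw [dg_div_eq_sum (stdOrthonormalBasis ℝ E), hJ.fderiv, ← sum_qdT, map_sum,
    ← Finset.sum_add_distrib]
  refine Finset.sum_congr rfl (fun i _ => ?_)
  rw [_root_.sum_apply, inner_sum]
  simp only [ContinuousLinearMap.smulRight_apply, inner_smul_right,
    OrthonormalBasis.inner_eq_ite, mul_ite, mul_one, mul_zero, Finset.sum_ite_eq,
    Finset.mem_univ, if_true]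
  rfl

theorem jet_eq (w : ℝ → E → ℝ) (t : ℝ) (x : E) :
    jet w t x = w t x • ((1 : ℝ), (0 : E →L[ℝ] ℝ), (0 : Bil E)) + qdM (fderiv ℝ (w t) x)
      + topJ (D2 w t x) := by
  rw [qdM_apply]
  simp only [jet, D1, topJ]
  ext <;> simp

/-- the equation of `q = e^w` in divergence form. -/
theorem eq_div (h : QdHyp lam M₀ T' CP P w wt f) {t : ℝ} (ht : t ∈ Icc 0 T') {x : E}
    (hx : x ∈ ball (0 : E) 3) :
    (qdK P w wt).mu t x * (Real.exp (w t x) * wt t x) =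
      dg_div (dg_flux (qdK P w wt) (fun t x => Real.exp (w t x)) t) x
        + fderiv ℝ (fun y => Real.exp (w t y)) x ((qdK P w wt).b t x)
        + (qdK P w wt).c t x * Real.exp (w t x) + (qdK P w wt).g t x := by
  have e1 : dg_div (dg_flux (qdK P w wt) (fun t x => Real.exp (w t x)) t) x
      = dg_div (qdFlux P w t) x := by
    have : dg_flux (qdK P w wt) (fun t x => Real.exp (w t x)) t =ᶠ[𝓝 x] qdFlux P w t := by
      filter_upwards [isOpen_ball.mem_nhds hx] with y hy using h.flux_eq ht hy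
    rw [dg_div, dg_div, this.fderiv_eq]
  have e2 : fderiv ℝ (fun y => Real.exp (w t y)) x ((qdK P w wt).b t x)
      = P t x (qdM (fderiv ℝ (w t) x))
        - ∑ p, fderiv ℝ (P t) x (stdOrthonormalBasis ℝ E p) (qdT p (fderiv ℝ (w t) x)) := by
    show fderiv ℝ (fun y => Real.exp (w t y)) x
      (Real.exp (-(w t x)) • qdV (qdL (P t x) (fderiv ℝ (P t) x))) = _
    rw [h.fderiv_exp ht hx, _root_.smul_apply, map_smul, smul_smul, ← Real.exp_add,
      add_neg_cancel, Real.exp_zero, one_smul, apply_qdV, qdL_apply]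
  have e3 : P t x (jet w t x) = P t x (qdM (fderiv ℝ (w t) x)) + P t x (topJ (D2 w t x)) := by
    rw [jet_eq, map_add, map_add, map_smul, h.const t ht x hx, smul_zero, zero_add]
  rw [e1, e2, h.div_flux ht hx]
  show 1 * (Real.exp (w t x) * wt t x) = _ + 0 * Real.exp (w t x)
    + (Real.exp (w t x) * wt t x - P t x (jet w t x))
  rw [e3]
  ring

theorem dgReg (h : QdHyp lam M₀ T' CP P w wt f) :
    dg_Reg (Icc 0 T') (ball (0 : E) 3) (fun t x => Real.exp (w t x))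
      (fun t x => Real.exp (w t x) * wt t x) := by
  have h0 : dg_Reg (Icc 0 T') (ball (0 : E) 3) w wt :=
    ⟨fun t ht => (h.reg.c2 t ht).of_le (by norm_num), h.reg.dt, h.reg.cont0, h.reg.cont1,
      h.reg.contt⟩
  have h1 := h0.comp isOpen_ball isOpen_univ (Φ := Real.exp) Real.contDiff_exp.contDiffOn
    (fun _ _ _ _ => mem_univ _)
  simpa only [Real.deriv_exp] using h1

theorem dgSol (h : QdHyp lam M₀ T' CP P w wt f) (hlam : 0 < lam) :
    dg_Sol (qdK P w wt) (Icc 0 T') (ball (0 : E) 3) (fun t x => Real.exp (w t x))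
      (fun t x => Real.exp (w t x) * wt t x) :=
  dg_sol_of_classical isOpen_ball (h.ok hlam) h.dgReg
    (fun t ht => (h.contDiffOn_flux ht).congr (fun x hx => h.flux_eq ht hx))
    (fun t ht x hx => h.eq_div ht hx)

end QdHyp

theorem qd_abs_sub_le_exp_mul {a b M : ℝ} (ha : -M ≤ a) (hb : -M ≤ b) :
    |a - b| ≤ Real.exp M * |Real.exp a - Real.exp b| := by
  wlog hab : b ≤ a generalizing a b
  · rw [abs_sub_comm, abs_sub_comm (Real.exp a)]
    exact this hb ha (le_of_not_ge hab)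
  have h1 : a - b + 1 ≤ Real.exp (a - b) := Real.add_one_le_exp _
  have h2 : Real.exp a = Real.exp b * Real.exp (a - b) := by
    rw [← Real.exp_add]; ring_nf
  have h3 : Real.exp (-M) ≤ Real.exp b := Real.exp_le_exp.2 hb
  have h4 : Real.exp M * Real.exp (-M) = 1 := by rw [← Real.exp_add]; simp
  rw [abs_of_nonneg (sub_nonneg.2 hab), abs_of_nonneg (sub_nonneg.2 (Real.exp_le_exp.2 hab))]
  calc a - b = Real.exp M * Real.exp (-M) * (a - b) := by rw [h4, one_mul]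
    _ ≤ Real.exp M * (Real.exp b * (a - b)) := by
        rw [mul_assoc]
        exact mul_le_mul_of_nonneg_left (mul_le_mul_of_nonneg_right h3 (sub_nonneg.2 hab))
          (Real.exp_pos _).le
    _ ≤ Real.exp M * (Real.exp a - Real.exp b) := by
        refine mul_le_mul_of_nonneg_left ?_ (Real.exp_pos _).le
        rw [h2]
        nlinarith [Real.exp_pos b]

theorem exists_quasi_holder_aux [MeasurableSpace E] [BorelSpace E]
    (hdim : 2 ≤ Module.finrank ℝ E) (lam M₀ : ℝ) (CP : ℕ → ℝ) (hlam : 0 < lam) :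
    ∃ α : ℝ, 0 < α ∧ α < 1 ∧ ∀ ε₁ : ℝ, 0 < ε₁ → ∃ H : ℝ, 0 ≤ H ∧
    ∀ (T' : ℝ) (P : Op E) (w wt f : ℝ → E → ℝ), ε₁ ≤ T' → QdHyp lam M₀ T' CP P w wt f →
      ∀ t ∈ Icc ε₁ T', ∀ s ∈ Icc ε₁ T', ∀ x ∈ ball (0 : E) 2, ∀ y ∈ ball (0 : E) 2,
        |w t x - w s y| ≤ H * (‖x - y‖ ^ α + |t - s| ^ (α / 2)) := by
  obtain ⟨α, C, hα0, hα1, hC, hol⟩ := dg_holder E hdim (min 1 (lam * Real.exp (-M₀)))
    (max 1 (Real.exp M₀ * ((Module.finrank ℝ E : ℝ) * (CP 0 + (Module.finrank ℝ E : ℝ) * CP 1))))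
    (lt_min one_pos (by positivity)) ((min_le_left _ _).trans (le_max_left _ _))
  refine ⟨α, hα0, hα1, fun ε₁ hε₁ => ?_⟩
  obtain ⟨r, hr⟩ : ∃ r : ℝ, r = min 1 (Real.sqrt ε₁) := ⟨_, rfl⟩
  have hr0 : 0 < r := by rw [hr]; exact lt_min one_pos (Real.sqrt_pos.2 hε₁)
  have hr1 : r ≤ 1 := by rw [hr]; exact min_le_left _ _
  have hr2 : r ^ 2 ≤ ε₁ := by
    have : r ≤ Real.sqrt ε₁ := by rw [hr]; exact min_le_right _ _
    calc r ^ 2 ≤ (Real.sqrt ε₁) ^ 2 := pow_le_pow_left₀ hr0.le this 2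
      _ = ε₁ := Real.sq_sqrt hε₁.le
  obtain ⟨G, hG⟩ : ∃ G : ℝ, G = Real.exp M₀ + r * 0 + r ^ 2 * (Real.exp M₀ * M₀) := ⟨_, rfl⟩
  refine ⟨|Real.exp M₀ * (C * G / r ^ α)| + |2 * M₀ / (r / 2) ^ α|, by positivity, ?_⟩
  intro T' P w wt f hεT h t ht s hs x hx y hy
  have hM0 := h.M₀_nonneg
  have hG0 : 0 ≤ G := by rw [hG]; positivity
  have hA1 : 0 ≤ ‖x - y‖ ^ α := Real.rpow_nonneg (norm_nonneg _) _
  have hA2 : 0 ≤ |t - s| ^ (α / 2) := Real.rpow_nonneg (abs_nonneg _) _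
  have ht' : t ∈ Icc 0 T' := ⟨hε₁.le.trans ht.1, ht.2⟩
  have hs' : s ∈ Icc 0 T' := ⟨hε₁.le.trans hs.1, hs.2⟩
  have hx' : x ∈ ball (0 : E) 3 := ball_subset_ball (by norm_num) hx
  have hy' : y ∈ ball (0 : E) 3 := ball_subset_ball (by norm_num) hy
  have hrα : 0 < r ^ α := Real.rpow_pos_of_pos hr0 _
  have hrα2 : 0 < (r / 2) ^ α := Real.rpow_pos_of_pos (by positivity) _
  by_cases hnear : ‖x - y‖ ≤ r / 2 ∧ |t - s| ≤ r ^ 2 / 4
  · obtain ⟨hn1, hn2⟩ := hnear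
    have hI : Icc (max t s - r ^ 2) (max t s) ⊆ Icc 0 T' := by
      intro τ hτ
      refine ⟨?_, hτ.2.trans (max_le ht.2 hs.2)⟩
      have : ε₁ ≤ max t s := ht.1.trans (le_max_left _ _)
      linarith [hτ.1]
    have hB : ball x r ⊆ ball (0 : E) 3 := by
      intro z hz
      rw [mem_ball_zero_iff]
      rw [mem_ball_zero_iff] at hx
      rw [mem_ball, dist_eq_norm] at hz
      calc ‖z‖ = ‖(z - x) + x‖ := by rw [sub_add_cancel]
        _ ≤ ‖z - x‖ + ‖x‖ := norm_add_le _ _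
        _ < 3 := by linarith
    have hm1 : max t s - t ≤ |t - s| := by
      rcases le_total t s with h1 | h1
      · rw [max_eq_right h1, abs_sub_comm]; exact le_abs_self _
      · rw [max_eq_left h1]; simp
    have hm2 : max t s - s ≤ |t - s| := by
      rcases le_total t s with h1 | h1
      · rw [max_eq_right h1]; simp
      · rw [max_eq_left h1]; exact le_abs_self _
    have hP1 : ((t, x) : ℝ × E) ∈ dg_Q (max t s) x (r / 2) := by
      refine ⟨⟨?_, le_max_left _ _⟩, mem_closedBall_self (by positivity)⟩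
      show max t s - (r / 2) ^ 2 ≤ t
      nlinarith
    have hP2 : ((s, y) : ℝ × E) ∈ dg_Q (max t s) x (r / 2) := by
      refine ⟨⟨?_, le_max_right _ _⟩, ?_⟩
      · show max t s - (r / 2) ^ 2 ≤ s
        nlinarith
      · show y ∈ closedBall x (r / 2)
        rw [mem_closedBall, dist_eq_norm, norm_sub_rev]; exact hn1
    have hq := hol (Icc 0 T') (ball (0 : E) 3) (qdK P w wt) (fun t x => Real.exp (w t x))
      (fun t x => Real.exp (w t x) * wt t x) 0 (Real.exp M₀ * M₀) (Real.exp M₀) isOpen_ball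
      (h.ok hlam) h.dgReg (h.dgSol hlam) (max t s) x r hr0 hr1 hI hB
      (fun τ hτ z hz => by
        rw [abs_of_pos (Real.exp_pos _)]
        exact h.exp_le (hI hτ) (hB hz))
      (t, x) hP1 (s, y) hP2
    simp only [← hG] at hq
    have hb0 : 0 ≤ |t - s| ^ (1 / 2 : ℝ) := Real.rpow_nonneg (abs_nonneg _) _
    have e1 : ((‖x - y‖ + |t - s| ^ (1 / 2 : ℝ)) / r) ^ α
        ≤ (‖x - y‖ ^ α + |t - s| ^ (α / 2)) / r ^ α := by
      rw [Real.div_rpow (by positivity) hr0.le]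
      refine div_le_div_of_nonneg_right ?_ hrα.le
      have := Real.rpow_add_le_add_rpow (norm_nonneg (x - y)) hb0 hα0.le hα1.le
      rw [← Real.rpow_mul (abs_nonneg _)] at this
      have e : (1 / 2 : ℝ) * α = α / 2 := by ring
      rwa [e] at this
    have e2 := qd_abs_sub_le_exp_mul (a := w t x) (b := w s y) (M := M₀)
      (neg_le_of_abs_le (h.bd t ht' x hx').1) (neg_le_of_abs_le (h.bd s hs' y hy').1)
    calc |w t x - w s y| ≤ Real.exp M₀ * |Real.exp (w t x) - Real.exp (w s y)| := e2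
      _ ≤ Real.exp M₀ * (C * ((‖x - y‖ + |t - s| ^ (1 / 2 : ℝ)) / r) ^ α * G) :=
          mul_le_mul_of_nonneg_left hq (Real.exp_pos _).le
      _ ≤ Real.exp M₀ * (C * ((‖x - y‖ ^ α + |t - s| ^ (α / 2)) / r ^ α) * G) := by
          refine mul_le_mul_of_nonneg_left ?_ (Real.exp_pos _).le
          exact mul_le_mul_of_nonneg_right (mul_le_mul_of_nonneg_left e1 hC.le) hG0
      _ = (Real.exp M₀ * (C * G / r ^ α)) * (‖x - y‖ ^ α + |t - s| ^ (α / 2)) := by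
          field_simp
      _ ≤ (|Real.exp M₀ * (C * G / r ^ α)| + |2 * M₀ / (r / 2) ^ α|)
            * (‖x - y‖ ^ α + |t - s| ^ (α / 2)) := by
          refine mul_le_mul_of_nonneg_right ?_ (by positivity)
          have := le_abs_self (Real.exp M₀ * (C * G / r ^ α))
          have := abs_nonneg (2 * M₀ / (r / 2) ^ α)
          linarith
  · have hA : (r / 2) ^ α ≤ ‖x - y‖ ^ α + |t - s| ^ (α / 2) := by
      rw [not_and_or, not_le, not_le] at hnear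
      rcases hnear with h1 | h1
      · have := Real.rpow_le_rpow (by positivity) h1.le hα0.le
        linarith
      · have e : (r / 2) ^ α = ((r / 2) ^ 2) ^ (α / 2) := by
          rw [← Real.rpow_natCast, ← Real.rpow_mul (by positivity)]
          congr 1
          push_cast
          ring
        have h2 : (r / 2) ^ 2 ≤ |t - s| := by nlinarith
        have := Real.rpow_le_rpow (by positivity) h2 (by positivity : 0 ≤ α / 2)
        rw [e]
        linarith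
    have h1 : |w t x - w s y| ≤ 2 * M₀ := by
      have := abs_sub (w t x) (w s y)
      have := (h.bd t ht' x hx').1
      have := (h.bd s hs' y hy').1
      linarith
    calc |w t x - w s y| ≤ 2 * M₀ := h1
      _ = (2 * M₀ / (r / 2) ^ α) * (r / 2) ^ α := by field_simp
      _ ≤ (2 * M₀ / (r / 2) ^ α) * (‖x - y‖ ^ α + |t - s| ^ (α / 2)) :=
          mul_le_mul_of_nonneg_left hA (by positivity)
      _ ≤ (|Real.exp M₀ * (C * G / r ^ α)| + |2 * M₀ / (r / 2) ^ α|)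
            * (‖x - y‖ ^ α + |t - s| ^ (α / 2)) := by
          refine mul_le_mul_of_nonneg_right ?_ (by positivity)
          have := le_abs_self (2 * M₀ / (r / 2) ^ α)
          have := abs_nonneg (Real.exp M₀ * (C * G / r ^ α))
          linarith

theorem exists_quasi_holder_zero (hdim : Module.finrank ℝ E = 0) (M₀ Tm : ℝ) (hTm : 0 < Tm) :
    ∃ H : ℝ, 0 ≤ H ∧ ∀ (lam T' : ℝ) (CP : ℕ → ℝ) (P : Op E) (w wt f : ℝ → E → ℝ), T' ≤ Tm →
      QdHyp lam M₀ T' CP P w wt f →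
      ∀ t ∈ Icc 0 T', ∀ s ∈ Icc 0 T', ∀ x ∈ ball (0 : E) 2, ∀ y ∈ ball (0 : E) 2,
        |w t x - w s y| ≤ H * (‖x - y‖ ^ (1 / 2 : ℝ) + |t - s| ^ ((1 / 2 : ℝ) / 2)) := by
  haveI : Subsingleton E := Module.finrank_zero_iff.1 hdim
  refine ⟨|M₀| * Tm ^ (3 / 4 : ℝ), by positivity, ?_⟩
  intro lam T' CP P w wt f hT h t ht s hs x hx y hy
  have hxy : x = y := Subsingleton.elim _ _
  subst hxy
  have hx' : x ∈ ball (0 : E) 3 := ball_subset_ball (by norm_num) hx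
  have hwt : ∀ τ ∈ Icc 0 T', ‖wt τ x‖ ≤ M₀ := by
    intro τ hτ
    have e1 : jet w τ x = w τ x • ((1 : ℝ), (0 : E →L[ℝ] ℝ), (0 : Bil E)) := by
      have h1 : D1 w τ x = 0 := Subsingleton.elim _ _
      have h2 : D2 w τ x = 0 := Subsingleton.elim _ _
      rw [jet, h1, h2]
      ext <;> simp
    rw [h.eq τ hτ x hx', e1, map_smul, h.const τ hτ x hx', smul_zero, mul_zero, zero_add]
    exact (h.bd τ hτ x hx').2
  have hlip := (convex_Icc 0 T').norm_image_sub_le_of_norm_hasDerivWithin_le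
    (f := fun τ => w τ x) (f' := fun τ => wt τ x) (fun τ hτ => h.reg.dt τ hτ x hx') hwt hs ht
  rw [Real.norm_eq_abs, Real.norm_eq_abs] at hlip
  have hd : |t - s| ≤ Tm := by
    rw [abs_le]; constructor <;> linarith [ht.1, ht.2, hs.1, hs.2]
  have e2 : |t - s| = |t - s| ^ (3 / 4 : ℝ) * |t - s| ^ ((1 / 2 : ℝ) / 2) := by
    rw [← Real.rpow_add_of_nonneg (abs_nonneg _) (by norm_num) (by norm_num)]
    norm_num
  have e3 : |t - s| ^ (3 / 4 : ℝ) ≤ Tm ^ (3 / 4 : ℝ) :=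
    Real.rpow_le_rpow (abs_nonneg _) hd (by norm_num)
  have hA2 : 0 ≤ |t - s| ^ ((1 / 2 : ℝ) / 2) := Real.rpow_nonneg (abs_nonneg _) _
  have hA1 : 0 ≤ ‖x - x‖ ^ (1 / 2 : ℝ) := Real.rpow_nonneg (norm_nonneg _) _
  calc |w t x - w s x| ≤ M₀ * |t - s| := hlip
    _ ≤ |M₀| * |t - s| := mul_le_mul_of_nonneg_right (le_abs_self _) (abs_nonneg _)
    _ = |M₀| * (|t - s| ^ (3 / 4 : ℝ) * |t - s| ^ ((1 / 2 : ℝ) / 2)) := by rw [← e2]
    _ ≤ |M₀| * (Tm ^ (3 / 4 : ℝ) * |t - s| ^ ((1 / 2 : ℝ) / 2)) :=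
        mul_le_mul_of_nonneg_left (mul_le_mul_of_nonneg_right e3 hA2) (abs_nonneg _)
    _ = |M₀| * Tm ^ (3 / 4 : ℝ) * |t - s| ^ ((1 / 2 : ℝ) / 2) := by ring
    _ ≤ |M₀| * Tm ^ (3 / 4 : ℝ) * (‖x - x‖ ^ (1 / 2 : ℝ) + |t - s| ^ ((1 / 2 : ℝ) / 2)) :=
        mul_le_mul_of_nonneg_left (by linarith) (by positivity)

/-- **De Giorgi-Nash-Moser for `w_t = e^{-w} P(jet w) + f`** in a chart, interior in space and time. -/
theorem exists_quasi_holder_local (hdim : Module.finrank ℝ E ≠ 1) (lam M₀ Tm : ℝ) (CP : ℕ → ℝ)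
    (hlam : 0 < lam) (hTm : 0 < Tm) : ∃ α : ℝ, 0 < α ∧ α < 1 ∧ ∀ ε₁ : ℝ, 0 < ε₁ → ∃ H : ℝ, 0 ≤ H ∧
    ∀ (T' : ℝ) (P : Op E) (w wt f : ℝ → E → ℝ), ε₁ ≤ T' → T' ≤ Tm →
      SmB (Icc 0 T' ×ˢ ball (0 : E) 3) (fun q : ℝ × E => P q.1 q.2) CP →
      (∀ t ∈ Icc 0 T', ∀ z ∈ ball (0 : E) 3, ∀ ξ : E →L[ℝ] ℝ,
        lam * ‖ξ‖ ^ 2 ≤ P t z (topJ (sqB ξ))) →
      (∀ t ∈ Icc 0 T', ∀ z ∈ ball (0 : E) 3, P t z (1, 0, 0) = 0) →
      C21 (Icc 0 T') (ball (0 : E) 3) w wt →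
      (∀ t ∈ Icc 0 T', ∀ z ∈ ball (0 : E) 3, |w t z| ≤ M₀ ∧ |f t z| ≤ M₀) →
      (∀ t ∈ Icc 0 T', ∀ z ∈ ball (0 : E) 3,
        wt t z = Real.exp (-(w t z)) * P t z (jet w t z) + f t z) →
      ∀ t ∈ Icc ε₁ T', ∀ s ∈ Icc ε₁ T', ∀ x ∈ ball (0 : E) 2, ∀ y ∈ ball (0 : E) 2,
        |w t x - w s y| ≤ H * (‖x - y‖ ^ α + |t - s| ^ (α / 2)) := by
  letI : MeasurableSpace E := borel E
  haveI : BorelSpace E := ⟨rfl⟩
  rcases Nat.lt_or_ge (Module.finrank ℝ E) 2 with h2 | h2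
  · have h0 : Module.finrank ℝ E = 0 := by omega
    obtain ⟨H, hH, hh⟩ := exists_quasi_holder_zero (E := E) h0 M₀ Tm hTm
    refine ⟨1 / 2, by norm_num, by norm_num, fun ε₁ hε₁ => ⟨H, hH, ?_⟩⟩
    intro T' P w wt f hε hT hP hell hc hw hb heq t ht s hs x hx y hy
    exact hh lam T' CP P w wt f hT ⟨hε₁.trans_le hε, hP, hell, hc, hw, hb, heq⟩ t
      ⟨hε₁.le.trans ht.1, ht.2⟩ s ⟨hε₁.le.trans hs.1, hs.2⟩ x hx y hy
  · obtain ⟨α, h1, h3, hh⟩ := exists_quasi_holder_aux (E := E) h2 lam M₀ CP hlam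
    refine ⟨α, h1, h3, fun ε₁ hε₁ => ?_⟩
    obtain ⟨H, hH, hh'⟩ := hh ε₁ hε₁
    refine ⟨H, hH, ?_⟩
    intro T' P w wt f hε hT hP hell hc hw hb heq
    exact hh' T' P w wt f hε ⟨hε₁.trans_le hε, hP, hell, hc, hw, hb, heq⟩

end QD

theorem YB.smul' {G : Type*} [NormedAddCommGroup G] [NormedSpace ℝ G] {α : ℝ} {I : Set ℝ} {S : Set E}
    {c : ℝ → E → ℝ} {g : ℝ → E → G} {K₁ K₂ : ℝ} (hc : YB α I S c K₁) (hg : YB α I S g K₂)
    (h1 : 0 ≤ K₁) (h2 : 0 ≤ K₂) : YB α I S (fun t x => c t x • g t x) (2 * K₁ * K₂) :=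
  ⟨hc.cont.smul hg.cont,
    fun t ht => ((hc.sup t ht).smul (hg.sup t ht) h1).mono (by nlinarith [mul_nonneg h1 h2]),
    fun t ht => (HolB.smul (hc.sup t ht) (hc.hol t ht) (hg.sup t ht) (hg.hol t ht)).mono
      (le_of_eq (by ring))⟩

theorem YB.const' (α : ℝ) (I : Set ℝ) (S : Set E) (c : ℝ) : YB α I S (fun _ _ => c) |c| :=
  ⟨continuousOn_const, fun _ _ _ _ => le_of_eq (Real.norm_eq_abs c),
    fun _ _ => (HolB.const c).mono (abs_nonneg c)⟩

theorem abs_exp_neg_sub_le {p q : ℝ} (hp : 0 ≤ p) (hq : 0 ≤ q) :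
    |Real.exp (-p) - Real.exp (-q)| ≤ |p - q| := by
  have key : ∀ p q : ℝ, 0 ≤ p → p ≤ q → |Real.exp (-p) - Real.exp (-q)| ≤ q - p := by
    intro p q hp hpq
    have h1 : Real.exp (-q) ≤ Real.exp (-p) := Real.exp_le_exp.mpr (by linarith)
    rw [abs_of_nonneg (by linarith)]
    have h2 : Real.exp (-q) = Real.exp (-p) * Real.exp (-(q - p)) := by
      rw [← Real.exp_add]
      congr 1
      ring
    have h3 := Real.add_one_le_exp (-(q - p))
    have h4 : Real.exp (-p) ≤ 1 := Real.exp_le_one_iff.mpr (by linarith)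
    have h5 := Real.exp_pos (-p)
    rw [h2]
    nlinarith
  rcases le_total p q with h | h
  · rw [abs_sub_comm p q, abs_of_nonneg (by linarith : 0 ≤ q - p)]
    exact key p q hp h
  · rw [abs_sub_comm, abs_of_nonneg (by linarith : 0 ≤ p - q)]
    exact key q p hq h

theorem SmB.const' {W G : Type*} [NormedAddCommGroup W] [NormedSpace ℝ W] [NormedAddCommGroup G]
    [NormedSpace ℝ G] (Q : Set W) (hQ : UniqueDiffOn ℝ Q) (c : G) :
    SmB Q (fun _ => c) (fun k => if k = 0 then ‖c‖ else 0) := by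
  have h := SmB.affine Q hQ (0 : W →L[ℝ] G) c (b := ‖c‖) (fun q _ => by simp)
  refine (h.congr fun q _ => by simp).mono fun k => ?_
  by_cases h0 : k = 0
  · simp [h0]
  · by_cases h1 : k = 1 <;> simp [h0, h1]

/-- `exp` on a bounded interval. -/
theorem SmB_exp (b : ℝ) : SmB (ball (0 : ℝ) b) Real.exp (fun _ => Real.exp b) := by
  refine SmB.of_isOpen isOpen_ball Real.contDiff_exp.contDiffOn fun k q hq => ?_
  rw [norm_iteratedFDeriv_eq_norm_iteratedDeriv, iteratedDeriv_eq_iterate, Real.iter_deriv_exp,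
    Real.norm_eq_abs, abs_of_pos (Real.exp_pos _), Real.exp_le_exp]
  have : |q| < b := by simpa using hq
  exact (le_abs_self q).trans this.le


/-- the chart expression of the quasilinear nonlinearity is smooth with bounded derivatives on every tube. -/
theorem exists_SmB_qF (T δ pen a : ℝ) (C : ℕ → ℝ) (hT : 0 < T) : ∃ CF : ℕ → ℝ,
    ∀ (P : Op E) (R β ψ : ℝ → E → ℝ),
      SmB (Icc 0 T ×ˢ ball (0 : E) 3) (fun q : ℝ × E => P q.1 q.2) C →
      SmB (Icc 0 T ×ˢ ball (0 : E) 3) (fun q : ℝ × E => R q.1 q.2) C →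
      SmB (Icc 0 T ×ˢ ball (0 : E) 3) (fun q : ℝ × E => β q.1 q.2) C →
      SmB (Icc 0 T ×ˢ ball (0 : E) 3) (fun q : ℝ × E => ψ q.1 q.2) C →
      SmB (Icc 0 T ×ˢ ball (0 : E) 3 ×ˢ ball (0 : Jet E) δ)
        (fun q : ℝ × E × Jet E => Real.exp (-(a + q.2.2.1)) * P q.1 q.2.1 q.2.2
          + (1 - Real.exp (-(a + q.2.2.1))) * R q.1 q.2.1
          + pen * β q.1 q.2.1 * (ψ q.1 q.2.1 - (a + q.2.2.1))) CF := by
  have hI : UniqueDiffOn ℝ (Icc (0 : ℝ) T) := uniqueDiffOn_Icc hT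
  have hQ : UniqueDiffOn ℝ (Icc (0 : ℝ) T ×ˢ ball (0 : E) 3) := hI.prod isOpen_ball.uniqueDiffOn
  have hTb : UniqueDiffOn ℝ (Icc (0 : ℝ) T ×ˢ ball (0 : E) 3 ×ˢ ball (0 : Jet E) δ) :=
    hI.prod (isOpen_ball.prod isOpen_ball).uniqueDiffOn
  -- the linear functional `q ↦ - q.2.2.1`
  obtain ⟨L₁, hL₁⟩ : ∃ L : ℝ × E × Jet E →L[ℝ] ℝ, L =
      -((ContinuousLinearMap.fst ℝ ℝ ((E →L[ℝ] ℝ) × Bil E)) ∘L
        (ContinuousLinearMap.snd ℝ E (Jet E)) ∘L (ContinuousLinearMap.snd ℝ ℝ (E × Jet E))) :=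
    ⟨_, rfl⟩
  have hL₁a : ∀ q : ℝ × E × Jet E, L₁ q = -q.2.2.1 := fun q => by rw [hL₁]; rfl
  -- the functional `J ↦ - J.1`
  obtain ⟨L₂, hL₂⟩ : ∃ L : Jet E →L[ℝ] ℝ,
      L = -(ContinuousLinearMap.fst ℝ ℝ ((E →L[ℝ] ℝ) × Bil E)) := ⟨_, rfl⟩
  have hL₂a : ∀ J : Jet E, L₂ J = -J.1 := fun J => by rw [hL₂]; rfl
  obtain ⟨Ce, hCe⟩ := exists_SmB_comp_gen (W := ℝ) (W' := ℝ × E × Jet E) (G := ℝ)
    (fun k => if k = 0 then |a| + δ else if k = 1 then ‖L₁‖ else 0)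
    (fun _ => Real.exp (|a| + δ + 1))
  obtain ⟨C1, hC1⟩ := exists_SmB_lin (E := E) δ C C
  obtain ⟨C2, hC2⟩ := exists_SmB_lin (E := E) δ (fun k => if k = 0 then ‖(0 : Jet E →L[ℝ] ℝ)‖ else 0) C
  obtain ⟨C4, hC4⟩ := exists_SmB_lin (E := E) δ (fun k => if k = 0 then ‖L₂‖ else 0)
    (fun k => C k + if k = 0 then ‖a‖ else 0)
  obtain ⟨M1, hM1⟩ := exists_SmB_bilin (W := ℝ × E × Jet E) (G₁ := ℝ) (G₂ := ℝ) (G₃ := ℝ) Ce C1
  obtain ⟨M2, hM2⟩ := exists_SmB_bilin (W := ℝ × E × Jet E) (G₁ := ℝ) (G₂ := ℝ) (G₃ := ℝ) C2 C4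
  refine ⟨fun k => M1 k + C2 k + ‖pen • ContinuousLinearMap.id ℝ ℝ‖ * M2 k, ?_⟩
  intro P R β ψ hP hR hβ hψ
  have hmul : ‖ContinuousLinearMap.mul ℝ ℝ‖ ≤ 1 := ContinuousLinearMap.opNorm_mul_le ℝ ℝ
  have he : SmB (Icc 0 T ×ˢ ball (0 : E) 3 ×ˢ ball (0 : Jet E) δ)
      (fun q : ℝ × E × Jet E => Real.exp (-(a + q.2.2.1))) Ce := by
    have haff := SmB.affine _ hTb L₁ (-a) (b := |a| + δ) (fun q hq => by
      rw [hL₁a]
      have h1 : ‖q.2.2.1‖ < δ := lt_of_le_of_lt (norm_fst_le q.2.2) (mem_ball_zero_iff.1 hq.2.2)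
      calc ‖-q.2.2.1 + -a‖ ≤ ‖-q.2.2.1‖ + ‖-a‖ := norm_add_le _ _
        _ = ‖q.2.2.1‖ + |a| := by rw [norm_neg, norm_neg, Real.norm_eq_abs a]
        _ ≤ |a| + δ := by linarith)
    have hm : MapsTo (fun q : ℝ × E × Jet E => L₁ q + -a)
        (Icc 0 T ×ˢ ball (0 : E) 3 ×ˢ ball (0 : Jet E) δ) (ball (0 : ℝ) (|a| + δ + 1)) := by
      intro q hq
      rw [mem_ball_zero_iff]
      have := haff.norm_le hq
      simp only [if_true] at this
      linarith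
    refine (hCe _ _ _ _ hTb isOpen_ball.uniqueDiffOn hm haff (SmB_exp _)).congr fun q _ => ?_
    rw [hL₁a]
    congr 1
    ring
  have hnegR : SmB (Icc 0 T ×ˢ ball (0 : E) 3) (fun q : ℝ × E => -R q.1 q.2) C :=
    (hR.clm_comp_le_one hQ (-ContinuousLinearMap.id ℝ ℝ) (by
      rw [norm_neg]; exact ContinuousLinearMap.norm_id_le)).congr fun q _ => by simp
  have h1 := hC1 _ _ P (fun t z => -R t z) hI isOpen_ball hP hnegR
  have h2R := hC2 _ _ (fun _ _ => 0) R hI isOpen_ball (SmB.const' _ hQ _) hR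
  have h2β := hC2 _ _ (fun _ _ => 0) β hI isOpen_ball (SmB.const' _ hQ _) hβ
  have h4 := hC4 _ _ (fun _ _ => L₂) (fun t z => ψ t z - a) hI isOpen_ball (SmB.const' _ hQ _)
    (hψ.sub (SmB.const' _ hQ a) hQ)
  have p1 := hM1 _ (ContinuousLinearMap.mul ℝ ℝ) _ _ hTb hmul he h1
  have p2 := hM2 _ (ContinuousLinearMap.mul ℝ ℝ) _ _ hTb hmul h2β h4
  have p3 := p2.clm_comp hTb (pen • ContinuousLinearMap.id ℝ ℝ)
  refine ((p1.add h2R hTb).add p3 hTb).congr fun q _ => ?_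
  simp only [ContinuousLinearMap.mul_apply', hL₂a, _root_.zero_apply, zero_add,
    FunLike.coe_smul, ContinuousLinearMap.coe_id', Pi.smul_apply, id_eq, smul_eq_mul]
  ring


theorem fderiv_qF_topJ (p : Jet E →L[ℝ] ℝ) (a r c s₀ : ℝ) (J : Jet E) (B : Bil E) :
    fderiv ℝ (fun J : Jet E => Real.exp (-(a + J.1)) * p J + (1 - Real.exp (-(a + J.1))) * r
      + c * (s₀ - (a + J.1))) J (topJ B) = Real.exp (-(a + J.1)) * p (topJ B) := by
  have hd : DifferentiableAt ℝ (fun J : Jet E => Real.exp (-(a + J.1)) * p J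
      + (1 - Real.exp (-(a + J.1))) * r + c * (s₀ - (a + J.1))) J := by fun_prop
  have hf : HasDerivAt (fun s : ℝ => J + s • topJ B) ((1 : ℝ) • topJ B) 0 :=
    ((hasDerivAt_id (0 : ℝ)).smul_const (topJ B)).const_add J
  have hd' : HasFDerivAt (fun J : Jet E => Real.exp (-(a + J.1)) * p J
      + (1 - Real.exp (-(a + J.1))) * r + c * (s₀ - (a + J.1)))
      (fderiv ℝ (fun J : Jet E => Real.exp (-(a + J.1)) * p J
      + (1 - Real.exp (-(a + J.1))) * r + c * (s₀ - (a + J.1))) J) (J + (0 : ℝ) • topJ B) := by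
    rw [zero_smul, add_zero]
    exact hd.hasFDerivAt
  have h1 := hd'.comp_hasDerivAt (0 : ℝ) hf
  have h2 : HasDerivAt (fun s : ℝ => Real.exp (-(a + J.1)) * (p J + s * p (topJ B))
      + (1 - Real.exp (-(a + J.1))) * r + c * (s₀ - (a + J.1)))
      (Real.exp (-(a + J.1)) * (1 * p (topJ B))) 0 :=
    (((((hasDerivAt_id (0 : ℝ)).mul_const (p (topJ B))).const_add (p J)).const_mul _).add_const
      _).add_const _
  have e : ((fun J : Jet E => Real.exp (-(a + J.1)) * p J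
      + (1 - Real.exp (-(a + J.1))) * r + c * (s₀ - (a + J.1))) ∘ fun s : ℝ => J + s • topJ B)
      = fun s : ℝ => Real.exp (-(a + J.1)) * (p J + s * p (topJ B))
      + (1 - Real.exp (-(a + J.1))) * r + c * (s₀ - (a + J.1)) := by
    funext s
    have e1 : (J + s • topJ B).1 = J.1 := by simp [topJ]
    simp only [Function.comp_apply, e1, map_add, map_smul, smul_eq_mul]
  rw [e] at h1
  have := h1.unique h2
  simpa using this

namespace UAtlas

variable (A : UAtlas V E)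

/-- the nonlinearity of the penalised quasilinear equation for `u = w - a`. -/
noncomputable def qF (P : A.ι → Op E) (R β ψ : ℝ → V → ℝ) (pen a : ℝ) :
    A.ι → ℝ → E → Jet E → ℝ :=
  fun i t z J => Real.exp (-(a + J.1)) * P i t z J
    + (1 - Real.exp (-(a + J.1))) * R t (A.Φ i z)
    + pen * β t (A.Φ i z) * (ψ t (A.Φ i z) - (a + J.1))

/-- the hypotheses of M9. -/
structure QHyp (T lam pen a : ℝ) (C : ℕ → ℝ) (P : A.ι → Op E) (R β ψ ψt : ℝ → V → ℝ) : Prop where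
  T_pos : 0 < T
  lam_pos : 0 < lam
  compat : A.CompatL (Icc 0 T) P
  smooth : A.SmL (Icc 0 T) P C
  ell : A.EllL (Icc 0 T) lam P
  const : ∀ i, ∀ t ∈ Icc 0 T, ∀ z ∈ ball (0 : E) 3, P i t z (1, 0, 0) = 0
  smR : A.SmST (Icc 0 T) R C
  smβ : A.SmST (Icc 0 T) β C
  smψ : A.SmST (Icc 0 T) ψ C
  pen_nonneg : 0 ≤ pen
  a_nonneg : 0 ≤ a
  β_nonneg : ∀ t ∈ Icc 0 T, ∀ x ∈ A.X, 0 ≤ β t x
  ψ_nonneg : ∀ t ∈ Icc 0 T, ∀ x ∈ A.X, 0 ≤ ψ t x
  ψ_dt : ∀ t ∈ Icc 0 T, ∀ x ∈ A.X, HasDerivWithinAt (fun s => ψ s x) (ψt t x) (Icc 0 T) t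
  ψ_super : ∀ i, ∀ t ∈ Icc 0 T, ∀ z ∈ ball (0 : E) 3,
    Real.exp (-(A.rep i ψ t z)) * P i t z (jet (A.rep i ψ) t z)
      + (1 - Real.exp (-(A.rep i ψ t z))) * A.rep i R t z ≤ A.rep i ψt t z
  a_le : ∀ x ∈ A.X, a ≤ ψ 0 x

/-- solutions of the class. -/
abbrev QSol (P : A.ι → Op E) (R β ψ : ℝ → V → ℝ) (pen a T' : ℝ) (u ut : ℝ → V → ℝ) : Prop :=
  A.SolCl (A.qF P R β ψ pen a) (fun _ _ _ => univ) T' u ut

/-- space-time Hölder bounds: from `ball 0 2` of every chart to `ball 0 3`. -/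
theorem exists_holder_of_ball2 (α : ℝ) (hα : 0 < α) (hα1 : α ≤ 1) : ∃ C : ℝ, 0 ≤ C ∧
    ∀ (I : Set ℝ) (u : ℝ → V → ℝ) (H M₀ : ℝ), 0 ≤ H → 0 ≤ M₀ →
      (∀ t ∈ I, ∀ x ∈ A.X, |u t x| ≤ M₀) →
      (∀ i, ∀ t ∈ I, ∀ s ∈ I, ∀ x ∈ ball (0 : E) 2, ∀ y ∈ ball (0 : E) 2,
        |A.rep i u t x - A.rep i u s y| ≤ H * (‖x - y‖ ^ α + |t - s| ^ (α / 2))) →
      ∀ i, ∀ t ∈ I, ∀ s ∈ I, ∀ x ∈ ball (0 : E) 3, ∀ y ∈ ball (0 : E) 3,
        |A.rep i u t x - A.rep i u s y| ≤ C * (H + M₀) * (‖x - y‖ ^ α + |t - s| ^ (α / 2)) := by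
  have hr := A.rc_pos
  have hrα : 0 < A.rc ^ α := Real.rpow_pos_of_pos hr _
  have hm1 : (1 : ℝ) ≤ max 1 A.c3 := le_max_left _ _
  refine ⟨max 1 A.c3 + 2 / A.rc ^ α, by positivity, ?_⟩
  intro I u H M₀ hH hM₀ hb hloc i t ht s hs x hx y hy
  have hd : 0 ≤ ‖x - y‖ := norm_nonneg _
  have hxa : 0 ≤ ‖x - y‖ ^ α := Real.rpow_nonneg hd _
  have hta : 0 ≤ |t - s| ^ (α / 2) := Real.rpow_nonneg (abs_nonneg _) _
  have h2r : 0 ≤ 2 / A.rc ^ α := by positivity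
  rcases lt_or_ge ‖x - y‖ A.rc with hlt | hge
  · obtain ⟨j, hsub, hin⟩ := A.cover_cases i hx
    have hyD : y ∈ ball x A.rc ∩ ball (0 : E) 3 :=
      ⟨by rw [mem_ball, dist_eq_norm, norm_sub_rev]; exact hlt, hy⟩
    have hxD := A.mem_locc hx
    have hc : 0 ≤ A.c3 := (norm_nonneg _).trans (hin.d1 x hxD)
    have h1 := hloc j t ht s hs _ (hin.maps hxD) _ (hin.maps hyD)
    rw [← A.rep_eq u (hsub hxD) t, ← A.rep_eq u (hsub hyD) s] at h1
    have h2 : ‖A.tr i j x - A.tr i j y‖ ^ α ≤ max 1 A.c3 * ‖x - y‖ ^ α := by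
      have h3 : A.c3 ^ α ≤ max 1 A.c3 := by
        rcases le_total A.c3 1 with h | h
        · exact (Real.rpow_le_one hc h hα.le).trans (le_max_left _ _)
        · refine le_trans ?_ (le_max_right _ _)
          have := Real.rpow_le_rpow_of_exponent_le h hα1
          rwa [Real.rpow_one] at this
      calc ‖A.tr i j x - A.tr i j y‖ ^ α ≤ (A.c3 * ‖x - y‖) ^ α :=
            Real.rpow_le_rpow (norm_nonneg _) (hin.lip x hxD y hyD) hα.le
        _ = A.c3 ^ α * ‖x - y‖ ^ α := Real.mul_rpow hc hd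
        _ ≤ max 1 A.c3 * ‖x - y‖ ^ α := by gcongr
    calc |A.rep i u t x - A.rep i u s y|
        ≤ H * (‖A.tr i j x - A.tr i j y‖ ^ α + |t - s| ^ (α / 2)) := h1
      _ ≤ H * (max 1 A.c3 * ‖x - y‖ ^ α + max 1 A.c3 * |t - s| ^ (α / 2)) := by
          gcongr
          nlinarith
      _ = max 1 A.c3 * H * (‖x - y‖ ^ α + |t - s| ^ (α / 2)) := by ring
      _ ≤ (max 1 A.c3 + 2 / A.rc ^ α) * (H + M₀) * (‖x - y‖ ^ α + |t - s| ^ (α / 2)) := by
          gcongr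
          · linarith
          · linarith
  · have h1 : A.rc ^ α ≤ ‖x - y‖ ^ α := Real.rpow_le_rpow hr.le hge hα.le
    have h2 : 1 ≤ ‖x - y‖ ^ α / A.rc ^ α := by rwa [one_le_div hrα]
    have b1 := hb t ht _ (A.maps i hx)
    have b2 := hb s hs _ (A.maps i hy)
    calc |A.rep i u t x - A.rep i u s y| ≤ |A.rep i u t x| + |A.rep i u s y| := abs_sub _ _
      _ ≤ 2 * M₀ := by
          have e1 : |A.rep i u t x| ≤ M₀ := b1
          have e2 : |A.rep i u s y| ≤ M₀ := b2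
          linarith
      _ ≤ 2 * M₀ * (‖x - y‖ ^ α / A.rc ^ α) := by nlinarith
      _ = 2 / A.rc ^ α * M₀ * ‖x - y‖ ^ α := by ring
      _ ≤ (max 1 A.c3 + 2 / A.rc ^ α) * (H + M₀) * (‖x - y‖ ^ α + |t - s| ^ (α / 2)) := by
          gcongr
          · linarith
          · linarith
          · linarith

theorem SmST.const_add {I : Set ℝ} (hI : UniqueDiffOn ℝ I) {u : ℝ → V → ℝ} {C : ℕ → ℝ}
    (h : A.SmST I u C) (a : ℝ) : A.SmST I (fun t x => a + u t x) (fun k => |a| + C k) := by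
  intro i
  have hQ : UniqueDiffOn ℝ (I ×ˢ ball (0 : E) 3) := hI.prod isOpen_ball.uniqueDiffOn
  refine ((SmB.const' _ hQ a).add (h i) hQ).mono fun k => ?_
  by_cases hk : k = 0
  · simp [hk]
  · simp [hk]

/-- the a priori estimate of `exists_lin_apriori` on `[t₀, T]`. -/
theorem exists_lin_apriori_Icc (α γ lam M Tm : ℝ) (hα : 0 < α) (hα1 : α < 1) (hγ : 0 < γ)
    (hlam : 0 < lam) (hM : 0 ≤ M) (hTm : 0 < Tm) : ∃ C : ℝ, 0 ≤ C ∧
    ∀ (t₀ T : ℝ) (P : A.ι → Op E) (f u ut : ℝ → V → ℝ) (K : ℝ), t₀ < T → T - t₀ ≤ Tm → 0 ≤ K →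
      A.CompatL (Icc t₀ T) P → A.AdmM (Icc t₀ T) α γ lam M P → A.YM α (Icc t₀ T) f K →
      A.C2aM α (u t₀) K → A.C21M (Icc t₀ T) u ut →
      (∃ K', ∀ t ∈ Icc t₀ T, ∀ x ∈ A.X, |u t x| ≤ K') → A.SolL (Icc t₀ T) P u ut f →
      A.XM α (Icc t₀ T) u ut (C * K) := by
  obtain ⟨C, hC, h⟩ := A.exists_lin_apriori α γ lam M Tm hα hα1 hγ hlam hM hTm
  refine ⟨C, hC, fun t₀ T P f u ut K hT hTm' hK hcomp hadm hf hg hu hb hsol => ?_⟩
  have hsub : Icc (0 : ℝ) (T - t₀) ⊆ {t | t₀ + t ∈ Icc t₀ T} := fun t ht =>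
    ⟨by linarith [ht.1], by linarith [ht.2]⟩
  obtain ⟨K', hK'⟩ := hb
  have h0 : shiftT t₀ u 0 = u t₀ := by
    show u (t₀ + 0) = _
    rw [add_zero]
  have key := h (T - t₀) (fun i => shiftT t₀ (P i)) (shiftT t₀ f) (shiftT t₀ u) (shiftT t₀ ut) K
    (by linarith) hTm' hK (fun i j t ht => hcomp i j (t₀ + t) (hsub ht))
    (fun i => ((hadm i).shift (t₀ := t₀)).subset hsub subset_rfl)
    (fun i => ((hf i).shift (t₀ := t₀)).subset hsub subset_rfl)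
    (by rw [h0]; exact hg)
    (fun i => ((hu i).shift (t₀ := t₀)).subset hsub subset_rfl)
    ⟨K', fun t ht x hx => hK' (t₀ + t) (hsub ht) x hx⟩
    (fun i t ht z hz => hsol i (t₀ + t) (hsub ht) z hz)
  have hsub3 : Icc t₀ T ⊆ {t | -t₀ + t ∈ Icc (0 : ℝ) (T - t₀)} := fun t ht =>
    ⟨by linarith [ht.1], by linarith [ht.2]⟩
  intro i
  have h1 := ((key i).shift (t₀ := -t₀)).subset hsub3 subset_rfl
  have e1 : shiftT (-t₀) (A.rep i (shiftT t₀ u)) = A.rep i u := by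
    funext t z
    show u (t₀ + (-t₀ + t)) _ = u t _
    rw [add_neg_cancel_left]
  have e2 : shiftT (-t₀) (A.rep i (shiftT t₀ ut)) = A.rep i ut := by
    funext t z
    show ut (t₀ + (-t₀ + t)) _ = ut t _
    rw [add_neg_cancel_left]
  rw [e1, e2] at h1
  exact h1

variable {A}
variable {T lam pen a : ℝ} {C : ℕ → ℝ} {P : A.ι → Op E} {R β ψ ψt : ℝ → V → ℝ}

/-- step 1: the structure conditions on every tube. -/
theorem QHyp.nlHyp (h : A.QHyp T lam pen a C P R β ψ ψt) (δ : ℝ) (hδ : 0 < δ) :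
    ∃ (lam' : ℝ) (CF : ℕ → ℝ), 0 < lam' ∧ A.NLHyp T δ lam' CF (A.qF P R β ψ pen a) := by
  obtain ⟨CF, hCF⟩ := exists_SmB_qF (E := E) T δ pen a C h.T_pos
  have hl := h.lam_pos
  refine ⟨Real.exp (-(|a| + δ)) * lam, CF, by positivity, ?_, ?_, ?_⟩
  · intro i j t ht z hz J _ _
    have e1 : (A.pull i j z J).1 = J.1 := rfl
    simp only [qF]
    rw [e1, h.compat i j t ht z hz J, A.Φ_tr hz]
  · intro i
    exact hCF (P i) (A.rep i R) (A.rep i β) (A.rep i ψ) (h.smooth i) (h.smR i) (h.smβ i) (h.smψ i)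
  · intro i t ht z hz J hJ ξ
    have e := fderiv_qF_topJ (P i t z) a (R t (A.Φ i z)) (pen * β t (A.Φ i z)) (ψ t (A.Φ i z)) J
      (sqB ξ)
    have e' : fderiv ℝ (A.qF P R β ψ pen a i t z) J (topJ (sqB ξ))
        = Real.exp (-(a + J.1)) * P i t z (topJ (sqB ξ)) := e
    rw [e']
    have h1 := h.ell i t ht z hz ξ
    have h2 : Real.exp (-(|a| + δ)) ≤ Real.exp (-(a + J.1)) := by
      rw [Real.exp_le_exp]
      have h3 : ‖J.1‖ < δ := lt_of_le_of_lt (norm_fst_le J) (mem_ball_zero_iff.1 hJ)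
      rw [Real.norm_eq_abs] at h3
      linarith [le_abs_self a, le_abs_self J.1]
    have h4 : 0 ≤ lam * ‖ξ‖ ^ 2 := by positivity
    calc Real.exp (-(|a| + δ)) * lam * ‖ξ‖ ^ 2 = Real.exp (-(|a| + δ)) * (lam * ‖ξ‖ ^ 2) := by ring
      _ ≤ Real.exp (-(a + J.1)) * P i t z (topJ (sqB ξ)) :=
        mul_le_mul h2 h1 h4 (Real.exp_pos _).le


theorem QHyp.P_const (h : A.QHyp T lam pen a C P R β ψ ψt) (i : A.ι) {t : ℝ} (ht : t ∈ Icc 0 T)
    {z : E} (hz : z ∈ ball (0 : E) 3) (c : ℝ) : P i t z (c, 0, 0) = 0 := by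
  have e : ((c, 0, 0) : Jet E) = c • ((1 : ℝ), (0 : E →L[ℝ] ℝ), (0 : Bil E)) := by
    ext <;> simp
  rw [e, map_smul, h.const i t ht z hz, smul_zero]

/-- the structure conditions in the form needed for `compareN` -/
theorem QHyp.cmp (h : A.QHyp T lam pen a C P R β ψ ψt) (δ : ℝ) (hδ : 0 < δ) : ∃ M : ℝ,
    (∀ i, ∀ t ∈ Icc 0 T, ∀ z ∈ ball (0 : E) 3, ∀ J ∈ ball (0 : Jet E) δ,
      DifferentiableAt ℝ (A.qF P R β ψ pen a i t z) J) ∧
    (∀ i, ∀ t ∈ Icc 0 T, ∀ z ∈ ball (0 : E) 3, ∀ J ∈ ball (0 : Jet E) δ,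
      ‖fderiv ℝ (A.qF P R β ψ pen a i t z) J‖ ≤ M) ∧
    (∀ i, ∀ t ∈ Icc 0 T, ∀ z ∈ ball (0 : E) 3, ∀ J ∈ ball (0 : Jet E) δ, ∀ ξ : E →L[ℝ] ℝ,
      0 ≤ fderiv ℝ (A.qF P R β ψ pen a i t z) J (topJ (sqB ξ))) := by
  obtain ⟨lam', CF, hl, hN⟩ := h.nlHyp δ hδ
  have hI : UniqueDiffOn ℝ (Icc (0 : ℝ) T) := uniqueDiffOn_Icc h.T_pos
  refine ⟨CF 1, fun i t ht z hz J hJ => ?_, fun i t ht z hz J hJ => ?_,
    fun i t ht z hz J hJ ξ => ?_⟩
  · exact SmF.differentiableAt_J (hN.smooth i) ht hz hJ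
  · exact SmF.norm_le (SmF.fderiv_J hI (hN.smooth i)) ht hz hJ
  · exact (by positivity : 0 ≤ lam' * ‖ξ‖ ^ 2).trans (hN.ell i t ht z hz J hJ ξ)

/-- step 2: the barriers. -/
theorem QHyp.barrier (h : A.QHyp T lam pen a C P R β ψ ψt) {T' : ℝ} {u ut : ℝ → V → ℝ}
    (hT' : 0 < T') (hT'T : T' ≤ T) (hu : A.QSol P R β ψ pen a T' u ut) :
    ∀ t ∈ Icc 0 T', ∀ x ∈ A.X, 0 ≤ a + u t x ∧ a + u t x ≤ ψ t x := by
  have hsub : Icc (0 : ℝ) T' ⊆ Icc 0 T := Icc_subset_Icc le_rfl hT'T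
  obtain ⟨Cu, hCu⟩ := hu.sm
  obtain ⟨Ku, hKu0, hKu⟩ := A.exists_XM_of_SmST (1 / 2) Cu (by norm_num) (by norm_num)
  obtain ⟨hu21, huX⟩ := hKu T' u ut hT' hCu hu.dt
  obtain ⟨Kψ, hKψ0, hKψ⟩ := A.exists_XM_of_SmST (1 / 2) C (by norm_num) (by norm_num)
  have hψs : A.SmST (Icc 0 T') ψ C := fun i => (h.smψ i).subset
    ((uniqueDiffOn_Icc h.T_pos).prod isOpen_ball.uniqueDiffOn)
    ((uniqueDiffOn_Icc hT').prod isOpen_ball.uniqueDiffOn) (Set.prod_mono hsub subset_rfl)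
  obtain ⟨hψ21, hψX⟩ := hKψ T' ψ ψt hT' hψs (fun t ht x hx => (h.ψ_dt t (hsub ht) x hx).mono hsub)
  obtain ⟨δ, hδdef⟩ : ∃ δ, δ = Ku + Kψ + |a| + 1 := ⟨_, rfl⟩
  have ha0 := abs_nonneg a
  have hδ : 0 < δ := by rw [hδdef]; positivity
  obtain ⟨M, hd, hM, hell⟩ := h.cmp δ hδ
  have hjc : ∀ (c : ℝ) (t : ℝ) (z : E), jet (fun (_ : ℝ) (_ : E) => c) t z = (c, 0, 0) :=
    fun c t z => jet_of_time (fun _ => c) t z
  have hnc : ∀ c : ℝ, ‖((c, 0, 0) : Jet E)‖ = |c| := fun c => by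
    simp [Prod.norm_def]
  have hconst : ∀ c : ℝ, C21 (Icc 0 T') (ball (0 : E) 3) (fun _ _ => c) (fun _ _ => 0) := fun c =>
    C21.static (g := fun _ => c) isOpen_ball contDiffOn_const
  have hju : ∀ i, ∀ t ∈ Icc 0 T', ∀ z ∈ ball (0 : E) 3, jet (A.rep i u) t z ∈ ball (0 : Jet E) δ := by
    intro i t ht z hz
    rw [mem_ball_zero_iff]
    have := (huX i).jet_sup t ht z hz
    rw [hδdef]
    linarith
  have hub : ∀ t ∈ Icc 0 T', ∀ x ∈ A.X, |u t x| ≤ Ku := by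
    intro t ht x hx
    obtain ⟨i, z, hz, rfl⟩ := A.cover x hx
    exact (huX i).b0 t ht z (ball_subset_ball (by norm_num) hz)
  have hψb : ∀ t ∈ Icc 0 T', ∀ x ∈ A.X, |ψ t x| ≤ Kψ := by
    intro t ht x hx
    obtain ⟨i, z, hz, rfl⟩ := A.cover x hx
    exact (hψX i).b0 t ht z (ball_subset_ball (by norm_num) hz)
  -- lower barrier
  have hlow : ∀ t ∈ Icc 0 T', ∀ x ∈ A.X, -a ≤ u t x := by
    refine A.compareN (F := A.qF P R β ψ pen a) (𝒦 := fun _ _ _ => ball (0 : Jet E) δ) (M := M)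
      (u := fun _ _ => -a) (ut := fun _ _ => 0) (v := u) (vt := ut)
      (fun _ _ _ => convex_ball _ _) (fun i t ht => hd i t (hsub ht))
      (fun i t ht => hM i t (hsub ht)) (fun i t ht => hell i t (hsub ht))
      (fun i => hconst (-a)) hu21 ?_ hju ⟨|a| + Ku, ?_⟩ ?_ ?_ ?_
    · intro i t ht z hz
      have e : jet (A.rep i fun _ _ => -a) t z = (-a, 0, 0) := hjc (-a) t z
      rw [e, mem_ball_zero_iff, hnc, abs_neg, hδdef]
      linarith
    · intro t ht x hx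
      have h1 := abs_le.mp (hub t ht x hx)
      linarith [neg_abs_le a, h1.1]
    · intro i t ht z hz
      have e : jet (A.rep i fun _ _ => -a) t z = (-a, 0, 0) := hjc (-a) t z
      rw [e]
      show (0 : ℝ) ≤ _
      simp only [qF]
      rw [h.P_const i (hsub ht) hz]
      have h1 := h.β_nonneg t (hsub ht) _ (A.maps i hz)
      have h2 := h.ψ_nonneg t (hsub ht) _ (A.maps i hz)
      have h3 := h.pen_nonneg
      simp only [add_neg_cancel, neg_zero, Real.exp_zero, mul_zero, sub_self, zero_mul, zero_add,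
        sub_zero]
      positivity
    · intro i t ht z hz
      exact (hu.sol i t ht z hz).ge
    · intro x hx
      rw [hu.init x hx]
      linarith [h.a_nonneg]
  -- upper barrier
  have hjv : ∀ i, ∀ t ∈ Icc 0 T', ∀ z ∈ ball (0 : E) 3,
      jet (A.rep i fun t x => ψ t x - a) t z = jet (A.rep i ψ) t z - (a, 0, 0) := by
    intro i t ht z hz
    rw [← hjc a t z]
    exact jet_sub (u := A.rep i ψ) (v := fun _ _ => a) isOpen_ball hz ((hψ21 i).c2 t ht)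
      contDiffOn_const
  have hup : ∀ t ∈ Icc 0 T', ∀ x ∈ A.X, u t x ≤ ψ t x - a := by
    refine A.compareN (F := A.qF P R β ψ pen a) (𝒦 := fun _ _ _ => ball (0 : Jet E) δ) (M := M)
      (u := u) (ut := ut) (v := fun t x => ψ t x - a) (vt := fun t x => ψt t x - 0)
      (fun _ _ _ => convex_ball _ _) (fun i t ht => hd i t (hsub ht))
      (fun i t ht => hM i t (hsub ht)) (fun i t ht => hell i t (hsub ht))
      hu21 (fun i => (hψ21 i).sub isOpen_ball (hconst a)) hju ?_ ⟨Ku + Kψ + |a|, ?_⟩ ?_ ?_ ?_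
    · intro i t ht z hz
      rw [hjv i t ht z hz, mem_ball_zero_iff]
      have h1 := (hψX i).jet_sup t ht z hz
      have h2 := norm_sub_le (jet (A.rep i ψ) t z) ((a, 0, 0) : Jet E)
      rw [hnc] at h2
      rw [hδdef]
      linarith
    · intro t ht x hx
      have h1 := abs_le.mp (hub t ht x hx)
      have h2 := abs_le.mp (hψb t ht x hx)
      linarith [le_abs_self a, h1.2, h2.1]
    · intro i t ht z hz
      exact (hu.sol i t ht z hz).le
    · intro i t ht z hz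
      rw [hjv i t ht z hz]
      have h1 := h.ψ_super i t (hsub ht) z hz
      show _ ≤ ψt t (A.Φ i z) - 0
      simp only [qF]
      rw [map_sub, h.P_const i (hsub ht) hz]
      have e1 : (jet (A.rep i ψ) t z - ((a, 0, 0) : Jet E)).1 = ψ t (A.Φ i z) - a := rfl
      rw [e1]
      have e2 : a + (ψ t (A.Φ i z) - a) = ψ t (A.Φ i z) := by ring
      rw [e2]
      simp only [sub_zero, sub_self, mul_zero, add_zero]
      exact h1
    · intro x hx
      rw [hu.init x hx]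
      linarith [h.a_le x hx]
  intro t ht x hx
  constructor
  · linarith [hlow t ht x hx]
  · linarith [hup t ht x hx]


/-- step 3: the initial layer. -/
theorem QHyp.exists_init (h : A.QHyp T lam pen a C P R β ψ ψt) (α : ℝ) (hα : 0 < α) (hα1 : α < 1) :
    ∃ ε K₀ : ℝ, 0 < ε ∧ 0 ≤ K₀ ∧ ∀ (T' : ℝ) (u ut : ℝ → V → ℝ), 0 < T' → T' ≤ T →
      A.QSol P R β ψ pen a T' u ut → A.XM α (Icc 0 (min ε T')) u ut K₀ := by
  obtain ⟨lam₁, CF₁, hl₁, hN₁⟩ := h.nlHyp 1 one_pos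
  obtain ⟨ε, K₀, hε, hK₀, hshort⟩ := A.exists_short_time α 1 lam₁ CF₁ hα hα1 one_pos hl₁
  obtain ⟨v, vt, hv21, hvX, hvj, hv0, hvs⟩ := hshort T _ h.T_pos hN₁
  refine ⟨ε, K₀, hε, hK₀, fun T' u ut hT' hT'T hu => ?_⟩
  obtain ⟨τ, hτ⟩ : ∃ τ, τ = min ε T' := ⟨_, rfl⟩
  rw [← hτ]
  have hτ0 : 0 < τ := hτ ▸ lt_min hε hT'
  have hτT' : τ ≤ T' := hτ ▸ min_le_right _ _
  have hτm : τ ≤ min ε T := by
    rw [hτ]
    exact min_le_min le_rfl hT'T
  have hs1 : Icc (0 : ℝ) τ ⊆ Icc 0 T' := Icc_subset_Icc le_rfl hτT'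
  have hs2 : Icc (0 : ℝ) τ ⊆ Icc 0 (min ε T) := Icc_subset_Icc le_rfl hτm
  obtain ⟨Cu, hCu⟩ := hu.sm
  obtain ⟨Ku, hKu0, hKu⟩ := A.exists_XM_of_SmST α Cu hα hα1.le
  obtain ⟨hu21, huX⟩ := hKu T' u ut hT' hCu hu.dt
  obtain ⟨lam₂, CF₂, hl₂, hN₂⟩ := h.nlHyp (Ku + 1) (by positivity)
  have hu21' : A.C21M (Icc 0 τ) u ut := fun i => (hu21 i).subset hs1 subset_rfl
  have hv21' : A.C21M (Icc 0 τ) v vt := fun i => (hv21 i).subset hs2 subset_rfl
  have huv := A.short_unique h.T_pos (hτT'.trans hT'T) hl₂.le hN₂ hu21' hv21'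
    (fun i t ht z hz => lt_of_le_of_lt ((huX i).jet_sup t (hs1 ht) z hz) (by linarith))
    (fun i t ht z hz => lt_of_le_of_lt (hvj i t (hs2 ht) z hz) (by linarith))
    (fun i t ht z hz => hu.sol i t (hs1 ht) z hz) (fun i t ht z hz => hvs i t (hs2 ht) z hz)
    (fun x hx => by rw [hu.init x hx, hv0 x])
  intro i
  have h1 : ∀ t ∈ Icc 0 τ, ∀ z ∈ ball (0 : E) 3, A.rep i u t z = A.rep i v t z :=
    fun t ht z hz => huv t ht _ (A.maps i hz)
  exact ((hvX i).subset hs2 subset_rfl).congr isOpen_ball h1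
    (strip_unique_dt hτ0 (hu21' i) (hv21' i) h1)

/-- pointwise bounds of the data. -/
theorem QHyp.bounds (h : A.QHyp T lam pen a C P R β ψ ψt) (i : A.ι) {t : ℝ} (ht : t ∈ Icc 0 T) {z : E}
    (hz : z ∈ ball (0 : E) 3) : |R t (A.Φ i z)| ≤ C 0 ∧ |β t (A.Φ i z)| ≤ C 0 ∧
      |ψ t (A.Φ i z)| ≤ C 0 ∧ ‖P i t z‖ ≤ C 0 :=
  ⟨(h.smR i).norm_le (q := (t, z)) ⟨ht, hz⟩, (h.smβ i).norm_le (q := (t, z)) ⟨ht, hz⟩,
    (h.smψ i).norm_le (q := (t, z)) ⟨ht, hz⟩, (h.smooth i).norm_le (q := (t, z)) ⟨ht, hz⟩⟩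

/-- the lower order term of the equation for `w = a + u`. -/
theorem QHyp.f_bound (h : A.QHyp T lam pen a C P R β ψ ψt) (i : A.ι) {t : ℝ} (ht : t ∈ Icc 0 T)
    {z : E} (hz : z ∈ ball (0 : E) 3) {w : ℝ} (hw0 : 0 ≤ w) (hw1 : w ≤ ψ t (A.Φ i z)) :
    |w| ≤ C 0 ∧ |(1 - Real.exp (-w)) * R t (A.Φ i z) + pen * β t (A.Φ i z) * (ψ t (A.Φ i z) - w)|
      ≤ C 0 + pen * C 0 * C 0 := by
  obtain ⟨b1, b2, b3, _⟩ := h.bounds i ht hz
  have hC0 : 0 ≤ C 0 := (abs_nonneg _).trans b1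
  have hψ := (le_abs_self _).trans b3
  have hpen := h.pen_nonneg
  refine ⟨by rw [abs_of_nonneg hw0]; linarith, ?_⟩
  have e1 : |1 - Real.exp (-w)| ≤ 1 := by
    have h1 : Real.exp (-w) ≤ 1 := Real.exp_le_one_iff.mpr (by linarith)
    have h2 := Real.exp_pos (-w)
    rw [abs_le]
    constructor <;> linarith
  have e2 : |ψ t (A.Φ i z) - w| ≤ C 0 := by
    rw [abs_of_nonneg (by linarith)]
    linarith
  calc |(1 - Real.exp (-w)) * R t (A.Φ i z) + pen * β t (A.Φ i z) * (ψ t (A.Φ i z) - w)|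
      ≤ |(1 - Real.exp (-w)) * R t (A.Φ i z)| + |pen * β t (A.Φ i z) * (ψ t (A.Φ i z) - w)| :=
        abs_add_le _ _
    _ = |1 - Real.exp (-w)| * |R t (A.Φ i z)|
        + pen * |β t (A.Φ i z)| * |ψ t (A.Φ i z) - w| := by
        rw [abs_mul, abs_mul, abs_mul, abs_of_nonneg hpen]
    _ ≤ 1 * C 0 + pen * C 0 * C 0 := by gcongr
    _ = C 0 + pen * C 0 * C 0 := by ring

/-- step 4: Hölder bounds away from `t = 0`. -/
theorem QHyp.exists_holder (hdim : Module.finrank ℝ E ≠ 1) (h : A.QHyp T lam pen a C P R β ψ ψt) :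
    ∃ α : ℝ, 0 < α ∧ α < 1 ∧ ∀ ε₁ : ℝ, 0 < ε₁ → ∃ H : ℝ, 0 ≤ H ∧
    ∀ (T' : ℝ) (u ut : ℝ → V → ℝ), ε₁ ≤ T' → T' ≤ T → A.QSol P R β ψ pen a T' u ut →
      ∀ i, ∀ t ∈ Icc ε₁ T', ∀ s ∈ Icc ε₁ T', ∀ x ∈ ball (0 : E) 3, ∀ y ∈ ball (0 : E) 3,
        |A.rep i u t x - A.rep i u s y| ≤ H * (‖x - y‖ ^ α + |t - s| ^ (α / 2)) := by
  obtain ⟨M₀, hM₀⟩ : ∃ M₀, M₀ = |C 0| + pen * |C 0| * |C 0| := ⟨_, rfl⟩
  have hpen := h.pen_nonneg
  have hM₀0 : 0 ≤ M₀ := by rw [hM₀]; positivity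
  obtain ⟨α, hα, hα1, hloc⟩ := exists_quasi_holder_local (E := E) hdim lam M₀ T C h.lam_pos h.T_pos
  obtain ⟨Cb, hCb, hball⟩ := A.exists_holder_of_ball2 α hα hα1.le
  refine ⟨α, hα, hα1, fun ε₁ hε₁ => ?_⟩
  obtain ⟨H, hH, hH'⟩ := hloc ε₁ hε₁
  have ha := h.a_nonneg
  refine ⟨Cb * (H + (a + |C 0|)), by positivity, ?_⟩
  intro T' u ut hεT hT'T hu
  have hT' : 0 < T' := hε₁.trans_le hεT
  have hsub : Icc (0 : ℝ) T' ⊆ Icc 0 T := Icc_subset_Icc le_rfl hT'T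
  have hsub' : Icc ε₁ T' ⊆ Icc (0 : ℝ) T' := Icc_subset_Icc hε₁.le le_rfl
  have hbar := h.barrier hT' hT'T hu
  have hu21 := hu.c21M hT'
  have hconst : C21 (Icc 0 T') (ball (0 : E) 3) (fun _ _ => a) (fun _ _ => 0) :=
    C21.static (g := fun _ => a) isOpen_ball contDiffOn_const
  refine hball (Icc ε₁ T') u H (a + |C 0|) hH (by positivity) ?_ ?_
  · intro t ht x hx
    obtain ⟨i, z, hz, rfl⟩ := A.cover x hx
    have hz3 : z ∈ ball (0 : E) 3 := ball_subset_ball (by norm_num) hz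
    obtain ⟨h1, h2⟩ := hbar t (hsub' ht) _ hx
    obtain ⟨_, _, b3, _⟩ := h.bounds i (hsub (hsub' ht)) hz3
    have := (le_abs_self _).trans b3
    have := le_abs_self (C 0)
    rw [abs_le]
    constructor <;> linarith
  · intro i t ht s hs x hx y hy
    have key := hH' T' (P i) (fun t z => a + A.rep i u t z) (fun t z => 0 + A.rep i ut t z)
      (fun t z => (1 - Real.exp (-(a + A.rep i u t z))) * R t (A.Φ i z)
        + pen * β t (A.Φ i z) * (ψ t (A.Φ i z) - (a + A.rep i u t z))) hεT hT'T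
      ((h.smooth i).subset ((uniqueDiffOn_Icc h.T_pos).prod isOpen_ball.uniqueDiffOn)
        ((uniqueDiffOn_Icc hT').prod isOpen_ball.uniqueDiffOn) (Set.prod_mono hsub subset_rfl))
      (fun t ht z hz ξ => h.ell i t (hsub ht) z hz ξ) (fun t ht z hz => h.const i t (hsub ht) z hz)
      (hconst.add isOpen_ball (hu21 i)) ?_ ?_ t ht s hs x hx y hy
    · have e : a + A.rep i u t x - (a + A.rep i u s y) = A.rep i u t x - A.rep i u s y := by ring
      rw [e] at key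
      exact key
    · intro t ht z hz
      obtain ⟨h1, h2⟩ := hbar t ht _ (A.maps i hz)
      obtain ⟨c1, c2⟩ := h.f_bound i (hsub ht) hz h1 h2
      have hC := le_abs_self (C 0)
      have hC0 : 0 ≤ C 0 := (abs_nonneg _).trans c1
      have e0 : |C 0| = C 0 := abs_of_nonneg hC0
      have hp : 0 ≤ pen * C 0 * C 0 := by positivity
      rw [hM₀, e0]
      exact ⟨c1.trans (by linarith), c2⟩
    · intro t ht z hz
      have hsol := hu.sol i t ht z hz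
      have hj : jet (fun t z => a + A.rep i u t z) t z = (a, 0, 0) + jet (A.rep i u) t z := by
        rw [← jet_of_time (fun _ => a) t z]
        exact jet_add (u := fun _ _ => a) (v := A.rep i u) isOpen_ball hz contDiffOn_const
          ((hu21 i).c2 t ht)
      rw [hj, map_add, h.P_const i (hsub ht) hz, hsol]
      simp only [qF, zero_add]
      have e1 : (jet (A.rep i u) t z).1 = A.rep i u t z := rfl
      rw [e1]
      ring

/-- step 5: Schauder estimates for the frozen linear equation. -/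
theorem QHyp.exists_schauder (h : A.QHyp T lam pen a C P R β ψ ψt) (α ε₁ H K₀ : ℝ) (hα : 0 < α)
    (hα1 : α < 1) (hε₁ : 0 < ε₁) : ∃ K₁ : ℝ, 0 ≤ K₁ ∧
    ∀ (T' : ℝ) (u ut : ℝ → V → ℝ), ε₁ < T' → T' ≤ T → A.QSol P R β ψ pen a T' u ut →
      (∀ i, ∀ t ∈ Icc ε₁ T', ∀ s ∈ Icc ε₁ T', ∀ x ∈ ball (0 : E) 3, ∀ y ∈ ball (0 : E) 3,
        |A.rep i u t x - A.rep i u s y| ≤ H * (‖x - y‖ ^ α + |t - s| ^ (α / 2))) →
      A.C2aM α (u ε₁) K₀ → A.XM α (Icc ε₁ T') u ut K₁ := by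
  obtain ⟨Kd, hKd, hYd⟩ := A.exists_YM_of_SmST α C hα hα1.le
  obtain ⟨c0, hc0⟩ : ∃ c0, c0 = |C 0| := ⟨_, rfl⟩
  obtain ⟨c1, hc1⟩ : ∃ c1, c1 = |C 1| := ⟨_, rfl⟩
  obtain ⟨H', hH'⟩ : ∃ H', H' = |H| := ⟨_, rfl⟩
  obtain ⟨KP, hKP⟩ : ∃ KP, KP = |2 * C 0 + C 1| := ⟨_, rfl⟩
  obtain ⟨Tm, hTm⟩ : ∃ Tm, Tm = max 1 T := ⟨_, rfl⟩
  have hc00 : 0 ≤ c0 := hc0 ▸ abs_nonneg _
  have hc10 : 0 ≤ c1 := hc1 ▸ abs_nonneg _
  have hH'0 : 0 ≤ H' := hH' ▸ abs_nonneg _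
  have hKP0 : 0 ≤ KP := hKP ▸ abs_nonneg _
  have hTm1 : 1 ≤ Tm := hTm ▸ le_max_left _ _
  have hTmT : T ≤ Tm := hTm ▸ le_max_right _ _
  have ha := h.a_nonneg
  obtain ⟨Ke, hKe⟩ : ∃ Ke, Ke = 1 + H' := ⟨_, rfl⟩
  have hKe0 : 0 ≤ Ke := by rw [hKe]; positivity
  obtain ⟨M, hM⟩ : ∃ M, M = 2 * Ke * KP + (H' * c0 + c1 * Tm) := ⟨_, rfl⟩
  have hM0 : 0 ≤ M := by rw [hM]; positivity
  obtain ⟨Ku, hKu⟩ : ∃ Ku, Ku = a + c0 + H' := ⟨_, rfl⟩
  have hKu0 : 0 ≤ Ku := by rw [hKu]; positivity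
  obtain ⟨Kf, hKf⟩ : ∃ Kf,
    Kf = 2 * (|(1 : ℝ)| + Ke) * Kd + |pen| * (2 * Kd * (Kd + (|a| + Ku))) := ⟨_, rfl⟩
  have hKf0 : 0 ≤ Kf := by rw [hKf]; positivity
  have hlam' : 0 < Real.exp (-c0) * lam := mul_pos (Real.exp_pos _) h.lam_pos
  obtain ⟨Ca, hCa, hap⟩ := A.exists_lin_apriori_Icc α (α / 2) (Real.exp (-c0) * lam) M Tm hα hα1
    (by positivity) hlam' hM0 (by linarith)
  refine ⟨Ca * (Kf + |K₀|), by positivity, ?_⟩
  intro T' u ut hT' hT'T hu hhol hinit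
  have hT'0 : 0 < T' := hε₁.trans hT'
  have hJ : Icc ε₁ T' ⊆ Icc 0 T' := Icc_subset_Icc hε₁.le le_rfl
  have hJT : Icc ε₁ T' ⊆ Icc 0 T := Icc_subset_Icc hε₁.le hT'T
  have hbar := h.barrier hT'0 hT'T hu
  obtain ⟨Cu, hCu⟩ := hu.sm
  obtain ⟨Kx, _, hKx⟩ := A.exists_XM_of_SmST α Cu hα hα1.le
  have hC21 := (hKx T' u ut hT'0 hCu hu.dt).1
  have hhol' : ∀ i, ∀ t ∈ Icc ε₁ T', ∀ s ∈ Icc ε₁ T', ∀ x ∈ ball (0 : E) 3, ∀ y ∈ ball (0 : E) 3,
        |A.rep i u t x - A.rep i u s y| ≤ H' * (‖x - y‖ ^ α + |t - s| ^ (α / 2)) := by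
    intro i t ht s hs x hx y hy
    refine (hhol i t ht s hs x hx y hy).trans ?_
    rw [hH']
    exact mul_le_mul_of_nonneg_right (le_abs_self H) (by positivity)
  have hz0 : (0 : ℝ) ^ (α / 2) = 0 := Real.zero_rpow (by positivity)
  have hz1 : (0 : ℝ) ^ α = 0 := Real.zero_rpow hα.ne'
  have hholx : ∀ i, ∀ t ∈ Icc ε₁ T', ∀ x ∈ ball (0 : E) 3, ∀ y ∈ ball (0 : E) 3,
        |A.rep i u t x - A.rep i u t y| ≤ H' * ‖x - y‖ ^ α := by
    intro i t ht x hx y hy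
    have := hhol' i t ht t ht x hx y hy
    rwa [sub_self, abs_zero, hz0, add_zero] at this
  have kholt : ∀ i, ∀ t ∈ Icc ε₁ T', ∀ s ∈ Icc ε₁ T', ∀ x ∈ ball (0 : E) 3,
        |A.rep i u t x - A.rep i u s x| ≤ H' * |t - s| ^ (α / 2) := by
    intro i t ht s hs x hx
    have := hhol' i t ht s hs x hx x hx
    rwa [sub_self, norm_zero, hz1, zero_add] at this
  have hb : ∀ i, ∀ t ∈ Icc ε₁ T', ∀ z ∈ ball (0 : E) 3,
      0 ≤ a + u t (A.Φ i z) ∧ a + u t (A.Φ i z) ≤ c0 := by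
    intro i t ht z hz
    have h1 := hbar t (hJ ht) _ (A.maps i hz)
    have h2 := (h.bounds i (hJT ht) hz).2.2.1
    refine ⟨h1.1, h1.2.trans ((le_abs_self _).trans (h2.trans ?_))⟩
    rw [hc0]
    exact le_abs_self _
  obtain ⟨e, he⟩ : ∃ e : ℝ → V → ℝ, e = fun t x => Real.exp (-(a + u t x)) := ⟨_, rfl⟩
  have hcu : ∀ i, ContinuousOn (fun q : ℝ × E => A.rep i u q.1 q.2) (Icc ε₁ T' ×ˢ ball (0 : E) 3) :=
    fun i => (hC21 i).cont0.mono (prod_mono hJ subset_rfl)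
  have hYu : ∀ i, YB α (Icc ε₁ T') (ball (0 : E) 3) (A.rep i u) Ku := by
    intro i
    refine ⟨hcu i, fun t ht z hz => ?_, fun t ht x hx y hy => ?_⟩
    · have := hb i t ht z hz
      rw [Real.norm_eq_abs, abs_le, hKu]
      constructor
      · show _ ≤ u t (A.Φ i z)
        linarith [this.1]
      · show u t (A.Φ i z) ≤ _
        linarith [this.2]
    · rw [Real.norm_eq_abs]
      refine (hholx i t ht x hx y hy).trans ?_
      refine mul_le_mul_of_nonneg_right ?_ (by positivity)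
      rw [hKu]
      linarith
  have he1 : ∀ i, ∀ t ∈ Icc ε₁ T', ∀ z ∈ ball (0 : E) 3,
      Real.exp (-c0) ≤ e t (A.Φ i z) ∧ e t (A.Φ i z) ≤ 1 := by
    intro i t ht z hz
    have := hb i t ht z hz
    rw [he]
    refine ⟨Real.exp_le_exp.mpr (by linarith [this.2]), ?_⟩
    rw [← Real.exp_zero]
    exact Real.exp_le_exp.mpr (by linarith [this.1])
  have he2 : ∀ i, ∀ t ∈ Icc ε₁ T', ∀ s ∈ Icc ε₁ T', ∀ x ∈ ball (0 : E) 3, ∀ y ∈ ball (0 : E) 3,
      |e t (A.Φ i x) - e s (A.Φ i y)| ≤ |A.rep i u t x - A.rep i u s y| := by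
    intro i t ht s hs x hx y hy
    rw [he]
    refine (abs_exp_neg_sub_le (hb i t ht x hx).1 (hb i s hs y hy).1).trans (le_of_eq ?_)
    congr 1
    show _ = u t (A.Φ i x) - u s (A.Φ i y)
    ring
  have hYe : ∀ i, YB α (Icc ε₁ T') (ball (0 : E) 3) (A.rep i e) Ke := by
    intro i
    refine ⟨?_, fun t ht z hz => ?_, fun t ht x hx y hy => ?_⟩
    · rw [he]
      exact Real.continuous_exp.comp_continuousOn (continuousOn_const.add (hcu i)).neg
    · have := he1 i t ht z hz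
      show ‖e t (A.Φ i z)‖ ≤ _
      rw [Real.norm_eq_abs, abs_of_nonneg ((Real.exp_pos _).le.trans this.1), hKe]
      linarith [this.2]
    · rw [Real.norm_eq_abs]
      refine ((he2 i t ht t ht x hx y hy).trans (hholx i t ht x hx y hy)).trans ?_
      refine mul_le_mul_of_nonneg_right ?_ (by positivity)
      rw [hKe]
      linarith
  have hYP : ∀ i, YB α (Icc ε₁ T') (ball (0 : E) 3) (P i) KP := by
    intro i
    have := SmB.YB (uniqueDiffOn_Icc h.T_pos) isOpen_ball (convex_ball (0 : E) 3) (f := P i)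
      (h.smooth i) hα hα1.le
    exact (this.subset hJT subset_rfl).mono (hKP ▸ le_abs_self _)
  have hYR := fun i => (hYd _ R (uniqueDiffOn_Icc h.T_pos) h.smR i).subset hJT subset_rfl
  have hYβ := fun i => (hYd _ β (uniqueDiffOn_Icc h.T_pos) h.smβ i).subset hJT subset_rfl
  have hYψ := fun i => (hYd _ ψ (uniqueDiffOn_Icc h.T_pos) h.smψ i).subset hJT subset_rfl
  have hK0 : 0 ≤ Kf + |K₀| := by positivity
  refine hap ε₁ T' (fun i t z => e t (A.Φ i z) • P i t z)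
    (fun t x => (1 - e t x) • R t x + pen • (β t x • (ψ t x - (a + u t x)))) u ut (Kf + |K₀|) hT'
    (by linarith) hK0 ?_ ?_ ?_ ?_ (fun i => (hC21 i).subset hJ subset_rfl) ?_ ?_
  · -- compatibility
    intro i j t ht z hz J
    simp only [_root_.smul_apply]
    rw [h.compat i j t (hJT ht) z hz J, A.Φ_tr hz]
  · -- admissibility
    intro i
    refine ⟨fun t ht z hz ξ => ?_, ?_, fun t ht s hs z hz B => ?_⟩
    · have h1 := h.ell i t (hJT ht) z hz ξ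
      have h2 := (he1 i t ht z hz).1
      have h3 : 0 ≤ lam * ‖ξ‖ ^ 2 := by have := h.lam_pos; positivity
      simp only [_root_.smul_apply, smul_eq_mul]
      calc Real.exp (-c0) * lam * ‖ξ‖ ^ 2 = Real.exp (-c0) * (lam * ‖ξ‖ ^ 2) := by ring
        _ ≤ e t (A.Φ i z) * P i t z (topJ (sqB ξ)) :=
          mul_le_mul h2 h1 h3 ((Real.exp_pos _).le.trans h2)
    · refine (YB.smul' (hYe i) (hYP i) hKe0 hKP0).mono ?_
      rw [hM]
      have : 0 ≤ H' * c0 + c1 * Tm := by positivity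
      linarith
    · simp only [_root_.smul_apply, smul_eq_mul]
      have h1 : |e t (A.Φ i z) - e s (A.Φ i z)| ≤ H' * |t - s| ^ (α / 2) :=
        (he2 i t ht s hs z hz z hz).trans (kholt i t ht s hs z hz)
      have h2 : |P i t z (topJ B)| ≤ c0 * ‖B‖ := by
        have := (P i t z).le_opNorm (topJ B)
        rw [norm_topJ, Real.norm_eq_abs] at this
        refine this.trans (mul_le_mul_of_nonneg_right ?_ (norm_nonneg _))
        exact (h.bounds i (hJT ht) hz).2.2.2.trans (hc0 ▸ le_abs_self _)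
      have h3 : |P i t z (topJ B) - P i s z (topJ B)| ≤ c1 * (Tm * |t - s| ^ (α / 2)) * ‖B‖ := by
        have h4 := (P i t z - P i s z).le_opNorm (topJ B)
        rw [norm_topJ, Real.norm_eq_abs, _root_.sub_apply] at h4
        refine h4.trans (mul_le_mul_of_nonneg_right ?_ (norm_nonneg _))
        have h5 := SmB.lip_time (convex_Icc 0 T) (h.smooth i) isOpen_ball (hJT ht) (hJT hs) hz
        refine h5.trans ?_
        have h6 : |t - s| ≤ Tm := by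
          rw [abs_le]
          constructor <;> linarith [ht.1, ht.2, hs.1, hs.2]
        have h7 := rpow_le_Tm (abs_nonneg (t - s)) h6 hTm1 (θ := α / 2) (β := 1) (by positivity)
          (by linarith) le_rfl
        rw [Real.rpow_one] at h7
        exact mul_le_mul (hc1 ▸ le_abs_self _) h7 (abs_nonneg _) hc10
      have h8 := he1 i s hs z hz
      have h9 : |e s (A.Φ i z)| ≤ 1 := by
        rw [abs_of_nonneg ((Real.exp_pos _).le.trans h8.1)]
        exact h8.2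
      have hd : 0 ≤ |t - s| ^ (α / 2) := by positivity
      calc |e t (A.Φ i z) * P i t z (topJ B) - e s (A.Φ i z) * P i s z (topJ B)|
          = |(e t (A.Φ i z) - e s (A.Φ i z)) * P i t z (topJ B)
            + e s (A.Φ i z) * (P i t z (topJ B) - P i s z (topJ B))| := by congr 1; ring
        _ ≤ |e t (A.Φ i z) - e s (A.Φ i z)| * |P i t z (topJ B)|
            + |e s (A.Φ i z)| * |P i t z (topJ B) - P i s z (topJ B)| := by
          rw [← abs_mul, ← abs_mul]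
          exact abs_add_le _ _
        _ ≤ (H' * |t - s| ^ (α / 2)) * (c0 * ‖B‖)
            + 1 * (c1 * (Tm * |t - s| ^ (α / 2)) * ‖B‖) := by gcongr
        _ = (H' * c0 + c1 * Tm) * |t - s| ^ (α / 2) * ‖B‖ := by ring
        _ ≤ M * |t - s| ^ (α / 2) * ‖B‖ := by
          gcongr
          rw [hM]
          have : 0 ≤ 2 * Ke * KP := by positivity
          linarith
  · -- right hand side
    intro i
    have h1 := YB.smul' ((YB.const' α (Icc ε₁ T') (ball (0 : E) 3) 1).sub (hYe i)) (hYR i)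
      (by positivity) hKd
    have h2 := (YB.smul' (hYβ i) ((hYψ i).sub ((YB.const' α (Icc ε₁ T') (ball (0 : E) 3) a).add
      (hYu i))) hKd (by positivity)).const_smul pen
    refine (h1.add h2).mono ?_
    rw [hKf]
    linarith [abs_nonneg K₀]
  · intro i
    exact (hinit i).mono (by linarith [le_abs_self K₀])
  · refine ⟨Ku, fun t ht x hx => ?_⟩
    obtain ⟨i, z, hz, rfl⟩ := A.cover x hx
    exact (hYu i).sup t ht z (ball_subset_ball (by norm_num) hz)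
  · intro i t ht z hz
    have := hu.sol i t (hJ ht) z hz
    simp only [Lop, _root_.smul_apply, smul_eq_mul]
    rw [this, he]
    simp only [qF, rep, jet]
    ring

/-- **the a priori bound in `X`.** -/
theorem QHyp.exists_apriori (hdim : Module.finrank ℝ E ≠ 1)
    (h : A.QHyp T lam pen a C P R β ψ ψt) : ∃ α K : ℝ, 0 < α ∧ α < 1 ∧
    ∀ (T' : ℝ) (u ut : ℝ → V → ℝ), 0 < T' → T' ≤ T → A.QSol P R β ψ pen a T' u ut →
      A.XM α (Icc 0 T') u ut K := by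
  obtain ⟨α, hα, hα1, hH⟩ := h.exists_holder hdim
  obtain ⟨ε, K₀, hε, hK₀, hinit⟩ := h.exists_init α hα hα1
  obtain ⟨H, hH0, hHol⟩ := hH (ε / 2) (by positivity)
  obtain ⟨K₁, hK₁, hsch⟩ := h.exists_schauder α (ε / 2) H K₀ hα hα1 (by positivity)
  refine ⟨α, max K₀ K₁, hα, hα1, ?_⟩
  intro T' u ut hT' hT'T hu
  rcases le_or_gt T' ε with hle | hlt
  · have h1 := hinit T' u ut hT' hT'T hu
    rw [min_eq_right hle] at h1
    exact fun i => (h1 i).mono (le_max_left _ _)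
  · have h1 := hinit T' u ut hT' hT'T hu
    rw [min_eq_left hlt.le] at h1
    obtain ⟨Cu, hCu⟩ := hu.sm
    obtain ⟨Ku, _, hKu⟩ := A.exists_XM_of_SmST α Cu hα hα1.le
    have hC21 := (hKu T' u ut hT' hCu hu.dt).1
    have hslice : A.C2aM α (u (ε / 2)) K₀ := fun i =>
      (h1 i).slice ((hC21 i).subset (Icc_subset_Icc le_rfl hlt.le) subset_rfl)
        ⟨by positivity, by linarith⟩
    have h2 := hsch T' u ut (by linarith) hT'T hu (hHol T' u ut (by linarith) hT'T hu) hslice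
    intro i
    have hun := ((h1 i).mono (le_max_left K₀ K₁)).union ((h2 i).mono (le_max_right K₀ K₁))
    refine hun.subset ?_ subset_rfl
    intro t ht
    rcases le_or_gt t ε with h3 | h3
    · exact Or.inl ⟨ht.1, h3⟩
    · exact Or.inr ⟨by linarith, ht.2⟩

/-- **M9.** -/
theorem exists_quasi (hdim : Module.finrank ℝ E ≠ 1) (h : A.QHyp T lam pen a C P R β ψ ψt) :
    ∃ w wt : ℝ → V → ℝ, (∃ C', A.SmST (Icc 0 T) w C') ∧ (∀ x ∈ A.X, w 0 x = a) ∧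
      (∀ t ∈ Icc 0 T, ∀ x ∈ A.X, HasDerivWithinAt (fun s => w s x) (wt t x) (Icc 0 T) t) ∧
      (∀ i, ∀ t ∈ Icc 0 T, ∀ z ∈ ball (0 : E) 3,
        A.rep i wt t z = Real.exp (-(A.rep i w t z)) * P i t z (jet (A.rep i w) t z)
          + (1 - Real.exp (-(A.rep i w t z))) * A.rep i R t z
          + pen * A.rep i β t z * (A.rep i ψ t z - A.rep i w t z)) ∧
      ∀ t ∈ Icc 0 T, ∀ x ∈ A.X, 0 ≤ w t x ∧ w t x ≤ ψ t x := by
  obtain ⟨α, K, hα, hα1, hK⟩ := h.exists_apriori hdim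
  obtain ⟨u, ut, hu⟩ := A.exists_global_of_apriori α K hα hα1 h.T_pos (A.qF P R β ψ pen a)
    (fun δ hδ => h.nlHyp δ hδ) (fun T' u ut h1 h2 hs => hK T' u ut h1 h2.le hs)
  obtain ⟨Cu, hCu⟩ := hu.sm
  refine ⟨fun t x => a + u t x, ut, ⟨_, SmST.const_add A (uniqueDiffOn_Icc h.T_pos) hCu a⟩, ?_, ?_, ?_,
    h.barrier h.T_pos le_rfl hu⟩
  · intro x hx
    simp [hu.init x hx]
  · intro t ht x hx
    exact (hu.dt t ht x hx).const_add a
  · intro i t ht z hz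
    have hsol := hu.sol i t ht z hz
    have hfd : fderiv ℝ (fun z => a + A.rep i u t z) = fderiv ℝ (A.rep i u t) := by
      funext y
      exact fderiv_const_add a
    have hjet : jet (A.rep i (fun t x => a + u t x)) t z
        = a • ((1 : ℝ), (0 : E →L[ℝ] ℝ), (0 : Bil E)) + jet (A.rep i u) t z := by
      have h1 : A.rep i (fun t x => a + u t x) t = fun z => a + A.rep i u t z := rfl
      simp only [jet, D1, D2, h1, hfd]
      ext <;> simp
    rw [hjet, map_add, map_smul, h.const i t ht z hz, hsol]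
    simp only [qF, rep, jet, smul_eq_mul, mul_zero, zero_add]

end UAtlas

end Claimed.Agent.R316.B8M
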