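import Claimed.Agent.R316.B8M.RegInd

/-!
# B8M-REG (M7), time regularity and the chart level theorem `exists_reg_local`

Spatial regularity (`exists_nl_reg`) gives bounds for all spatial derivatives of `u` and `u_t`.  Time derivatives are then pure calculus: `u_t = F(t,x,jet u)`.
`TkB n I S k u ut c`: `u`, `ut` and their directional derivatives of order `≤ k` are jointly `C^n` on `I ×ˢ S` with bounds `c`, and `ut` is the time derivative of `u` (also for the directional derivatives).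

LEAVES (proofs only):  B8M-REG-T0 = `TkB_zero_of_local`, `SmB_of_CnB`;  B8M-REG-PC = `CnB.fderiv_of_De`, `CnB.succ_of_partial`, `TkB.up`;  B8M-REG-JET = `JkB.fderiv`, `JkB.jet`.
(`exists_time_reg`, `exists_reg_local` are proved from them.)  B8M-REG-LOC = `exists_YkB_of_SmB`, `exists_adm_of_SmB`, `exists_SmB_lin`;  B8M-REG-LLR = `exists_lin_local_reg`.

Recipes.
* `TkB_zero_of_local`: induction on `k` generalising `(u, ut)`.  `CnB 0`: `contDiffOn_zero`, continuity at `(t,x₀)` within `I ×ˢ S` from continuity on `I ×ˢ ball x₀ r` (a neighbourhood within; `C21.cont0`, `C21.contt`), `norm_iteratedFDerivWithin_zero`, `XB.b0`, `XB.bt`;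
  `HasDerivWithinAt` from `C21.dt`; `DifferentiableOn` on `S` from the balls.
* `CnB.fderiv_of_De`: `contDiffOn_clm_apply` (finite dimension; scaling in `e`); for the norms: with `ev_e = ContinuousLinearMap.apply ℝ G e`, `iteratedFDerivWithin j (ev_e ∘ Φ) = ev_e ∘ iteratedFDerivWithin j Φ` (`ContinuousLinearMap.iteratedFDerivWithin_comp_left`), so
  `‖(iteratedFDerivWithin j Φ q m) e‖ ≤ K ∏ ‖m i‖` for `‖e‖ ≤ 1`; `ContinuousLinearMap.opNorm_le_of_unit_norm`-type lemma, `ContinuousMultilinearMap.opNorm_le_bound`.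
* `CnB.succ_of_partial`: `B8.contDiffOn_succ_of_partial` for `ContDiffOn`; the derivative within `Icc 0 T ×ˢ S` is `(fst).smulRight (gt t x) + (fderiv ℝ (g t) x) ∘L snd` (it is the derivative by the same argument, or: apply the derivative to `(1,0)` and `(0,e)` and use
  uniqueness of `HasDerivWithinAt`/`HasFDerivAt` along the slices); `iteratedFDerivWithin_succ_eq_comp_right` + `norm` (`LinearIsometryEquiv.norm_map`): `‖D^{j+1} g‖ = ‖D^j (Dg)‖ ≤ c + c` (two continuous linear maps of norm `≤ 1` applied to `gt` and to `fderiv`).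
* `TkB.up`: induction on `k` generalising `(f, ft)`.
* `JkB.fderiv`: induction on `k` generalising `f` (and its target).  Step: `f t ∈ C²(S)` (`Rk.contDiffOn`), so `De e (fun t x => fderiv ℝ (f t) x) t x = fderiv ℝ (De e f t) x` on `S` (symmetry of the second derivative, `ContDiffAt.isSymmSndFDerivAt`), `Rk.congr` with the base class `CnB`.
* `JkB.jet`: `jet u = (u, (Du, D(Du)))`: `Rk.prod`, `JkB.fderiv` twice, `Rk.of_le`.
* `exists_time_reg`: induction on `n` (statement for all `k`).  `n = 0`: hypothesis.  `n + 1`: `c' = c n (k + 3)`: `TkB n (k+3) u ut c'` ⟹ (`TkB.up`) `JkB (n+1) (k+2) u (2c')` ⟹ (`JkB.jet`) `JkB (n+1) k (jet u) (2c')` ⟹ (`exists_Rk_comp` with `exists_isBase_CnB (n+1)`,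
  `Rk.congr`) `JkB (n+1) k ut C`; `Pk.of_Rk` combines `TkB n k u ut`, `JkB (n+1) k u`, `JkB (n+1) k ut` into `TkB (n+1) k u ut`.
* `exists_YkB_of_SmB`: induction on `k` for all `C` and targets: `De e f` is `SmB` with constants `C (· + 1)` (`SmB.fderiv_snd`, `SmB.clm_comp` with the evaluation at `e`), `SmB.YB`, `SmB.differentiableAt_snd`.
* `exists_adm_of_SmB`: `SmB.YB`, `SmB.lip_time`, `‖topJ B‖ = ‖B‖`.
* `exists_SmB_lin`: `exists_SmB_clm_apply` for `q ↦ P q.1 q.2.1` (compose with the projection: `exists_SmB_comp_gen`/`SmB.affine`… or directly `ContinuousLinearMap.iteratedFDerivWithin_comp_right`) and `q ↦ q.2.2` (`SmB.affine`, bounded by `δ`).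
* `exists_lin_local_reg`.  `α = 1/2`, `R₀ = min 1 r`.  CONSTANTS: `M_a` (`exists_adm_of_SmB`), `K_f` (`SmB.YB`), `C_s` (`B8.schauder_local` with `R = R₀`, `Tm = T`), `K = C_s (K_f + 0 + M)`; for every `k`: `M_k` (`exists_YkB_of_SmB` for `P` and `f`), `(C_k, r_k)` from
  `exists_lin_reg k α 1 lam (max M_a M_k) K 0 T (R₀/2)`; `CF` from `exists_SmB_lin (K+1)`; `c n` from `exists_time_reg (K+1) K CF C_· n 0`.
  DATA: `x₀ ∈ ball 0 r`: `ball x₀ R₀ ⊆ ball 0 (2r)`; `B8.C21_of_smooth`, `B8.XB_of_smooth` (finite norms on smaller balls); `u 0 = 0` gives `C2aB … 0` and `GkB k … 0` (all derivatives of a function vanishing on an open set vanish there).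
  `TkB_zero_of_local` with `S = ball 0 r`; `exists_time_reg`; `SmB_of_CnB`; finally `iteratedFDerivWithin` w.r.t. `Icc 0 T ×ˢ ball 0 r` and `Icc 0 T ×ˢ ball 0 (2r)` agree at points of the smaller set (`iteratedFDerivWithin_congr_set`, the sets agree near the point).
-/

set_option autoImplicit false
set_option maxSynthPendingDepth 3
set_option linter.unusedSectionVars false

open scoped Topology ContDiff
open Set Filter Metric

namespace Claimed.Agent.R316.B8M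

open Claimed.Agent.R316.B8

variable {E : Type} [NormedAddCommGroup E] [InnerProductSpace ℝ E] [FiniteDimensional ℝ E]

/-- the base case of `TkB_zero_of_local`. -/
theorem TkB_base_of_local {α T r C : ℝ} (hr : 0 < r) {S : Set E} {u ut : ℝ → E → ℝ}
    (h : ∀ x₀ ∈ S, C21 (Icc 0 T) (ball x₀ r) u ut ∧ XB α (Icc 0 T) (ball x₀ r) u ut C) :
    CnB 0 (Icc 0 T) S u C ∧ CnB 0 (Icc 0 T) S ut C ∧
      ∀ t ∈ Icc 0 T, ∀ x ∈ S, HasDerivWithinAt (fun s => u s x) (ut t x) (Icc 0 T) t := by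
  have hloc : ∀ f : ℝ → E → ℝ,
      (∀ x₀ ∈ S, ContinuousOn (fun q : ℝ × E => f q.1 q.2) (Icc 0 T ×ˢ ball x₀ r)) →
      ContinuousOn (fun q : ℝ × E => f q.1 q.2) (Icc 0 T ×ˢ S) := by
    intro f hf q hq
    refine (hf q.2 hq.2 q ⟨hq.1, mem_ball_self hr⟩).mono_of_mem_nhdsWithin ?_
    rw [mem_nhdsWithin]
    refine ⟨univ ×ˢ ball q.2 r, isOpen_univ.prod isOpen_ball, ⟨mem_univ _, mem_ball_self hr⟩, ?_⟩
    rintro p ⟨hp1, hp2⟩
    exact ⟨hp2.1, hp1.2⟩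
  refine ⟨⟨?_, ?_⟩, ⟨?_, ?_⟩, fun t ht x hx => (h x hx).1.dt t ht x (mem_ball_self hr)⟩
  · exact_mod_cast contDiffOn_zero.2 (hloc u (fun x₀ hx₀ => (h x₀ hx₀).1.cont0))
  · intro j hj q hq
    obtain rfl : j = 0 := Nat.le_zero.1 hj
    rw [norm_iteratedFDerivWithin_zero]
    exact (h q.2 hq.2).2.b0 q.1 hq.1 q.2 (mem_ball_self hr)
  · exact_mod_cast contDiffOn_zero.2 (hloc ut (fun x₀ hx₀ => (h x₀ hx₀).1.contt))
  · intro j hj q hq
    obtain rfl : j = 0 := Nat.le_zero.1 hj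
    rw [norm_iteratedFDerivWithin_zero]
    exact (h q.2 hq.2).2.bt q.1 hq.1 q.2 (mem_ball_self hr)

/-- from local `X^k` bounds to sup bounds of all spatial derivatives. -/
theorem TkB_zero_of_local {α T r C : ℝ} (hr : 0 < r) {S : Set E} (hS : IsOpen S) (k : ℕ) :
    ∀ u ut : ℝ → E → ℝ, (∀ x₀ ∈ S, XkB α (Icc 0 T) (ball x₀ r) k u ut C) →
      TkB 0 (Icc 0 T) S k u ut C := by
  induction k with
  | zero =>
    intro u ut h
    exact TkB_base_of_local hr h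
  | succ k ih =>
    intro u ut h
    refine ⟨TkB_base_of_local hr (fun x₀ hx₀ => (h x₀ hx₀).1), fun t ht x hx => ?_,
      fun t ht x hx => ?_, fun e he => ih _ _ (fun x₀ hx₀ => (h x₀ hx₀).2.2.2 e he)⟩
    · exact (((h x hx).2.1 t ht).differentiableAt
        (isOpen_ball.mem_nhds (mem_ball_self hr))).differentiableWithinAt
    · exact (((h x hx).2.2.1 t ht).differentiableAt
        (isOpen_ball.mem_nhds (mem_ball_self hr))).differentiableWithinAt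

theorem SmB_of_CnB {G : Type} [NormedAddCommGroup G] [NormedSpace ℝ G] {I : Set ℝ} {S : Set E}
    {f : ℝ → E → G} {c : ℕ → ℝ} (h : ∀ n, CnB n I S f (c n)) :
    SmB (I ×ˢ S) (fun q : ℝ × E => f q.1 q.2) c :=
  ⟨contDiffOn_infty.2 (fun n => (h n).1), fun k q hq => (h k).2 k le_rfl q hq⟩

/-- the full spatial derivative from the directional ones. -/
theorem CnB.fderiv_of_De {G : Type} [NormedAddCommGroup G] [NormedSpace ℝ G] {n : ℕ} {I : Set ℝ}
    (hI : UniqueDiffOn ℝ I) {S : Set E} (hS : IsOpen S) {f : ℝ → E → G} {K : ℝ}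
    (h : ∀ e : E, ‖e‖ ≤ 1 → CnB n I S (De e f) K) : CnB n I S (fun t x => fderiv ℝ (f t) x) K := by
  have hQ : UniqueDiffOn ℝ (I ×ˢ S) := hI.prod hS.uniqueDiffOn
  have hsm : ContDiffOn ℝ n (fun q : ℝ × E => fderiv ℝ (f q.1) q.2) (I ×ˢ S) := by
    rw [contDiffOn_clm_apply]
    intro e
    have h1 : ‖‖e‖⁻¹ • e‖ ≤ 1 := by
      rw [norm_smul, norm_inv, norm_norm]
      exact inv_mul_le_one
    have h3 : (fun q : ℝ × E => fderiv ℝ (f q.1) q.2 e)
        = fun q : ℝ × E => ‖e‖ • De (‖e‖⁻¹ • e) f q.1 q.2 := by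
      funext q
      simp only [De]
      rw [← map_smul]
      congr 1
      by_cases he : e = 0
      · simp [he]
      · rw [smul_smul, mul_inv_cancel₀ (norm_ne_zero_iff.2 he), one_smul]
    rw [h3]
    exact contDiffOn_const.smul (h _ h1).1
  refine ⟨hsm, fun j hj q hq => ?_⟩
  have hK : 0 ≤ K := (norm_nonneg _).trans ((h 0 (by simp)).2 j hj q hq)
  have hjn : ((j : ℕ) : WithTop ℕ∞) ≤ (n : WithTop ℕ∞) := by exact_mod_cast hj
  refine ContinuousMultilinearMap.opNorm_le_bound hK (fun m => ?_)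
  refine ContinuousLinearMap.opNorm_le_of_unit_norm (by positivity) (fun e he => ?_)
  have h1 := (ContinuousLinearMap.apply ℝ G e).iteratedFDerivWithin_comp_left (hsm q hq) hQ hq hjn
  have h2 : ((ContinuousLinearMap.apply ℝ G e) ∘ fun q : ℝ × E => fderiv ℝ (f q.1) q.2)
      = fun q : ℝ × E => De e f q.1 q.2 := rfl
  rw [h2] at h1
  have h3 : (iteratedFDerivWithin ℝ j (fun q : ℝ × E => fderiv ℝ (f q.1) q.2) (I ×ˢ S) q m) e
      = iteratedFDerivWithin ℝ j (fun q : ℝ × E => De e f q.1 q.2) (I ×ˢ S) q m := by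
    rw [h1]; rfl
  rw [h3]
  refine (ContinuousMultilinearMap.le_opNorm _ m).trans ?_
  exact mul_le_mul_of_nonneg_right ((h e he.le).2 j hj q hq)
    (Finset.prod_nonneg (fun _ _ => norm_nonneg _))

/-- the joint derivative as a function of the two partial derivatives. -/
noncomputable def jointD (E : Type*) [NormedAddCommGroup E] [NormedSpace ℝ E] (F : Type*)
    [NormedAddCommGroup F] [NormedSpace ℝ F] : F × (E →L[ℝ] F) →L[ℝ] (ℝ × E →L[ℝ] F) :=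
  (ContinuousLinearMap.smulRightL ℝ (ℝ × E) F (ContinuousLinearMap.fst ℝ ℝ E)) ∘L
      (ContinuousLinearMap.fst ℝ F (E →L[ℝ] F))
    + ((ContinuousLinearMap.compL ℝ (ℝ × E) E F).flip (ContinuousLinearMap.snd ℝ ℝ E)) ∘L
      (ContinuousLinearMap.snd ℝ F (E →L[ℝ] F))

theorem jointD_apply {E : Type*} [NormedAddCommGroup E] [NormedSpace ℝ E] {F : Type*}
    [NormedAddCommGroup F] [NormedSpace ℝ F] (a : F) (A : E →L[ℝ] F) : jointD E F (a, A)
    = (ContinuousLinearMap.fst ℝ ℝ E).smulRight a + A ∘L ContinuousLinearMap.snd ℝ ℝ E := rfl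

theorem norm_jointD_le {E : Type*} [NormedAddCommGroup E] [NormedSpace ℝ E] {F : Type*}
    [NormedAddCommGroup F] [NormedSpace ℝ F] : ‖jointD E F‖ ≤ 2 := by
  refine ContinuousLinearMap.opNorm_le_bound _ (by norm_num) (fun p => ?_)
  obtain ⟨a, A⟩ := p
  rw [jointD_apply]
  have h1 : ‖a‖ ≤ ‖(a, A)‖ := le_max_left _ _
  have h2 : ‖A‖ ≤ ‖(a, A)‖ := le_max_right _ _
  have h3 : ‖(ContinuousLinearMap.fst ℝ ℝ E).smulRight a‖ ≤ ‖a‖ := by
    rw [ContinuousLinearMap.norm_smulRight_apply]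
    calc ‖ContinuousLinearMap.fst ℝ ℝ E‖ * ‖a‖ ≤ 1 * ‖a‖ :=
          mul_le_mul_of_nonneg_right (ContinuousLinearMap.norm_fst_le ℝ ℝ E) (norm_nonneg _)
      _ = ‖a‖ := one_mul _
  have h4 : ‖A ∘L ContinuousLinearMap.snd ℝ ℝ E‖ ≤ ‖A‖ := by
    calc ‖A ∘L ContinuousLinearMap.snd ℝ ℝ E‖ ≤ ‖A‖ * ‖ContinuousLinearMap.snd ℝ ℝ E‖ :=
          ContinuousLinearMap.opNorm_comp_le _ _
      _ ≤ ‖A‖ * 1 :=
          mul_le_mul_of_nonneg_left (ContinuousLinearMap.norm_snd_le ℝ ℝ E) (norm_nonneg _)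
      _ = ‖A‖ := mul_one _
  have := norm_add_le ((ContinuousLinearMap.fst ℝ ℝ E).smulRight a)
    (A ∘L ContinuousLinearMap.snd ℝ ℝ E)
  linarith

/-- partial derivatives in `C^n` with bounds give `C^{n+1}` with bounds. -/
theorem CnB.succ_of_partial {G : Type} [NormedAddCommGroup G] [NormedSpace ℝ G] {T : ℝ} (hT : 0 < T)
    {S : Set E} (hS : IsOpen S) {n : ℕ} {g gt : ℝ → E → G} {c : ℝ} (h0 : CnB n (Icc 0 T) S g c)
    (hdt : ∀ t ∈ Icc 0 T, ∀ x ∈ S, HasDerivWithinAt (fun s => g s x) (gt t x) (Icc 0 T) t)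
    (hgt : CnB n (Icc 0 T) S gt c) (hdx : ∀ t ∈ Icc 0 T, DifferentiableOn ℝ (g t) S)
    (hDe : ∀ e : E, ‖e‖ ≤ 1 → CnB n (Icc 0 T) S (De e g) c) :
    CnB (n + 1) (Icc 0 T) S g (2 * c) := by
  have hI : UniqueDiffOn ℝ (Icc (0 : ℝ) T) := uniqueDiffOn_Icc hT
  have hQ : UniqueDiffOn ℝ (Icc (0 : ℝ) T ×ˢ S) := hI.prod hS.uniqueDiffOn
  have hD : CnB n (Icc 0 T) S (fun t x => fderiv ℝ (g t) x) c := CnB.fderiv_of_De hI hS hDe
  have hder : ∀ q ∈ Icc (0 : ℝ) T ×ˢ S, HasFDerivWithinAt (fun q : ℝ × E => g q.1 q.2)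
      (jointD E G (gt q.1 q.2, fderiv ℝ (g q.1) q.2)) (Icc 0 T ×ˢ S) q := fun q hq =>
    hasFDerivWithinAt_of_partial hS hdx hD.1.continuousOn hq.1 hq.2 (hdt q.1 hq.1 q.2 hq.2)
  have hpair : ContDiffOn ℝ n (fun q : ℝ × E => (gt q.1 q.2, fderiv ℝ (g q.1) q.2))
      (Icc 0 T ×ˢ S) := hgt.1.prodMk hD.1
  have hfd : ∀ q ∈ Icc (0 : ℝ) T ×ˢ S, fderivWithin ℝ (fun q : ℝ × E => g q.1 q.2) (Icc 0 T ×ˢ S) q
      = jointD E G (gt q.1 q.2, fderiv ℝ (g q.1) q.2) := fun q hq =>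
    (hder q hq).fderivWithin (hQ q hq)
  constructor
  · have e1 : ((n + 1 : ℕ) : WithTop ℕ∞) = (n : WithTop ℕ∞) + 1 := by push_cast; rfl
    rw [e1, contDiffOn_succ_iff_fderivWithin hQ]
    refine ⟨fun q hq => (hder q hq).differentiableWithinAt, fun h => absurd h (by simp), ?_⟩
    exact ((jointD E G).contDiff.comp_contDiffOn hpair).congr hfd
  · intro j hj q hq
    have hc : 0 ≤ c := (norm_nonneg _).trans (h0.2 0 (Nat.zero_le _) q hq)
    rcases j with _ | j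
    · exact (h0.2 0 (Nat.zero_le _) q hq).trans (by linarith)
    · have hjn : j ≤ n := Nat.succ_le_succ_iff.1 hj
      have hjn' : ((j : ℕ) : WithTop ℕ∞) ≤ (n : WithTop ℕ∞) := by exact_mod_cast hjn
      rw [← norm_iteratedFDerivWithin_fderivWithin hQ hq, iteratedFDerivWithin_congr hfd hq j]
      refine ((jointD E G).norm_iteratedFDerivWithin_comp_left (hpair q hq) hQ hq hjn').trans ?_
      rw [iteratedFDerivWithin_prodMk (hgt.1 q hq) (hD.1 q hq) hQ hq hjn',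
        ContinuousMultilinearMap.opNorm_prod]
      exact mul_le_mul norm_jointD_le (max_le (hgt.2 j hjn q hq) (hD.2 j hjn q hq))
        (le_max_of_le_left (norm_nonneg _)) (by norm_num)

/-- raising the joint regularity by one. -/
theorem TkB.up {T : ℝ} (hT : 0 < T) {S : Set E} (hS : IsOpen S) {n : ℕ} (k : ℕ) :
    ∀ (f ft : ℝ → E → ℝ) (K : ℝ), TkB n (Icc 0 T) S (k + 1) f ft K →
      JkB (n + 1) (Icc 0 T) S k f (2 * K) := by
  induction k with
  | zero =>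
    intro f ft K h
    exact CnB.succ_of_partial hT hS h.1.1 h.1.2.2 h.1.2.1 h.2.1 (fun e he => (h.2.2.2 e he).1)
  | succ k ih =>
    intro f ft K h
    exact ⟨CnB.succ_of_partial hT hS h.1.1 h.1.2.2 h.1.2.1 h.2.1 (fun e he => (h.2.2.2 e he).1.1),
      h.2.1, fun e he => ih _ _ K (h.2.2.2 e he)⟩

/-- slices of functions of class `CnB` are continuous. -/
theorem CnB.continuousOn_slice {G : Type} [NormedAddCommGroup G] [NormedSpace ℝ G] {n : ℕ}
    {I : Set ℝ} {S : Set E} {f : ℝ → E → G} {K : ℝ} (h : CnB n I S f K) {t : ℝ} (ht : t ∈ I) :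
    ContinuousOn (f t) S :=
  h.1.continuousOn.comp (f := fun x : E => ((t, x) : ℝ × E)) (by fun_prop) (fun x hx => ⟨ht, hx⟩)

theorem JkB.fderiv {n : ℕ} {I : Set ℝ} (hI : UniqueDiffOn ℝ I) {S : Set E} (hS : IsOpen S) (k : ℕ) :
    ∀ (G : Type) [NormedAddCommGroup G] [NormedSpace ℝ G] (f : ℝ → E → G) (K : ℝ),
      JkB n I S (k + 1) f K → JkB n I S k (fun t x => fderiv ℝ (f t) x) K := by
  obtain ⟨κ, hκ⟩ := exists_isBase_CnB (E := E) n
  have hb := hκ I S hI hS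
  induction k with
  | zero =>
    intro G _ _ f K h
    exact CnB.fderiv_of_De hI hS (fun e he => h.2.2 e he)
  | succ k ih =>
    intro G _ _ f K h
    have hC2 : ∀ t ∈ I, ContDiffOn ℝ 2 (f t) S := fun t ht => by
      have := Rk.contDiffOn hS (fun f' hf' t ht => CnB.continuousOn_slice hf' ht)
        (Rk.of_le (show 2 ≤ k + 1 + 1 by omega) h) ht
      exact_mod_cast this
    refine ⟨CnB.fderiv_of_De hI hS (fun e he => (h.2.2 e he).1), fun t ht => ?_, fun e he => ?_⟩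
    · exact ((hC2 t ht).fderiv_of_isOpen hS (m := 1) (by norm_num)).differentiableOn (by norm_num)
    · refine Rk.congr hb hS (ih G (De e f) K (h.2.2 e he)) (fun t ht x hx => ?_)
      have hat : ContDiffAt ℝ 2 (f t) x := (hC2 t ht).contDiffAt (hS.mem_nhds hx)
      have hsymm : IsSymmSndFDerivAt ℝ (f t) x := hat.isSymmSndFDerivAt (by simp)
      have hd : DifferentiableAt ℝ (_root_.fderiv ℝ (f t)) x :=
        (hat.fderiv_right (m := 1) (by norm_num)).differentiableAt (by norm_num)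
      ext v
      have h1 : _root_.fderiv ℝ (De e f t) x = (ContinuousLinearMap.apply ℝ G e) ∘L
          _root_.fderiv ℝ (_root_.fderiv ℝ (f t)) x :=
        ((ContinuousLinearMap.apply ℝ G e).hasFDerivAt.comp x hd.hasFDerivAt).fderiv
      rw [h1]
      simp only [De, ContinuousLinearMap.comp_apply, ContinuousLinearMap.apply_apply]
      exact hsymm e v

theorem JkB.jet {n k : ℕ} {I : Set ℝ} (hI : UniqueDiffOn ℝ I) {S : Set E} (hS : IsOpen S)
    {u : ℝ → E → ℝ} {K : ℝ} (h : JkB n I S (k + 2) u K) : JkB n I S k (jet u) K := by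
  obtain ⟨κ, hκ⟩ := exists_isBase_CnB (E := E) n
  have hb := hκ I S hI hS
  have h1 : JkB n I S (k + 1) (fun t x => _root_.fderiv ℝ (u t) x) K := JkB.fderiv hI hS (k + 1) ℝ u K h
  have h2 : JkB n I S k (fun t x => _root_.fderiv ℝ (_root_.fderiv ℝ (u t)) x) K :=
    JkB.fderiv hI hS k (E →L[ℝ] ℝ) _ K h1
  exact Rk.prod hb hS (Rk.of_le (by omega) h) (Rk.prod hb hS h1.of_succ h2)

/-- **time regularity** (on an arbitrary open set `S`). -/
theorem exists_time_reg (δ δ' : ℝ) (CF c₀ : ℕ → ℝ) (hδ : δ' < δ) (n : ℕ) : ∀ k : ℕ, ∃ c : ℝ,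
    ∀ (T : ℝ) (S : Set E) (F : ℝ → E → Jet E → ℝ) (u ut : ℝ → E → ℝ), 0 < T → IsOpen S →
      SmB (Icc 0 T ×ˢ S ×ˢ ball (0 : Jet E) δ) (fun q : ℝ × E × Jet E => F q.1 q.2.1 q.2.2) CF →
      (∀ k, TkB 0 (Icc 0 T) S k u ut (c₀ k)) →
      (∀ t ∈ Icc 0 T, ∀ z ∈ S, ‖jet u t z‖ ≤ δ') →
      (∀ t ∈ Icc 0 T, ∀ z ∈ S, ut t z = F t z (jet u t z)) →
      TkB n (Icc 0 T) S k u ut c := by
  induction n with
  | zero =>
    intro k
    exact ⟨c₀ k, fun T S F u ut _ _ _ h0 _ _ => h0 k⟩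
  | succ n ih =>
    intro k
    obtain ⟨c', hc'⟩ := ih (k + 3)
    obtain ⟨κ, hκ⟩ := exists_isBase_CnB (E := E) (n + 1)
    obtain ⟨Cc, hCc, hcomp⟩ := exists_Rk_comp (E := E) (2 ^ (n + 1)) (by positivity) κ k CF (2 * c')
    refine ⟨max (2 * c') Cc, ?_⟩
    intro T S F u ut hT hS hF h0 hj hsol
    have hI : UniqueDiffOn ℝ (Icc (0 : ℝ) T) := uniqueDiffOn_Icc hT
    have h3 := hc' T S F u ut hT hS hF h0 hj hsol
    have hup : JkB (n + 1) (Icc 0 T) S (k + 2) u (2 * c') := TkB.up hT hS (k + 2) u ut c' h3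
    have hjet : JkB (n + 1) (Icc 0 T) S k (jet u) (2 * c') := JkB.jet hI hS hup
    have hb := hκ (Icc 0 T) S hI hS
    have hFj : JkB (n + 1) (Icc 0 T) S k (fun t x => F t x (jet u t x)) Cc :=
      hcomp _ (Icc 0 T) S hb hI hS δ δ' hδ (Jet E) ℝ F (jet u) hF hjet hj
    have hut : JkB (n + 1) (Icc 0 T) S k ut Cc := Rk.congr hb hS hFj hsol
    have hu : JkB (n + 1) (Icc 0 T) S k u (2 * c') := Rk.of_le (by omega) hup
    refine Pk.of_Rk ?_ (Pk.of_le (show k ≤ k + 3 by omega) h3) hu hut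
    intro f ft h1 h2 h4
    exact ⟨⟨h2.1, fun j hj q hq => (h2.2 j hj q hq).trans (le_max_left _ _)⟩,
      ⟨h4.1, fun j hj q hq => (h4.2 j hj q hq).trans (le_max_right _ _)⟩, h1.2.2⟩

/-- **M7, chart level.** -/
theorem exists_reg_local (α δ δ' lam K Tm : ℝ) (CF Cg : ℕ → ℝ) (hα : 0 < α) (hα1 : α < 1)
    (hδ : δ' < δ) (hlam : 0 < lam) (hTm : 0 < Tm) : ∃ C : ℕ → ℝ,
    ∀ (T : ℝ) (F : ℝ → E → Jet E → ℝ) (u ut : ℝ → E → ℝ), 0 < T → T ≤ Tm →
      SmF (Icc 0 T) 3 δ F CF →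
      (∀ t ∈ Icc 0 T, ∀ z ∈ ball (0 : E) 3, ∀ J ∈ ball (0 : Jet E) δ, ∀ ξ : E →L[ℝ] ℝ,
        lam * ‖ξ‖ ^ 2 ≤ fderiv ℝ (F t z) J (topJ (sqB ξ))) →
      C21 (Icc 0 T) (ball (0 : E) 3) u ut → XB α (Icc 0 T) (ball (0 : E) 3) u ut K →
      (∀ t ∈ Icc 0 T, ∀ z ∈ ball (0 : E) 3, ‖jet u t z‖ ≤ δ') → SmB (ball (0 : E) 3) (u 0) Cg →
      (∀ t ∈ Icc 0 T, ∀ z ∈ ball (0 : E) 3, ut t z = F t z (jet u t z)) →
      SmB (Icc 0 T ×ˢ ball (0 : E) 2) (fun q : ℝ × E => u q.1 q.2) C := by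
  choose Gk _ hGk using fun k => exists_GkB_of_SmB (E := E) α hα hα1.le k Cg
  choose Ck rk _ hrk _ hCk using fun k =>
    exists_nl_reg (E := E) k α δ δ' lam K (Gk k) Tm 1 CF hα hα1 hδ hlam hTm one_pos le_rfl
  choose c hc using fun n => exists_time_reg (E := E) δ δ' CF Ck hδ n 0
  refine ⟨c, ?_⟩
  intro T F u ut hT hTm' hF hell hu hX hj hg hsol
  have hsub : ∀ x₀ ∈ ball (0 : E) 2, ball x₀ 1 ⊆ ball (0 : E) 3 := by
    intro x₀ hx₀ y hy
    rw [mem_ball_zero_iff] at hx₀ ⊢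
    rw [mem_ball_iff_norm] at hy
    calc ‖y‖ = ‖(y - x₀) + x₀‖ := by rw [sub_add_cancel]
      _ ≤ ‖y - x₀‖ + ‖x₀‖ := norm_add_le _ _
      _ < 3 := by linarith
  have h23 : ball (0 : E) 2 ⊆ ball (0 : E) 3 := ball_subset_ball (by norm_num)
  have h0 : ∀ k, TkB 0 (Icc 0 T) (ball (0 : E) 2) k u ut (Ck k) := by
    intro k
    refine TkB_zero_of_local (α := α) (hrk k) isOpen_ball k u ut ?_
    intro x₀ hx₀
    have hs := hsub x₀ hx₀
    exact hCk k T x₀ F u ut hT hTm' hs hF hell (hu.subset subset_rfl hs) (hX.subset subset_rfl hs)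
      (fun t ht x hx => hj t ht x (hs hx))
      ((hGk k (ball (0 : E) 3) (u 0) isOpen_ball (convex_ball _ _) hg).subset hs)
      (fun t ht x hx => hsol t ht x (hs hx))
  refine SmB_of_CnB (fun n => ?_)
  have hI : UniqueDiffOn ℝ (Icc (0 : ℝ) T) := uniqueDiffOn_Icc hT
  have hF2 : SmF (Icc 0 T) 2 δ F CF := hF.subset hI hI subset_rfl (by norm_num) le_rfl
  exact (hc n T (ball (0 : E) 2) F u ut hT isOpen_ball hF2 h0 (fun t ht z hz => hj t ht z (h23 hz))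
    (fun t ht z hz => hsol t ht z (h23 hz))).1

/-! ### linear equations in a chart: interior estimates of all orders up to `t = 0` -/

/-- evaluation at a vector of norm `≤ 1` is a contraction. -/
theorem norm_apply_le_one {W G : Type*} [NormedAddCommGroup W] [NormedSpace ℝ W]
    [NormedAddCommGroup G] [NormedSpace ℝ G] {e : W} (he : ‖e‖ ≤ 1) :
    ‖ContinuousLinearMap.apply ℝ G e‖ ≤ 1 := by
  refine ContinuousLinearMap.opNorm_le_bound _ zero_le_one (fun A => ?_)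
  rw [one_mul]
  calc ‖ContinuousLinearMap.apply ℝ G e A‖ = ‖A e‖ := rfl
    _ ≤ ‖A‖ * ‖e‖ := A.le_opNorm e
    _ ≤ ‖A‖ * 1 := mul_le_mul_of_nonneg_left he (norm_nonneg _)
    _ = ‖A‖ := mul_one _

/-- smooth with bounded derivatives implies `Y^k`. -/
theorem exists_YkB_of_SmB (α : ℝ) (hα : 0 < α) (hα1 : α ≤ 1) (k : ℕ) (C : ℕ → ℝ) : ∃ K : ℝ, 0 ≤ K ∧
    ∀ (G : Type) [NormedAddCommGroup G] [NormedSpace ℝ G] (I : Set ℝ) (S : Set E) (f : ℝ → E → G),
      UniqueDiffOn ℝ I → IsOpen S → Convex ℝ S → SmB (I ×ˢ S) (fun q : ℝ × E => f q.1 q.2) C →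
      YkB α I S k f K := by
  induction k generalizing C with
  | zero =>
    refine ⟨|2 * C 0 + C 1|, abs_nonneg _, fun G _ _ I S f hI hS hc h => ?_⟩
    exact (h.YB hI hS hc hα hα1).mono (le_abs_self _)
  | succ k ih =>
    obtain ⟨K₁, hK₁, ih⟩ := ih (fun j => C (j + 1))
    refine ⟨|2 * C 0 + C 1| + K₁, by positivity, fun G _ _ I S f hI hS hc h => ?_⟩
    have hb := isBase_YB (E := E) hα hα1 hI hS hc
    refine ⟨(h.YB hI hS hc hα hα1).mono ((le_abs_self _).trans (le_add_of_nonneg_right hK₁)),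
      fun t ht x hx => (SmB.differentiableAt_snd hS h ht hx).differentiableWithinAt, fun e he => ?_⟩
    have hQ : UniqueDiffOn ℝ (I ×ˢ S) := hI.prod hS.uniqueDiffOn
    have h1 : SmB (I ×ˢ S) (fun q : ℝ × E => De e f q.1 q.2) (fun j => C (j + 1)) :=
      (SmB.fderiv_snd hI hS h).clm_comp_le_one hQ (ContinuousLinearMap.apply ℝ G e)
        (norm_apply_le_one he)
    exact Rk.mono hb (ih G I S (De e f) hI hS hc h1) (le_add_of_nonneg_left (abs_nonneg _))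

/-- an elliptic operator with smooth bounded coefficients is admissible (`γ = 1`). -/
theorem exists_adm_of_SmB (α lam : ℝ) (C : ℕ → ℝ) (hα : 0 < α) (hα1 : α ≤ 1) : ∃ M : ℝ, 0 ≤ M ∧
    ∀ (T : ℝ) (S : Set E) (P : Op E), 0 < T → IsOpen S → Convex ℝ S →
      SmB (Icc 0 T ×ˢ S) (fun q : ℝ × E => P q.1 q.2) C →
      (∀ t ∈ Icc 0 T, ∀ z ∈ S, ∀ ξ : E →L[ℝ] ℝ, lam * ‖ξ‖ ^ 2 ≤ P t z (topJ (sqB ξ))) →
      Adm P α 1 lam M (Icc 0 T) S := by
  refine ⟨2 * |C 0| + |C 1|, by positivity, ?_⟩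
  intro T S P hT hS hc h hell
  have hI : UniqueDiffOn ℝ (Icc (0 : ℝ) T) := uniqueDiffOn_Icc hT
  refine ⟨hell, (h.YB hI hS hc hα hα1).mono ?_, fun t ht s hs x hx B => ?_⟩
  · have := le_abs_self (C 0)
    have := le_abs_self (C 1)
    linarith
  · have h1 := h.lip_time (convex_Icc _ _) hS ht hs hx
    rw [← _root_.sub_apply, Real.rpow_one, ← Real.norm_eq_abs]
    refine (ContinuousLinearMap.le_opNorm _ _).trans ?_
    rw [norm_topJ]
    refine mul_le_mul_of_nonneg_right (h1.trans ?_) (norm_nonneg _)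
    refine mul_le_mul_of_nonneg_right ?_ (abs_nonneg _)
    have := le_abs_self (C 1)
    have := abs_nonneg (C 0)
    linarith

/-- the affine nonlinearity `P J + f` on a tube. -/
theorem exists_SmB_lin (δ : ℝ) (CP Cf : ℕ → ℝ) : ∃ CF : ℕ → ℝ,
    ∀ (I : Set ℝ) (S : Set E) (P : Op E) (f : ℝ → E → ℝ), UniqueDiffOn ℝ I → IsOpen S →
      SmB (I ×ˢ S) (fun q : ℝ × E => P q.1 q.2) CP → SmB (I ×ˢ S) (fun q : ℝ × E => f q.1 q.2) Cf →
      SmB (I ×ˢ S ×ˢ ball (0 : Jet E) δ)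
        (fun q : ℝ × E × Jet E => P q.1 q.2.1 q.2.2 + f q.1 q.2.1) CF := by
  obtain ⟨L₂, hL₂⟩ : ∃ L : ℝ × E × Jet E →L[ℝ] Jet E, L =
      (ContinuousLinearMap.snd ℝ E (Jet E)) ∘L (ContinuousLinearMap.snd ℝ ℝ (E × Jet E)) := ⟨_, rfl⟩
  obtain ⟨C', hC'⟩ := exists_SmB_clm_apply (W := ℝ × E × Jet E) (G₁ := Jet E) (G₂ := ℝ) CP
    (fun k => if k = 0 then δ else if k = 1 then ‖L₂‖ else 0)
  refine ⟨fun k => C' k + Cf k, ?_⟩
  intro I S P f hI hS hP hf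
  have hQ : UniqueDiffOn ℝ (I ×ˢ S) := hI.prod hS.uniqueDiffOn
  have hT : UniqueDiffOn ℝ (I ×ˢ S ×ˢ ball (0 : Jet E) δ) :=
    hI.prod (hS.prod isOpen_ball).uniqueDiffOn
  obtain ⟨π, hπ⟩ : ∃ π : ℝ × E × Jet E →L[ℝ] ℝ × E, π =
      (ContinuousLinearMap.fst ℝ ℝ (E × Jet E)).prod ((ContinuousLinearMap.fst ℝ E (Jet E)) ∘L
        (ContinuousLinearMap.snd ℝ ℝ (E × Jet E))) := ⟨_, rfl⟩
  have hπa : ∀ q : ℝ × E × Jet E, π q = (q.1, q.2.1) := fun q => by rw [hπ]; rfl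
  have hπn : ‖π‖ ≤ 1 := by
    refine ContinuousLinearMap.opNorm_le_bound _ zero_le_one (fun q => ?_)
    rw [one_mul, hπa]
    exact max_le (norm_fst_le q) ((norm_fst_le q.2).trans (norm_snd_le q))
  have hpre : π ⁻¹' (I ×ˢ S) = I ×ˢ S ×ˢ (univ : Set (Jet E)) := by
    ext q
    simp [hπa]
  have hpreU : UniqueDiffOn ℝ (π ⁻¹' (I ×ˢ S)) := by
    rw [hpre]; exact hI.prod (hS.prod isOpen_univ).uniqueDiffOn
  have hsub : I ×ˢ S ×ˢ ball (0 : Jet E) δ ⊆ π ⁻¹' (I ×ˢ S) := by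
    rw [hpre]; exact Set.prod_mono subset_rfl (Set.prod_mono subset_rfl (subset_univ _))
  have hP' : SmB (I ×ˢ S ×ˢ ball (0 : Jet E) δ) (fun q : ℝ × E × Jet E => P q.1 q.2.1) CP :=
    ((hP.comp_clm_le_one hQ π hπn hpreU).subset hpreU hT hsub).congr (fun q _ => by rw [hπa])
  have hf' : SmB (I ×ˢ S ×ˢ ball (0 : Jet E) δ) (fun q : ℝ × E × Jet E => f q.1 q.2.1) Cf :=
    ((hf.comp_clm_le_one hQ π hπn hpreU).subset hpreU hT hsub).congr (fun q _ => by rw [hπa])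
  have hJ : SmB (I ×ˢ S ×ˢ ball (0 : Jet E) δ) (fun q : ℝ × E × Jet E => q.2.2)
      (fun k => if k = 0 then δ else if k = 1 then ‖L₂‖ else 0) := by
    refine (SmB.affine _ hT L₂ 0 (b := δ) (fun q hq => ?_)).congr (fun q _ => ?_)
    · rw [add_zero, hL₂]
      exact (mem_ball_zero_iff.1 hq.2.2).le
    · rw [add_zero, hL₂]; rfl
  exact (hC' _ _ _ hT hP' hJ).add hf' hT

/-- a function vanishing on an open set. -/
theorem C2aB_zero_of_eqOn {α : ℝ} {S : Set E} (hS : IsOpen S) {g : E → ℝ} (h : ∀ x ∈ S, g x = 0) :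
    C2aB α S g 0 := by
  have h1 : ∀ x ∈ S, fderiv ℝ g x = 0 := by
    intro x hx
    have e : g =ᶠ[𝓝 x] fun _ => (0 : ℝ) := by
      filter_upwards [hS.mem_nhds hx] with y hy using h y hy
    rw [e.fderiv_eq]
    simp
  have h2 : ∀ x ∈ S, fderiv ℝ (fderiv ℝ g) x = 0 := by
    intro x hx
    have e : fderiv ℝ g =ᶠ[𝓝 x] fun _ => (0 : E →L[ℝ] ℝ) := by
      filter_upwards [hS.mem_nhds hx] with y hy using h1 y hy
    rw [e.fderiv_eq]
    simp
  refine ⟨contDiffOn_const.congr h, fun x hx => ?_, fun x hx => ?_, fun x hx => ?_,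
    fun x hx y hy => ?_⟩
  · rw [h x hx, norm_zero]
  · rw [h1 x hx, norm_zero]
  · rw [h2 x hx, norm_zero]
  · rw [h2 x hx, h2 y hy, sub_self, norm_zero, zero_mul]

theorem GkB_zero_of_eqOn {α : ℝ} {S : Set E} (hS : IsOpen S) (k : ℕ) :
    ∀ g : E → ℝ, (∀ x ∈ S, g x = 0) → GkB α S k g 0 := by
  induction k with
  | zero => exact fun g h => C2aB_zero_of_eqOn hS h
  | succ k ih =>
    intro g h
    refine ⟨C2aB_zero_of_eqOn hS h, fun e _ => ih _ (fun x hx => ?_)⟩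
    have e' : g =ᶠ[𝓝 x] fun _ => (0 : ℝ) := by
      filter_upwards [hS.mem_nhds hx] with y hy using h y hy
    rw [e'.fderiv_eq]
    simp

theorem adm_mono_M {P : Op E} {α γ lam M M' : ℝ} {I : Set ℝ} {S : Set E}
    (h : Adm P α γ lam M I S) (hM : M ≤ M') : Adm P α γ lam M' I S := by
  refine ⟨h.ell, h.coef.mono hM, fun t ht s hs x hx B => (h.time t ht s hs x hx B).trans ?_⟩
  gcongr

/-- **interior estimates of all orders, up to `t = 0`, for bounded smooth solutions of a linear equation with zero initial values.** -/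
theorem exists_lin_local_reg (r T lam M : ℝ) (CP : ℕ → ℝ) (hr : 0 < r) (hT : 0 < T)
    (hlam : 0 < lam) : ∃ C : ℕ → ℝ,
    ∀ (P : Op E) (f u ut : ℝ → E → ℝ),
      SmB (Icc 0 T ×ˢ ball (0 : E) (2 * r)) (fun q : ℝ × E => P q.1 q.2) CP →
      SmB (Icc 0 T ×ˢ ball (0 : E) (2 * r)) (fun q : ℝ × E => f q.1 q.2) CP →
      (∀ t ∈ Icc 0 T, ∀ z ∈ ball (0 : E) (2 * r), ∀ ξ : E →L[ℝ] ℝ,
        lam * ‖ξ‖ ^ 2 ≤ P t z (topJ (sqB ξ))) →
      ContDiffOn ℝ ∞ (fun q : ℝ × E => u q.1 q.2) (Icc 0 T ×ˢ ball (0 : E) (2 * r)) →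
      (∀ t ∈ Icc 0 T, ∀ z ∈ ball (0 : E) (2 * r), |u t z| ≤ M ∧
        HasDerivWithinAt (fun s => u s z) (ut t z) (Icc 0 T) t ∧ Lop P u ut t z = f t z) →
      (∀ z ∈ ball (0 : E) (2 * r), u 0 z = 0) →
      ∀ m, ∀ t ∈ Icc 0 T, ∀ z ∈ ball (0 : E) r,
        ‖iteratedFDerivWithin ℝ m (fun q : ℝ × E => u q.1 q.2)
          (Icc 0 T ×ˢ ball (0 : E) (2 * r)) (t, z)‖ ≤ C m := by
  have hα : (0 : ℝ) < 1 / 2 := by norm_num
  have hα1 : (1 / 2 : ℝ) < 1 := by norm_num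
  obtain ⟨R₀, hR₀def⟩ : ∃ R₀ : ℝ, R₀ = min 1 r := ⟨_, rfl⟩
  have hR₀ : 0 < R₀ := hR₀def ▸ lt_min one_pos hr
  have hR₀1 : R₀ ≤ 1 := hR₀def ▸ min_le_left _ _
  have hR₀r : R₀ ≤ r := hR₀def ▸ min_le_right _ _
  obtain ⟨Ma, hMa, hadm⟩ := exists_adm_of_SmB (E := E) (1 / 2) lam CP hα hα1.le
  obtain ⟨Cs, hCs, hsch⟩ := schauder_local (E := E) (α := 1 / 2) (γ := 1) (lam := lam) (M := Ma)
    (Tm := T) (R := R₀) hα hα1 one_pos hlam hMa hT hR₀ hR₀1
  obtain ⟨K, hK⟩ : ∃ K : ℝ, K = Cs * ((2 * CP 0 + CP 1) + 0 + M) := ⟨_, rfl⟩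
  choose Mk _ hMk using fun k => exists_YkB_of_SmB (E := E) (1 / 2) hα hα1.le k CP
  choose Ck rk _ hrk _ hCk using fun k => exists_lin_reg (E := E) k (1 / 2) 1 lam (max Ma (Mk k)) K 0
    T (R₀ / 2) hα hα1 one_pos hlam hT (by positivity) (by linarith)
  obtain ⟨CF, hCF⟩ := exists_SmB_lin (E := E) (K + 1) CP CP
  choose c hc using fun n => exists_time_reg (E := E) (K + 1) K CF Ck (by linarith) n 0
  refine ⟨c, ?_⟩
  intro P f u ut hP hf hell hu hsol hu0 m t ht z hz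
  have hI : UniqueDiffOn ℝ (Icc (0 : ℝ) T) := uniqueDiffOn_Icc hT
  have hQ2 : UniqueDiffOn ℝ (Icc (0 : ℝ) T ×ˢ ball (0 : E) (2 * r)) :=
    hI.prod isOpen_ball.uniqueDiffOn
  have hQb : ∀ (x₀ : E) (ρ : ℝ), UniqueDiffOn ℝ (Icc (0 : ℝ) T ×ˢ ball x₀ ρ) := fun x₀ ρ =>
    hI.prod isOpen_ball.uniqueDiffOn
  have hsub : ∀ x₀ ∈ ball (0 : E) r, ∀ ρ ≤ R₀, closedBall x₀ ρ ⊆ ball (0 : E) (2 * r) := by
    intro x₀ hx₀ ρ hρ y hy
    rw [mem_ball_zero_iff] at hx₀ ⊢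
    rw [mem_closedBall_iff_norm] at hy
    calc ‖y‖ = ‖(y - x₀) + x₀‖ := by rw [sub_add_cancel]
      _ ≤ ‖y - x₀‖ + ‖x₀‖ := norm_add_le _ _
      _ < 2 * r := by linarith
  have hsubb : ∀ x₀ ∈ ball (0 : E) r, ∀ ρ ≤ R₀, ball x₀ ρ ⊆ ball (0 : E) (2 * r) :=
    fun x₀ hx₀ ρ hρ => ball_subset_closedBall.trans (hsub x₀ hx₀ ρ hρ)
  have hr2 : ball (0 : E) r ⊆ ball (0 : E) (2 * r) := ball_subset_ball (by linarith)
  have hut : ∀ t ∈ Icc 0 T, ∀ x ∈ ball (0 : E) (2 * r),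
      HasDerivWithinAt (fun s => u s x) (ut t x) (Icc 0 T) t := fun t ht x hx => (hsol t ht x hx).2.1
  have hC21 : C21 (Icc 0 T) (ball (0 : E) (2 * r)) u ut := C21_of_smooth hT isOpen_ball hu hut
  -- the Schauder estimate
  have hX : ∀ x₀ ∈ ball (0 : E) r, XB (1 / 2) (Icc 0 T) (ball x₀ (R₀ / 2)) u ut K := by
    intro x₀ hx₀
    have hs := hsubb x₀ hx₀ R₀ le_rfl
    have hsQ : Icc (0 : ℝ) T ×ˢ ball x₀ R₀ ⊆ Icc (0 : ℝ) T ×ˢ ball (0 : E) (2 * r) :=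
      Set.prod_mono subset_rfl hs
    rw [hK]
    refine hsch T x₀ P u ut _ 0 M hT le_rfl
      (hadm T (ball x₀ R₀) P hT isOpen_ball (convex_ball _ _) (hP.subset hQ2 (hQb _ _) hsQ)
        (fun t ht z hz ξ => hell t ht z (hs hz) ξ))
      (hC21.subset subset_rfl hs) ?_ ?_ (C2aB_zero_of_eqOn isOpen_ball (fun x hx => hu0 x (hs hx)))
      (fun t ht x hx => (hsol t ht x (hs hx)).1)
    · intro ρ hρ
      obtain ⟨K', -, hK'⟩ := XB_of_smooth (α := 1 / 2) hα hα1.le hT isOpen_ball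
        (hsub x₀ hx₀ ρ hρ.le) hu hut
      exact ⟨K', hK'⟩
    · exact (SmB.YB hI isOpen_ball (convex_ball _ _) (hf.subset hQ2 (hQb _ _) hsQ) hα hα1.le).congr
        (fun t ht x hx => (hsol t ht x (hs hx)).2.2)
  -- spatial regularity
  have hXk : ∀ k, ∀ x₀ ∈ ball (0 : E) r, XkB (1 / 2) (Icc 0 T) (ball x₀ (rk k)) k u ut (Ck k) := by
    intro k x₀ hx₀
    have hs := hsubb x₀ hx₀ (R₀ / 2) (by linarith)
    have hsQ : Icc (0 : ℝ) T ×ˢ ball x₀ (R₀ / 2) ⊆ Icc (0 : ℝ) T ×ˢ ball (0 : E) (2 * r) :=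
      Set.prod_mono subset_rfl hs
    refine hCk k T x₀ P f u ut hT le_rfl
      (adm_mono_M (hadm T (ball x₀ (R₀ / 2)) P hT isOpen_ball (convex_ball _ _)
        (hP.subset hQ2 (hQb _ _) hsQ) (fun t ht z hz ξ => hell t ht z (hs hz) ξ)) (le_max_left _ _))
      (YkB.mono (hMk k _ (Icc 0 T) (ball x₀ (R₀ / 2)) P hI isOpen_ball (convex_ball _ _)
        (hP.subset hQ2 (hQb _ _) hsQ)) (le_max_right _ _))
      (YkB.mono (hMk k _ (Icc 0 T) (ball x₀ (R₀ / 2)) f hI isOpen_ball (convex_ball _ _)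
        (hf.subset hQ2 (hQb _ _) hsQ)) (le_max_right _ _))
      (hC21.subset subset_rfl hs) (hX x₀ hx₀)
      (GkB_zero_of_eqOn isOpen_ball k _ (fun x hx => hu0 x (hs hx)))
      (fun t ht x hx => (hsol t ht x (hs hx)).2.2)
  have h0 : ∀ k, TkB 0 (Icc 0 T) (ball (0 : E) r) k u ut (Ck k) := fun k =>
    TkB_zero_of_local (α := 1 / 2) (hrk k) isOpen_ball k u ut (hXk k)
  have hsQr : Icc (0 : ℝ) T ×ˢ ball (0 : E) r ⊆ Icc (0 : ℝ) T ×ˢ ball (0 : E) (2 * r) :=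
    Set.prod_mono subset_rfl hr2
  have hF := hCF (Icc 0 T) (ball (0 : E) r) P f hI isOpen_ball (hP.subset hQ2 (hQb _ _) hsQr)
    (hf.subset hQ2 (hQb _ _) hsQr)
  have hCn : ∀ n, CnB n (Icc 0 T) (ball (0 : E) r) u (c n) := fun n =>
    (hc n T (ball (0 : E) r) (fun t z J => P t z J + f t z) u ut hT isOpen_ball hF h0
      (fun t ht z hz => (hX z hz).jet_sup t ht z (mem_ball_self (by positivity)))
      (fun t ht z hz => by
        have := (hsol t ht z (hr2 hz)).2.2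
        simp only [Lop] at this
        linarith)).1
  have hSm := SmB_of_CnB hCn
  have hq : ((t, z) : ℝ × E) ∈ Icc (0 : ℝ) T ×ˢ ball (0 : E) r := ⟨ht, hz⟩
  rw [← iteratedFDerivWithin_subset hsQr (hQb _ _) hQ2 (hu.of_le (by exact_mod_cast le_top)) hq]
  exact hSm.bdd m _ hq

end Claimed.Agent.R316.B8M
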