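import Claimed.Agent.R316.B8M.Short
import Claimed.Agent.R316.B8M.RegTime

/-!
# B8M-REG (M7), top level: solutions in `X` of smooth fully nonlinear parabolic equations are smooth, with bounds

* `exists_reg_local` (chart level; `RegTime.lean`, from the chain `RegDefs → RegDQ → RegInd → RegTime`): `u ∈ X(Icc 0 T × ball 0 3)`, `u_t = F(t,z,jet u)`, jets in `closedBall 0 δ'`, `δ' < δ`, `F` smooth with bounded derivatives and parabolic on the
  `δ`-tube, `u(0)` smooth with bounded derivatives  ⟹  all space-time derivatives of `u` are bounded on `Icc 0 T × ball 0 2`, by constants depending only on the data.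
* `A.exists_reg`: the same on the manifold.
* `SmST ⇒ C21M, XM`, slices, time derivative.

LEAVES (proofs only): B8M-REG-M = everything in this file up to `exists_reg`;  B8M-REG-NLL = `exists_NLHyp_lin` (COMPAT: `CompatL`, `A.Φ_tr`; SMOOTH: `exists_SmB_lin`; ELL: `fderiv` of a continuous linear map plus a constant).  `exists_lin_smooth` is proved.

Recipes.
* `exists_SmST_of_ball2`: as B8M-COVER.  For `(t,z) ∈ I ×ˢ ball 0 3` (chart `i`) take `j`, `D = ball z r ∩ ball 0 3` with `tr i j '' D ⊆ ball 0 2`.  On `I ×ˢ D`: `u (Φ i ·) = (u (Φ j ·)) ∘ (id × tr i j)`.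
  `iteratedFDerivWithin` w.r.t. `I ×ˢ ball 0 3` and `I ×ˢ D` agree at `(t,z)` (`iteratedFDerivWithin_congr_set`, the sets agree near `(t,z)`), `exists_SmB_comp_gen`; the inner map `(t,y) ↦ (t, tr i j y)` is `SmB` with constants from `A.Cτ`
  (`SmB.prodMk`, `SmB.static`, `SmB.affine`).
* `SmST.C21M_XM`: in each chart `B8.C21_of_smooth`-type arguments (`B8/Bridge.lean`), bounds: `SmB.fderiv_snd` twice, `SmB.exists_dt` + uniqueness of the derivative within `Icc 0 T`; Hölder from the next derivative (`B8.lip_of_fderiv`, `B8.HolB.of_lip`).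
* `exists_reg`: `exists_reg_local` in every chart (`Cg = 0`: `u 0 = 0` on `ball 0 3`), then `exists_SmST_of_ball2`.
-/

set_option autoImplicit false
set_option maxSynthPendingDepth 3
set_option linter.unusedSectionVars false

open scoped Topology ContDiff
open Set Filter Metric

namespace Claimed.Agent.R316.B8M

open Claimed.Agent.R316.B8

variable {V E : Type} [NormedAddCommGroup V] [NormedSpace ℝ V]
  [NormedAddCommGroup E] [InnerProductSpace ℝ E] [FiniteDimensional ℝ E]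

section Tools

variable {W W' G : Type*} [NormedAddCommGroup W] [NormedSpace ℝ W]
  [NormedAddCommGroup W'] [NormedSpace ℝ W'] [NormedAddCommGroup G] [NormedSpace ℝ G]

/-- composition; only the derivatives of order `≥ 1` of the inner map have to be bounded. -/
theorem exists_SmB_comp_gen' (c C : ℕ → ℝ) : ∃ C' : ℕ → ℝ,
    ∀ (Q' : Set W') (Q : Set W) (φ : W' → W) (g : W → G), UniqueDiffOn ℝ Q' → UniqueDiffOn ℝ Q →
      MapsTo φ Q' Q → ContDiffOn ℝ ∞ φ Q' →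
      (∀ k, 1 ≤ k → ∀ q ∈ Q', ‖iteratedFDerivWithin ℝ k φ Q' q‖ ≤ c k) → SmB Q g C →
      SmB Q' (fun q => g (φ q)) C' := by
  refine ⟨fun n => (n.factorial : ℝ) * (∑ i ∈ Finset.range (n + 1), |C i|)
    * (1 + ∑ i ∈ Finset.range (n + 1), |c i|) ^ n, ?_⟩
  intro Q' Q φ g hQ' hQ hm hφ hφb hg
  refine ⟨hg.smooth.comp hφ hm, fun n q hq => ?_⟩
  apply norm_iteratedFDerivWithin_comp_le hg.smooth hφ (by exact_mod_cast le_top) hQ hQ' hm hq
  · intro i hi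
    refine (hg.bdd i _ (hm hq)).trans ((le_abs_self _).trans ?_)
    exact Finset.single_le_sum (f := fun i => |C i|) (fun j _ => abs_nonneg _)
      (Finset.mem_range.2 (by omega))
  · intro i hi1 hi
    have h1 : c i ≤ 1 + ∑ i ∈ Finset.range (n + 1), |c i| := by
      have := Finset.single_le_sum (f := fun i => |c i|) (fun j _ => abs_nonneg _)
        (Finset.mem_range.2 (by omega : i < n + 1))
      have h2 := le_abs_self (c i)
      linarith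
    have h3 : 1 ≤ 1 + ∑ i ∈ Finset.range (n + 1), |c i| := by
      have : 0 ≤ ∑ i ∈ Finset.range (n + 1), |c i| := Finset.sum_nonneg (fun j _ => abs_nonneg _)
      linarith
    refine (hφb i hi1 q hq).trans (h1.trans ?_)
    exact le_self_pow₀ h3 (by omega)

open scoped Pointwise in
/-- translation. -/
theorem SmB.comp_add_left {Q Q' : Set W} {g : W → G} {C : ℕ → ℝ} (h : SmB Q g C) (a : W)
    (hQ' : ∀ z, z ∈ Q' ↔ a + z ∈ Q) : SmB Q' (fun z => g (a + z)) C := by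
  have hback : a +ᵥ Q' = Q := by
    ext z
    rw [Set.mem_vadd_set_iff_neg_vadd_mem, hQ']
    simp
  refine ⟨h.smooth.comp (contDiff_const.add contDiff_id).contDiffOn (fun z hz => (hQ' z).1 hz),
    fun k z hz => ?_⟩
  rw [iteratedFDerivWithin_comp_add_left, hback]
  exact h.bdd k _ ((hQ' z).1 hz)

/-- `SmB` is a local property. -/
theorem SmB.of_local {Q : Set W} {g : W → G} {C : ℕ → ℝ}
    (h : ∀ q ∈ Q, ∃ Q' : Set W, Q' =ᶠ[𝓝 q] Q ∧ q ∈ Q' ∧ SmB Q' g C) : SmB Q g C := by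
  refine ⟨fun q hq => ?_, fun k q hq => ?_⟩
  · obtain ⟨Q', he, hq', h'⟩ := h q hq
    exact (contDiffWithinAt_congr_set he).1 (h'.smooth q hq')
  · obtain ⟨Q', he, hq', h'⟩ := h q hq
    rw [← iteratedFDerivWithin_congr_set he k]
    exact h'.bdd k q hq'

end Tools

namespace UAtlas

variable (A : UAtlas V E)

/-- joint bounds: from `ball 0 2` of every chart to `ball 0 3`. -/
theorem exists_SmST_of_ball2 (C : ℕ → ℝ) : ∃ C' : ℕ → ℝ, ∀ (I : Set ℝ) (u : ℝ → V → ℝ),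
    UniqueDiffOn ℝ I →
    (∀ i, SmB (I ×ˢ ball (0 : E) 2) (fun q : ℝ × E => u q.1 (A.Φ i q.2)) C) → A.SmST I u C' := by
  obtain ⟨C', hC'⟩ := exists_SmB_comp_gen' (W := ℝ × E) (W' := ℝ × E) (G := ℝ)
    (fun k => max 1 (A.Cτ k)) C
  refine ⟨C', fun I u hI h i => ?_⟩
  have hQ3 : UniqueDiffOn ℝ (I ×ˢ ball (0 : E) 3) := hI.prod isOpen_ball.uniqueDiffOn
  have hQ2 : UniqueDiffOn ℝ (I ×ˢ ball (0 : E) 2) := hI.prod isOpen_ball.uniqueDiffOn
  have hsm := A.contDiffOn_of_ball2 (fun i => (h i).smooth) i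
  refine ⟨hsm, fun k q hq => ?_⟩
  obtain ⟨j, hsub, hin⟩ := A.cover_cases i hq.2
  have hD := A.isOpen_locc q.2
  have hQD : UniqueDiffOn ℝ (I ×ˢ (ball q.2 A.rc ∩ ball (0 : E) 3)) := hI.prod hD.uniqueDiffOn
  have hτ : SmB (ball q.2 A.rc ∩ ball (0 : E) 3) (A.tr i j) A.Cτ :=
    SmB.of_isOpen hD hin.smooth fun k q hq => A.tr_bound i j k q (hsub hq)
  have hτ' := hτ.static hI hD
  have c1 : ContDiffOn ℝ ∞ (fun q : ℝ × E => q.1) (I ×ˢ (ball q.2 A.rc ∩ ball (0 : E) 3)) :=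
    contDiffOn_fst
  have h1 : SmB (I ×ˢ (ball q.2 A.rc ∩ ball (0 : E) 3))
      (fun p : ℝ × E => u p.1 (A.Φ j (A.tr i j p.2))) C' := by
    refine hC' _ _ (fun p : ℝ × E => ((p.1, A.tr i j p.2) : ℝ × E))
      (fun p : ℝ × E => u p.1 (A.Φ j p.2)) hQD hQ2 (fun p hp => ⟨hp.1, hin.maps hp.2⟩)
      (c1.prodMk hτ'.smooth) (fun k hk p hp => ?_) (h j)
    rw [iteratedFDerivWithin_prodMk (c1 p hp) (hτ'.smooth p hp) hQD hp (by exact_mod_cast le_top),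
      ContinuousMultilinearMap.opNorm_prod]
    exact max_le_max (norm_iteratedFDerivWithin_clm_le_one hQD (ContinuousLinearMap.fst ℝ ℝ E)
      (ContinuousLinearMap.norm_fst_le ℝ ℝ E) hk hp) (hτ'.bdd k p hp)
  have h2 : SmB (I ×ˢ (ball q.2 A.rc ∩ ball (0 : E) 3)) (fun p : ℝ × E => u p.1 (A.Φ i p.2)) C' :=
    h1.congr fun p hp => by rw [A.Φ_tr (hsub hp.2)]
  have hq' : q ∈ I ×ˢ (ball q.2 A.rc ∩ ball (0 : E) 3) := ⟨hq.1, A.mem_locc hq.2⟩
  rw [← iteratedFDerivWithin_subset (Set.prod_mono subset_rfl inter_subset_right) hQD hQ3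
    (hsm.of_le (by exact_mod_cast le_top)) hq']
  exact h2.bdd k q hq'

theorem SmST.congr {I : Set ℝ} {u u' : ℝ → V → ℝ} {C : ℕ → ℝ} (h : A.SmST I u C)
    (he : ∀ t ∈ I, ∀ x ∈ A.X, u' t x = u t x) : A.SmST I u' C :=
  fun i => (h i).congr (fun q hq => he q.1 hq.1 _ (A.maps i hq.2))

/-- time slices. -/
theorem SmST.slice {T : ℝ} (hT : 0 < T) {u : ℝ → V → ℝ} {C : ℕ → ℝ} (h : A.SmST (Icc 0 T) u C)
    {t : ℝ} (ht : t ∈ Icc 0 T) : A.SmM (u t) C :=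
  fun i => SmB.slice (uniqueDiffOn_Icc hT) isOpen_ball (h i) ht

/-- the time derivative. -/
theorem SmST.dt {T : ℝ} (hT : 0 < T) {u ut : ℝ → V → ℝ} {C : ℕ → ℝ} (h : A.SmST (Icc 0 T) u C)
    (hd : ∀ t ∈ Icc 0 T, ∀ x ∈ A.X, HasDerivWithinAt (fun s => u s x) (ut t x) (Icc 0 T) t) :
    A.SmST (Icc 0 T) ut (fun k => C (k + 1)) := by
  intro i
  have hI : UniqueDiffOn ℝ (Icc (0 : ℝ) T) := uniqueDiffOn_Icc hT
  obtain ⟨ft, hft, hdt⟩ := SmB.exists_dt hI isOpen_ball (h i)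
  refine hft.congr (fun q hq => ?_)
  exact (hI q.1 hq.1).eq_deriv _ (hd q.1 hq.1 _ (A.maps i hq.2)) (hdt q.1 hq.1 q.2 hq.2)

/-- smooth with bounds implies `C21M` and `XM`. -/
theorem exists_XM_of_SmST (α : ℝ) (C : ℕ → ℝ) (hα : 0 < α) (hα1 : α ≤ 1) : ∃ K : ℝ, 0 ≤ K ∧
    ∀ (T : ℝ) (u ut : ℝ → V → ℝ), 0 < T → A.SmST (Icc 0 T) u C →
      (∀ t ∈ Icc 0 T, ∀ x ∈ A.X, HasDerivWithinAt (fun s => u s x) (ut t x) (Icc 0 T) t) →
      A.C21M (Icc 0 T) u ut ∧ A.XM α (Icc 0 T) u ut K := by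
  refine ⟨|C 0| + 2 * |C 1| + 2 * |C 2| + |C 3|, by positivity, ?_⟩
  intro T u ut hT h hd
  have hI : UniqueDiffOn ℝ (Icc (0 : ℝ) T) := uniqueDiffOn_Icc hT
  have a0 := abs_nonneg (C 0)
  have a1 := abs_nonneg (C 1)
  have a2 := abs_nonneg (C 2)
  have a3 := abs_nonneg (C 3)
  have b0 := le_abs_self (C 0)
  have b1 := le_abs_self (C 1)
  have b2 := le_abs_self (C 2)
  have b3 := le_abs_self (C 3)
  refine ⟨fun i => C21_of_smooth hT isOpen_ball (h i).smooth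
    (fun t ht x hx => hd t ht _ (A.maps i hx)), fun i => ?_⟩
  have h1 : SmB (Icc 0 T ×ˢ ball (0 : E) 3) (fun q : ℝ × E => D1 (A.rep i u) q.1 q.2)
      (fun k => C (k + 1)) := SmB.fderiv_snd hI isOpen_ball (h i)
  have h2 : SmB (Icc 0 T ×ˢ ball (0 : E) 3) (fun q : ℝ × E => D2 (A.rep i u) q.1 q.2)
      (fun k => C (k + 1 + 1)) := SmB.fderiv_snd hI isOpen_ball h1
  have ht : SmB (Icc 0 T ×ˢ ball (0 : E) 3) (fun q : ℝ × E => A.rep i ut q.1 q.2)
      (fun k => C (k + 1)) := SmST.dt A hT h hd i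
  have y2 := h2.YB (f := D2 (A.rep i u)) hI isOpen_ball (convex_ball _ _) hα hα1
  have yt := ht.YB (f := A.rep i ut) hI isOpen_ball (convex_ball _ _) hα hα1
  refine ⟨fun t ht' x hx => ?_, fun t ht' x hx => ?_, fun t ht' => (y2.sup t ht').mono ?_,
    fun t ht' => (yt.sup t ht').mono ?_, fun t ht' => (y2.hol t ht').mono ?_,
    fun t ht' => (yt.hol t ht').mono ?_⟩
  · have := (h i).norm_le (q := (t, x)) ⟨ht', hx⟩
    exact this.trans (by linarith)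
  · have := h1.norm_le (q := (t, x)) ⟨ht', hx⟩
    exact this.trans (by linarith)
  · show 2 * C 2 + C 3 ≤ _
    linarith
  · show 2 * C 1 + C 2 ≤ _
    linarith
  · show 2 * C 2 + C 3 ≤ _
    linarith
  · show 2 * C 1 + C 2 ≤ _
    linarith

/-- restriction to a shorter time interval and time shift. -/
theorem SmST.shift {T a b : ℝ} (hT : 0 < T) (ha : 0 ≤ a) (hab : a < b) (hb : b ≤ T) {u : ℝ → V → ℝ}
    {C : ℕ → ℝ} (h : A.SmST (Icc 0 T) u C) : A.SmST (Icc 0 (b - a)) (fun s => u (a + s)) C := by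
  intro i
  have h1 : SmB (Icc a b ×ˢ ball (0 : E) 3) (fun q : ℝ × E => u q.1 (A.Φ i q.2)) C :=
    (h i).subset ((uniqueDiffOn_Icc hT).prod isOpen_ball.uniqueDiffOn)
      ((uniqueDiffOn_Icc hab).prod isOpen_ball.uniqueDiffOn)
      (Set.prod_mono (Icc_subset_Icc ha hb) subset_rfl)
  refine (h1.comp_add_left ((a, 0) : ℝ × E) (Q' := Icc 0 (b - a) ×ˢ ball (0 : E) 3)
    (fun z => ?_)).congr (fun q _ => ?_)
  · simp only [mem_prod, mem_Icc, Prod.fst_add, Prod.snd_add, zero_add]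
    constructor
    · rintro ⟨⟨h1, h2⟩, h3⟩
      exact ⟨⟨by linarith, by linarith⟩, h3⟩
    · rintro ⟨⟨h1, h2⟩, h3⟩
      exact ⟨⟨by linarith, by linarith⟩, h3⟩
  · simp

/-- sum of a static function and a time shifted function; two overlapping time intervals. -/
theorem SmST.union {a b b' c : ℝ} (h1 : a ≤ b') (h2 : b' < b) (h3 : b ≤ c) {u : ℝ → V → ℝ}
    {C : ℕ → ℝ} (h : A.SmST (Icc a b) u C) (h' : A.SmST (Icc b' c) u C) : A.SmST (Icc a c) u C := by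
  intro i
  refine SmB.of_local (fun q hq => ?_)
  rcases lt_or_ge q.1 b with hlt | hge
  · refine ⟨Icc a b ×ˢ ball (0 : E) 3, ?_, ⟨⟨hq.1.1, hlt.le⟩, hq.2⟩, h i⟩
    have hn : (Iio b : Set ℝ) ×ˢ (univ : Set E) ∈ 𝓝 q :=
      (isOpen_Iio.prod isOpen_univ).mem_nhds ⟨hlt, mem_univ _⟩
    filter_upwards [hn] with p hp
    have hp1 : p.1 < b := hp.1
    apply propext
    show p ∈ Icc a b ×ˢ ball (0 : E) 3 ↔ p ∈ Icc a c ×ˢ ball (0 : E) 3
    constructor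
    · rintro ⟨⟨x1, x2⟩, x3⟩
      exact ⟨⟨x1, x2.trans h3⟩, x3⟩
    · rintro ⟨⟨x1, x2⟩, x3⟩
      exact ⟨⟨x1, hp1.le⟩, x3⟩
  · refine ⟨Icc b' c ×ˢ ball (0 : E) 3, ?_, ⟨⟨(h2.trans_le hge).le, hq.1.2⟩, hq.2⟩, h' i⟩
    have hn : (Ioi b' : Set ℝ) ×ˢ (univ : Set E) ∈ 𝓝 q :=
      (isOpen_Ioi.prod isOpen_univ).mem_nhds ⟨h2.trans_le hge, mem_univ _⟩
    filter_upwards [hn] with p hp
    have hp1 : b' < p.1 := hp.1
    apply propext
    show p ∈ Icc b' c ×ˢ ball (0 : E) 3 ↔ p ∈ Icc a c ×ˢ ball (0 : E) 3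
    constructor
    · rintro ⟨⟨x1, x2⟩, x3⟩
      exact ⟨⟨h1.trans x1, x2⟩, x3⟩
    · rintro ⟨⟨x1, x2⟩, x3⟩
      exact ⟨⟨hp1.le, x2⟩, x3⟩

theorem SmST.add_static {a T : ℝ} (hT : 0 < T) {u : ℝ → V → ℝ} {g : V → ℝ} {C C' : ℕ → ℝ}
    (h : A.SmST (Icc 0 T) u C) (hg : A.SmM g C') :
    A.SmST (Icc a (a + T)) (fun t x => g x + u (t - a) x) (fun k => C k + C' k) := by
  intro i
  have hI : UniqueDiffOn ℝ (Icc a (a + T)) := uniqueDiffOn_Icc (by linarith)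
  have hQ : UniqueDiffOn ℝ (Icc a (a + T) ×ˢ ball (0 : E) 3) := hI.prod isOpen_ball.uniqueDiffOn
  have h1 : SmB (Icc a (a + T) ×ˢ ball (0 : E) 3) (fun q : ℝ × E => u (q.1 - a) (A.Φ i q.2)) C := by
    refine ((h i).comp_add_left ((-a, 0) : ℝ × E) (Q' := Icc a (a + T) ×ˢ ball (0 : E) 3)
      (fun z => ?_)).congr (fun q _ => ?_)
    · simp only [mem_prod, mem_Icc, Prod.fst_add, Prod.snd_add, zero_add]
      constructor
      · rintro ⟨⟨h1, h2⟩, h3⟩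
        exact ⟨⟨by linarith, by linarith⟩, h3⟩
      · rintro ⟨⟨h1, h2⟩, h3⟩
        exact ⟨⟨by linarith, by linarith⟩, h3⟩
    · simp [sub_eq_neg_add]
  have h2 : SmB (Icc a (a + T) ×ˢ ball (0 : E) 3) (fun q : ℝ × E => g (A.Φ i q.2)) C' :=
    SmB.static hI isOpen_ball (hg i)
  exact (h1.add h2 hQ).congr (fun q _ => add_comm _ _)

/-- **M7 on the manifold.** -/
theorem exists_reg (α δ δ' lam K Tm : ℝ) (CF : ℕ → ℝ) (hα : 0 < α) (hα1 : α < 1) (hδ : δ' < δ)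
    (hlam : 0 < lam) (hTm : 0 < Tm) : ∃ C : ℕ → ℝ,
    ∀ (T₀ T : ℝ) (F : A.ι → ℝ → E → Jet E → ℝ) (u ut : ℝ → V → ℝ), 0 < T → T ≤ T₀ → T ≤ Tm →
      A.NLHyp T₀ δ lam CF F → A.C21M (Icc 0 T) u ut → A.XM α (Icc 0 T) u ut K →
      A.JetLe (Icc 0 T) u δ' → (∀ x ∈ A.X, u 0 x = 0) → A.SolN (Icc 0 T) F u ut →
      A.SmST (Icc 0 T) u C := by
  obtain ⟨C₁, hC₁⟩ := exists_reg_local (E := E) α δ δ' lam K Tm CF (fun _ => 0) hα hα1 hδ hlam hTm
  obtain ⟨C₂, hC₂⟩ := A.exists_SmST_of_ball2 C₁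
  refine ⟨C₂, ?_⟩
  intro T₀ T F u ut hT hTT₀ hTTm hF hu hX hj hu0 hsol
  have hI : UniqueDiffOn ℝ (Icc (0 : ℝ) T) := uniqueDiffOn_Icc hT
  have hI₀ : UniqueDiffOn ℝ (Icc (0 : ℝ) T₀) := uniqueDiffOn_Icc (hT.trans_le hTT₀)
  have hsub : Icc (0 : ℝ) T ⊆ Icc (0 : ℝ) T₀ := Icc_subset_Icc le_rfl hTT₀
  refine hC₂ (Icc 0 T) u hI (fun i => ?_)
  have hFi : SmF (Icc 0 T₀) 3 δ (F i) CF := hF.smooth i
  have h0 : SmB (ball (0 : E) 3) (A.rep i u 0) (fun _ => 0) := by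
    have hz : SmB (ball (0 : E) 3) (fun _ : E => (0 : ℝ)) (fun _ => 0) := by
      refine ⟨contDiffOn_const, fun k q _ => ?_⟩
      rcases k with _ | k
      · rw [norm_iteratedFDerivWithin_zero, norm_zero]
      · rw [iteratedFDerivWithin_succ_const]
        simp
    exact hz.congr (fun q hq => hu0 _ (A.maps i hq))
  exact hC₁ T (F i) (A.rep i u) (A.rep i ut) hT hTTm (hFi.subset hI₀ hI hsub le_rfl le_rfl)
    (fun t ht z hz J hJ ξ => hF.ell i t (hsub ht) z hz J hJ ξ) (hu i) (hX i) (hj i) h0 (hsol i)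

/-! ### linear equations with smooth coefficients -/

theorem exists_NLHyp_lin (δ lam : ℝ) (CP Cf : ℕ → ℝ) : ∃ CF : ℕ → ℝ,
    ∀ (T : ℝ) (P : A.ι → Op E) (f : ℝ → V → ℝ), 0 < T → A.CompatL (Icc 0 T) P →
      A.SmL (Icc 0 T) P CP → A.EllL (Icc 0 T) lam P → A.SmST (Icc 0 T) f Cf →
      A.NLHyp T δ lam CF (fun i t z J => P i t z J + f t (A.Φ i z)) := by
  obtain ⟨CF, hCF⟩ := exists_SmB_lin (E := E) δ CP Cf
  refine ⟨CF, fun T P f hT hc hs he hf => ⟨?_, ?_, ?_⟩⟩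
  · intro i j t ht z hz J _ _
    show P i t z (A.pull i j z J) + f t (A.Φ i z) = P j t (A.tr i j z) J + f t (A.Φ j (A.tr i j z))
    rw [hc i j t ht z hz J, A.Φ_tr hz]
  · intro i
    exact hCF (Icc 0 T) (ball (0 : E) 3) (P i) (fun t z => f t (A.Φ i z)) (uniqueDiffOn_Icc hT)
      isOpen_ball (hs i) (hf i)
  · intro i t ht z hz J _ ξ
    have h1 : HasFDerivAt (fun J : Jet E => P i t z J + f t (A.Φ i z)) (P i t z) J :=
      (P i t z).hasFDerivAt.add_const _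
    rw [h1.fderiv]
    exact he i t ht z hz ξ

theorem exists_AdmM_of_SmL (α lam : ℝ) (CP : ℕ → ℝ) (hα : 0 < α) (hα1 : α ≤ 1) : ∃ M : ℝ, 0 ≤ M ∧
    ∀ (T : ℝ) (P : A.ι → Op E), 0 < T → A.SmL (Icc 0 T) P CP → A.EllL (Icc 0 T) lam P →
      A.AdmM (Icc 0 T) α 1 lam M P := by
  obtain ⟨M, hM, h⟩ := exists_adm_of_SmB (E := E) α lam CP hα hα1
  exact ⟨M, hM, fun T P hT hs he i =>
    h T (ball (0 : E) 3) (P i) hT isOpen_ball (convex_ball _ _) (hs i) (he i)⟩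

theorem exists_YM_of_SmST (α : ℝ) (C : ℕ → ℝ) (hα : 0 < α) (hα1 : α ≤ 1) : ∃ K : ℝ, 0 ≤ K ∧
    ∀ (I : Set ℝ) (f : ℝ → V → ℝ), UniqueDiffOn ℝ I → A.SmST I f C → A.YM α I f K := by
  refine ⟨max (2 * C 0 + C 1) 0, le_max_right _ _, fun I f hI hf i => ?_⟩
  exact ((hf i).YB (f := A.rep i f) hI isOpen_ball (convex_ball _ _) hα hα1).mono (le_max_left _ _)

/-- **M5 + M7: the linear Cauchy problem with smooth data and zero initial values has a solution with all derivatives bounded.** -/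
theorem exists_lin_smooth {T lam : ℝ} {CP Cf : ℕ → ℝ} (hT : 0 < T) (hlam : 0 < lam) {P : A.ι → Op E}
    (hc : A.CompatL (Icc 0 T) P) (hs : A.SmL (Icc 0 T) P CP) (he : A.EllL (Icc 0 T) lam P)
    {f : ℝ → V → ℝ} (hf : A.SmST (Icc 0 T) f Cf) :
    ∃ u ut : ℝ → V → ℝ, (∃ C, A.SmST (Icc 0 T) u C) ∧ (∀ x ∈ A.X, u 0 x = 0) ∧
      (∀ t ∈ Icc 0 T, ∀ x ∈ A.X, HasDerivWithinAt (fun s => u s x) (ut t x) (Icc 0 T) t) ∧
      A.SolL (Icc 0 T) P u ut f := by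
  have hα : (0 : ℝ) < 1 / 2 := by norm_num
  have hα1 : (1 / 2 : ℝ) < 1 := by norm_num
  obtain ⟨M, hM, hAdm⟩ := A.exists_AdmM_of_SmL (1 / 2) lam CP hα hα1.le
  obtain ⟨Kf, hKf, hY⟩ := A.exists_YM_of_SmST (1 / 2) Cf hα hα1.le
  obtain ⟨Cs, hCs, hsolve⟩ := A.exists_lin_solve (1 / 2) 1 lam M T hα hα1 one_pos hlam hM hT
  have hg : A.C2aM (1 / 2) (fun _ => (0 : ℝ)) Kf := by
    intro i
    have h0 : A.rep0 i (fun _ : V => (0 : ℝ)) = fun _ => (0 : ℝ) := rfl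
    rw [h0]
    refine ⟨contDiffOn_const, fun x _ => by simpa using hKf, fun x _ => by simpa using hKf,
      fun x _ => ?_, fun x _ y _ => ?_⟩
    · have : fderiv ℝ (fun _ : E => (0 : ℝ)) = fun _ => 0 := by funext y; simp
      simpa [this] using hKf
    · have : fderiv ℝ (fun _ : E => (0 : ℝ)) = fun _ => 0 := by funext y; simp
      simp only [this, fderiv_fun_const, Pi.zero_apply, sub_self, norm_zero]
      positivity
  obtain ⟨u, ut, hu, hX, h0, hsol⟩ := hsolve T P f (fun _ => 0) Kf hT le_rfl hKf hc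
    (hAdm T P hT hs he) (hY _ f (uniqueDiffOn_Icc hT) hf) hg
  have hK : 0 ≤ Cs * Kf := by positivity
  obtain ⟨CF, hCF⟩ := A.exists_NLHyp_lin (Cs * Kf + 1) lam CP Cf
  obtain ⟨Cr, hCr⟩ := A.exists_reg (1 / 2) (Cs * Kf + 1) (Cs * Kf) lam (Cs * Kf) T CF hα hα1
    (by linarith) hlam hT
  refine ⟨u, ut, ⟨Cr, ?_⟩, fun x _ => h0 x, ?_, hsol⟩
  · refine hCr T T _ u ut hT le_rfl le_rfl (hCF T P f hT hc hs he hf) hu hX
      (fun i t ht z hz => (hX i).jet_sup t ht z hz) (fun x _ => h0 x) ?_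
    intro i t ht z hz
    have := hsol i t ht z hz
    simp only [Lop] at this
    have h2 : A.rep i f t z = f t (A.Φ i z) := rfl
    linarith
  · intro t ht x hx
    obtain ⟨i, z, hz, rfl⟩ := A.cover x hx
    exact (hu i).dt t ht z (ball_subset_ball (by norm_num) hz)

end UAtlas

end Claimed.Agent.R316.B8M
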