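import Claimed.Agent.R316.B8M.RegDefs

/-!
# B8M-REG (M7), the PDE step: one spatial derivative of a solution of `u_t = F(t,x,jet u)`, with bounds

Everything on `Icc 0 T × ball x₀ R`, `R ≤ 1`, `T ≤ Tm`; all constants are chosen BEFORE `T, x₀, F, u, e, h`.

`F1B α γ δ lam M I S F DF`: `F(t,·,·)` is differentiable in `(x,J)` on `S × ball 0 δ` with derivative `DF`, `‖DF‖ ≤ M`, `DF` is `α`-Hölder in `x` and Lipschitz in `J`, continuous in all variables, its top order part is `γ`-Hölder in time,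
and `F` is parabolic.  It covers the smooth fully nonlinear case (`exists_F1B_of_SmF`) and the linear case `F = P J + f`, `P, f ∈ Y^1` (`exists_F1B_of_linear`).

LEAVES (proofs only):
* B8M-REG-F1B = `linDF_apply`, `exists_F1B_of_SmF`, `exists_F1B_of_linear`, `exists_jet_time_ball`;
* B8M-REG-COEF = `exists_dq_coef`;
* B8M-REG-DQB = `exists_dq_bound`;
* B8M-REG-D1 = `exists_first_deriv`.

Recipes.
* `exists_F1B_of_SmF`: `SmF.differentiableAt_zJ`, `SmF.fderiv_zJ` (constants `CF (· + 1)`), `SmF.norm_le`, `SmF.lip` (for `DF`: constant `CF 2`); `‖x - y‖ ≤ 6 ‖x - y‖^α` on `ball 0 3`; `max a b ≤ a + b`; `ell`: `SmF.fderiv_zJ_apply` with `e = 0`.  `M = |CF 1| + 6 |CF 2|`.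
* `exists_F1B_of_linear`: `‖fderiv ℝ (P t) x‖ ≤ M` from `‖De e P t x‖ ≤ M`, `‖e‖ ≤ 1` (`ContinuousLinearMap.opNorm_le_of_unit_norm`/`opNorm_le_of_ball`), the same for differences; continuity of `(t,x) ↦ fderiv ℝ (P t) x` by `continuousOn_clm_apply`;
  `HasFDerivAt` of `(x,J) ↦ P t x J` : `HasFDerivAt.clm_apply`.  `M' = M (3 + |δ|)`-type constant.
* `exists_jet_time_ball`: `g = u t - u s`: `|g| ≤ K τ`, `τ = |t - s|` (`XB.u_time`), `[D²g]_α ≤ 2K`; `B8.interp_jet_ball` with `ρ' = c τ^{1/(2+α)}`, `c = min 1 (ρ/2) / Tm^{1/(2+α)}`: `‖jet g‖ ≤ K τ^{α/(2+α)} (18/c² + 8 c^α)`; `jet g = jet u t - jet u s` (`B8.jet_sub`).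
* `exists_dq_coef`: `J σ t x = (1-σ) • jet u t x + σ • jet u t (x + h e)` (norm `≤ δ'`), `𝔇 t x = ∫ σ in 0..1, DF t (x + (σ h) • e) (J σ t x)` (Bochner integral in the finite dimensional space `(E × Jet E) →L[ℝ] ℝ`; the integrand is continuous).
  IDENTITY: `φ σ = F t (x + σ h e) (J σ t x)` has derivative `DF(…)(h e, jet u t (x+he) - jet u t x)`; `intervalIntegral.integral_eq_sub_of_hasDerivAt`, `ContinuousLinearMap.intervalIntegral_apply`-type lemma (`ContinuousLinearMap.integral_apply`/`intervalIntegral_comp_comm` with the evaluation map),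
  `B8.jet_dq`.  BOUNDS: `intervalIntegral.norm_integral_le_of_norm_le_const`: sup `≤ M`; Hölder: `M (1 + 3K) ‖x-y‖^α` (`XB.jet_hol` on the convex ball `ball x₀ R`); ellipticity: integrate the inequality (`intervalIntegral.integral_mono_on`) or
  `lam ‖ξ‖² = ∫ lam ‖ξ‖² ≤ ∫ DF(…)(0, topJ (sqB ξ))`.  TIME: `exists_jet_time_ball` with `r = 3R/4`, `ρ = R/4`; `γ' = min γ (α/(2+α))`, `τ^γ ≤ max 1 Tm ^ γ · τ^{γ'}`-type inequality for `τ ≤ Tm`.  CONTINUITY in `(t,x)`: `intervalIntegral.continuousWithinAt_of_dominated_interval`.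
* `exists_dq_bound`: `B8.schauder_local` with radius `R/2`, `P = 𝔇 ∘ inr`, `U = dq h e u`: `C21.dq`, `XB.dq_finite` (finite norms), `Lop P U U_t = 𝔇 (e, 0)` (`YB.clm_apply` with a constant vector, norm `≤ 2 M'`), `sup |U| ≤ K` (`dq_YB` or the mean value inequality),
  `U 0 = dq h e (fun _ => u 0) 0`: `jet (dq …) = dq (jet …)` (`B8.jet_dq`), `De e (jet g) = jet (De e g)` (`B8.De_jet`; `g = u 0` is `C³` because all `x ↦ Dg x e` are `C²`), `B8.dq_YB` with `φ = jet (fun _ => g)`: `C2aB` bound `3G`.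
* `exists_first_deriv`: `B8.dq_limit` with `r = h₀ = R/8`: `De e u ∈ C21 ∩ XB` with time derivative `Wt`.  All `De e (u t)`, `‖e‖ ≤ 1`, are `C²` so `u t` is `C³` on the ball (`contDiffOn_succ_iff_fderiv_of_isOpen`, `contDiffOn_clm_apply`), so `jet u t` is differentiable with
  `De e (jet u) = jet (De e u)` (`B8.De_jet`); chain rule in `ut t x = F t x (jet u t x)` (`F1B.hd`): `ut t` is differentiable and `De e ut = DF (jet u)(e, jet (De e u))`.  `Wt = De e ut` (`B8.dq_tendsto`, uniqueness of limits), `C21.congr`, `XB.congr`.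
-/

set_option autoImplicit false
set_option maxSynthPendingDepth 3
set_option linter.unusedSectionVars false
set_option linter.unusedVariables false

open scoped Topology ContDiff
open Set Filter Metric

namespace Claimed.Agent.R316.B8M

open Claimed.Agent.R316.B8

variable {E : Type} [NormedAddCommGroup E] [InnerProductSpace ℝ E] [FiniteDimensional ℝ E]

/-- `C^{1}` structure conditions for `F(t,x,J)`. -/
structure F1B (α γ δ lam M : ℝ) (I : Set ℝ) (S : Set E) (F : ℝ → E → Jet E → ℝ)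
    (DF : ℝ → E → Jet E → (E × Jet E) →L[ℝ] ℝ) : Prop where
  hd : ∀ t ∈ I, ∀ x ∈ S, ∀ J ∈ ball (0 : Jet E) δ,
    HasFDerivAt (fun p : E × Jet E => F t p.1 p.2) (DF t x J) (x, J)
  bdd : ∀ t ∈ I, ∀ x ∈ S, ∀ J ∈ ball (0 : Jet E) δ, ‖DF t x J‖ ≤ M
  hol : ∀ t ∈ I, ∀ x ∈ S, ∀ y ∈ S, ∀ J ∈ ball (0 : Jet E) δ, ∀ J' ∈ ball (0 : Jet E) δ,
    ‖DF t x J - DF t y J'‖ ≤ M * (‖x - y‖ ^ α + ‖J - J'‖)
  cont : ContinuousOn (fun q : ℝ × E × Jet E => DF q.1 q.2.1 q.2.2)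
    (I ×ˢ S ×ˢ ball (0 : Jet E) δ)
  time : ∀ t ∈ I, ∀ s ∈ I, ∀ x ∈ S, ∀ J ∈ ball (0 : Jet E) δ, ∀ J' ∈ ball (0 : Jet E) δ,
    ∀ B : Bil E, |DF t x J (0, topJ B) - DF s x J' (0, topJ B)|
      ≤ M * (|t - s| ^ γ + ‖J - J'‖) * ‖B‖
  ell : ∀ t ∈ I, ∀ x ∈ S, ∀ J ∈ ball (0 : Jet E) δ, ∀ ξ : E →L[ℝ] ℝ,
    lam * ‖ξ‖ ^ 2 ≤ DF t x J (0, topJ (sqB ξ))

/-- the derivative in `(x,J)` of `P t x J + f t x`. -/
noncomputable def linDF (P : Op E) (f : ℝ → E → ℝ) (t : ℝ) (x : E) (J : Jet E) :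
    (E × Jet E) →L[ℝ] ℝ :=
  ((fderiv ℝ (P t) x).flip J + fderiv ℝ (f t) x).comp (ContinuousLinearMap.fst ℝ E (Jet E))
    + (P t x).comp (ContinuousLinearMap.snd ℝ E (Jet E))

theorem linDF_apply (P : Op E) (f : ℝ → E → ℝ) (t : ℝ) (x : E) (J : Jet E) (e : E) (J' : Jet E) :
    linDF P f t x J (e, J') = De e P t x J + De e f t x + P t x J' := by
  simp [linDF, De]

/-- the smooth fully nonlinear case (`γ = 1`). -/
theorem exists_F1B_of_SmF (α lam : ℝ) (CF : ℕ → ℝ) (hα : 0 < α) (hα1 : α ≤ 1) : ∃ M : ℝ, 0 ≤ M ∧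
    ∀ (T δ : ℝ) (S : Set E) (F : ℝ → E → Jet E → ℝ), 0 < T → S ⊆ ball (0 : E) 3 →
      SmF (Icc 0 T) 3 δ F CF →
      (∀ t ∈ Icc 0 T, ∀ z ∈ ball (0 : E) 3, ∀ J ∈ ball (0 : Jet E) δ, ∀ ξ : E →L[ℝ] ℝ,
        lam * ‖ξ‖ ^ 2 ≤ fderiv ℝ (F t z) J (topJ (sqB ξ))) →
      F1B α 1 δ lam M (Icc 0 T) S F
        (fun t x J => fderiv ℝ (fun p : E × Jet E => F t p.1 p.2) (x, J)) := by
  refine ⟨|CF 1| + 6 * |CF 2|, by positivity, ?_⟩
  intro T δ S F hT hS hF hell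
  have hI : UniqueDiffOn ℝ (Icc (0 : ℝ) T) := uniqueDiffOn_Icc hT
  have hD := hF.fderiv_zJ hI
  have a1 := abs_nonneg (CF 1)
  have a2 := abs_nonneg (CF 2)
  have l1 := le_abs_self (CF 1)
  have l2 := le_abs_self (CF 2)
  refine ⟨fun t ht x hx J hJ => (hF.differentiableAt_zJ ht (hS hx) hJ).hasFDerivAt,
    fun t ht x hx J hJ => ?_, fun t ht x hx y hy J hJ J' hJ' => ?_, ?_,
    fun t ht s hs x hx J hJ J' hJ' B => ?_, fun t ht x hx J hJ ξ => ?_⟩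
  · have := hD.norm_le ht (hS hx) hJ
    simp only [zero_add] at this
    linarith
  · have h1 := hD.lip (convex_Icc 0 T) ht ht (hS hx) (hS hy) hJ hJ'
    have h2 := norm_sub_le_six_rpow hα hα1 (hS hx) (hS hy)
    have hr : 0 ≤ ‖x - y‖ ^ α := Real.rpow_nonneg (norm_nonneg _) _
    have hj : 0 ≤ ‖J - J'‖ := norm_nonneg _
    have h3 : max |t - t| (max ‖x - y‖ ‖J - J'‖) ≤ 6 * ‖x - y‖ ^ α + ‖J - J'‖ := by
      rw [sub_self, abs_zero]
      refine max_le (by positivity) (max_le (by linarith) (by linarith))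
    have h4 : (0 : ℝ) ≤ max |t - t| (max ‖x - y‖ ‖J - J'‖) := le_max_of_le_left (abs_nonneg _)
    refine h1.trans ?_
    calc CF (1 + 1) * max |t - t| (max ‖x - y‖ ‖J - J'‖)
        ≤ |CF 2| * (6 * ‖x - y‖ ^ α + ‖J - J'‖) := by
          refine (mul_le_mul_of_nonneg_right l2 h4).trans (mul_le_mul_of_nonneg_left h3 a2)
      _ ≤ (|CF 1| + 6 * |CF 2|) * (‖x - y‖ ^ α + ‖J - J'‖) := by
          nlinarith [mul_nonneg a1 hr, mul_nonneg a1 hj, mul_nonneg a2 hj]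
  · exact hD.continuousOn.mono (prod_mono subset_rfl (prod_mono hS subset_rfl))
  · have h1 := hD.lip (convex_Icc 0 T) ht hs (hS hx) (hS hx) hJ hJ'
    have hj : 0 ≤ ‖J - J'‖ := norm_nonneg _
    have ht' : 0 ≤ |t - s| := abs_nonneg _
    have h3 : max |t - s| (max ‖x - x‖ ‖J - J'‖) ≤ |t - s| + ‖J - J'‖ := by
      rw [sub_self, norm_zero]
      refine max_le (by linarith) (max_le (by positivity) (by linarith))
    have h4 : (0 : ℝ) ≤ max |t - s| (max ‖x - x‖ ‖J - J'‖) := le_max_of_le_left (abs_nonneg _)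
    have h5 : ‖fderiv ℝ (fun p : E × Jet E => F t p.1 p.2) (x, J)
        - fderiv ℝ (fun p : E × Jet E => F s p.1 p.2) (x, J')‖
        ≤ (|CF 1| + 6 * |CF 2|) * (|t - s| + ‖J - J'‖) := by
      refine h1.trans ?_
      calc CF (1 + 1) * max |t - s| (max ‖x - x‖ ‖J - J'‖)
          ≤ |CF 2| * (|t - s| + ‖J - J'‖) :=
            (mul_le_mul_of_nonneg_right l2 h4).trans (mul_le_mul_of_nonneg_left h3 a2)
        _ ≤ (|CF 1| + 6 * |CF 2|) * (|t - s| + ‖J - J'‖) := by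
            nlinarith [mul_nonneg a1 ht', mul_nonneg a1 hj, mul_nonneg a2 hj, mul_nonneg a2 ht']
    rw [Real.rpow_one, ← _root_.sub_apply, ← Real.norm_eq_abs]
    have h6 : ‖((0 : E), topJ B)‖ = ‖B‖ := by
      rw [Prod.norm_mk, norm_zero, norm_topJ]
      exact max_eq_right (norm_nonneg _)
    calc _ ≤ _ * ‖((0 : E), topJ B)‖ := ContinuousLinearMap.le_opNorm _ _
      _ ≤ (|CF 1| + 6 * |CF 2|) * (|t - s| + ‖J - J'‖) * ‖B‖ := by
          rw [h6]; exact mul_le_mul_of_nonneg_right h5 (norm_nonneg _)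
  · rw [hF.fderiv_zJ_apply ht (hS hx) hJ, map_zero, zero_add]
    exact hell t ht x (hS hx) J hJ ξ

/-- bounds for all directional derivatives (unit directions) give bounds for the derivative. -/
theorem YB_fderiv_of_De {G : Type} [NormedAddCommGroup G] [NormedSpace ℝ G] {α M : ℝ} {I : Set ℝ}
    {S : Set E} {φ : ℝ → E → G} (h : ∀ e : E, ‖e‖ ≤ 1 → YB α I S (De e φ) M) :
    YB α I S (fun t x => fderiv ℝ (φ t) x) M := by
  refine ⟨?_, fun t ht x hx => ?_, fun t ht x hx y hy => ?_⟩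
  · rw [continuousOn_clm_apply]
    intro e
    have h1 := (h (‖e‖⁻¹ • e) (by
      rw [norm_smul, norm_inv, norm_norm]
      exact inv_mul_le_one)).cont.const_smul ‖e‖
    refine h1.congr fun q _ => ?_
    simp only [De, Pi.smul_apply]
    rw [← map_smul, smul_smul]
    by_cases he : e = 0
    · simp [he]
    · rw [mul_inv_cancel₀ (norm_ne_zero_iff.mpr he), one_smul]
  · have hM : 0 ≤ M := (norm_nonneg _).trans ((h 0 (by simp)).sup t ht x hx)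
    exact ContinuousLinearMap.opNorm_le_of_unit_norm hM fun e he => (h e he.le).sup t ht x hx
  · have hM : 0 ≤ M := (norm_nonneg _).trans ((h 0 (by simp)).sup t ht x hx)
    refine ContinuousLinearMap.opNorm_le_of_unit_norm
      (mul_nonneg hM (Real.rpow_nonneg (norm_nonneg _) _)) fun e he => ?_
    rw [_root_.sub_apply]
    exact (h e he.le).hol t ht x hx y hy

theorem linDF_top (P : Op E) (f : ℝ → E → ℝ) (t : ℝ) (x : E) (J : Jet E) (B : Bil E) :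
    linDF P f t x J (0, topJ B) = P t x (topJ B) := by
  rw [linDF_apply]
  simp [De]

theorem linDF_hasFDerivAt {P : Op E} {f : ℝ → E → ℝ} {t : ℝ} {x : E} (J : Jet E)
    (d1 : DifferentiableAt ℝ (P t) x) (d2 : DifferentiableAt ℝ (f t) x) :
    HasFDerivAt (fun p : E × Jet E => P t p.1 p.2 + f t p.1) (linDF P f t x J) (x, J) := by
  have h1 : HasFDerivAt (fun p : E × Jet E => P t p.1)
      ((fderiv ℝ (P t) x) ∘L ContinuousLinearMap.fst ℝ E (Jet E)) (x, J) :=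
    HasFDerivAt.comp (g := P t) (f := fun p : E × Jet E => p.1) (x, J) d1.hasFDerivAt hasFDerivAt_fst
  have h2 : HasFDerivAt (fun p : E × Jet E => p.2) (ContinuousLinearMap.snd ℝ E (Jet E)) (x, J) :=
    hasFDerivAt_snd
  have h3 : HasFDerivAt (fun p : E × Jet E => f t p.1)
      ((fderiv ℝ (f t) x) ∘L ContinuousLinearMap.fst ℝ E (Jet E)) (x, J) :=
    HasFDerivAt.comp (g := f t) (f := fun p : E × Jet E => p.1) (x, J) d2.hasFDerivAt hasFDerivAt_fst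
  refine ((h1.clm_apply h2).add h3).congr_fderiv ?_
  refine ContinuousLinearMap.ext fun v => ?_
  obtain ⟨e, J'⟩ := v
  simp [linDF]
  ring

theorem linDF_norm_le {P : Op E} {f : ℝ → E → ℝ} {t : ℝ} {x : E} {J : Jet E} {M d : ℝ} (hM : 0 ≤ M)
    (hd : 0 ≤ d) (hJ : ‖J‖ ≤ d) (h0 : ‖P t x‖ ≤ M) (h1 : ‖fderiv ℝ (P t) x‖ ≤ M)
    (h2 : ‖fderiv ℝ (f t) x‖ ≤ M) : ‖linDF P f t x J‖ ≤ M * (d + 3) := by
  refine ContinuousLinearMap.opNorm_le_bound _ (by positivity) ?_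
  rintro ⟨e, J'⟩
  rw [linDF_apply]
  have he : ‖e‖ ≤ ‖(e, J')‖ := norm_fst_le (e, J')
  have hJ'' : ‖J'‖ ≤ ‖(e, J')‖ := norm_snd_le (e, J')
  have b1 : ‖De e P t x J‖ ≤ M * ‖e‖ * d := by
    calc ‖De e P t x J‖ ≤ ‖fderiv ℝ (P t) x e‖ * ‖J‖ := ContinuousLinearMap.le_opNorm _ _
      _ ≤ (‖fderiv ℝ (P t) x‖ * ‖e‖) * ‖J‖ := by gcongr; exact ContinuousLinearMap.le_opNorm _ _
      _ ≤ M * ‖e‖ * d := by gcongr
  have b2 : ‖De e f t x‖ ≤ M * ‖e‖ :=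
    (ContinuousLinearMap.le_opNorm _ _).trans (mul_le_mul_of_nonneg_right h2 (norm_nonneg _))
  have b3 : ‖P t x J'‖ ≤ M * ‖J'‖ :=
    (ContinuousLinearMap.le_opNorm _ _).trans (mul_le_mul_of_nonneg_right h0 (norm_nonneg _))
  have hn := norm_nonneg (e, J')
  calc ‖De e P t x J + De e f t x + P t x J'‖ ≤ ‖De e P t x J‖ + ‖De e f t x‖ + ‖P t x J'‖ :=
        norm_add₃_le
    _ ≤ M * ‖e‖ * d + M * ‖e‖ + M * ‖J'‖ := by linarith
    _ ≤ M * ‖(e, J')‖ * d + M * ‖(e, J')‖ + M * ‖(e, J')‖ := by gcongr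
    _ ≤ M * (d + 3) * ‖(e, J')‖ := by nlinarith [mul_nonneg hM hn]

theorem linDF_sub_le {P : Op E} {f : ℝ → E → ℝ} {t : ℝ} {x y : E} {J J' : Jet E} {M d ra : ℝ}
    (hM : 0 ≤ M) (hd : 0 ≤ d) (hra : 0 ≤ ra) (hJ : ‖J‖ ≤ d) (h0 : ‖P t x - P t y‖ ≤ M * ra)
    (h1 : ‖fderiv ℝ (P t) x - fderiv ℝ (P t) y‖ ≤ M * ra) (h1' : ‖fderiv ℝ (P t) y‖ ≤ M)
    (h2 : ‖fderiv ℝ (f t) x - fderiv ℝ (f t) y‖ ≤ M * ra) :
    ‖linDF P f t x J - linDF P f t y J'‖ ≤ M * (d + 3) * (ra + ‖J - J'‖) := by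
  have hj : 0 ≤ ‖J - J'‖ := norm_nonneg _
  refine ContinuousLinearMap.opNorm_le_bound _ (by positivity) ?_
  rintro ⟨e, J₂⟩
  rw [_root_.sub_apply, linDF_apply, linDF_apply]
  have he : ‖e‖ ≤ ‖(e, J₂)‖ := norm_fst_le (e, J₂)
  have hJ'' : ‖J₂‖ ≤ ‖(e, J₂)‖ := norm_snd_le (e, J₂)
  have hn := norm_nonneg (e, J₂)
  have e1 : De e P t x J + De e f t x + P t x J₂ - (De e P t y J' + De e f t y + P t y J₂)
      = (fderiv ℝ (P t) x - fderiv ℝ (P t) y) e J + fderiv ℝ (P t) y e (J - J')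
        + (fderiv ℝ (f t) x - fderiv ℝ (f t) y) e + (P t x - P t y) J₂ := by
    simp only [De, _root_.sub_apply, map_sub]; ring
  rw [e1]
  have b1 : ‖(fderiv ℝ (P t) x - fderiv ℝ (P t) y) e J‖ ≤ M * ra * ‖e‖ * d := by
    calc _ ≤ ‖(fderiv ℝ (P t) x - fderiv ℝ (P t) y) e‖ * ‖J‖ := ContinuousLinearMap.le_opNorm _ _
      _ ≤ (‖fderiv ℝ (P t) x - fderiv ℝ (P t) y‖ * ‖e‖) * ‖J‖ := by
        gcongr; exact ContinuousLinearMap.le_opNorm _ _
      _ ≤ M * ra * ‖e‖ * d := by gcongr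
  have b2 : ‖fderiv ℝ (P t) y e (J - J')‖ ≤ M * ‖e‖ * ‖J - J'‖ := by
    calc _ ≤ ‖fderiv ℝ (P t) y e‖ * ‖J - J'‖ := ContinuousLinearMap.le_opNorm _ _
      _ ≤ (‖fderiv ℝ (P t) y‖ * ‖e‖) * ‖J - J'‖ := by
        gcongr; exact ContinuousLinearMap.le_opNorm _ _
      _ ≤ M * ‖e‖ * ‖J - J'‖ := by gcongr
  have b3 : ‖(fderiv ℝ (f t) x - fderiv ℝ (f t) y) e‖ ≤ M * ra * ‖e‖ :=
    (ContinuousLinearMap.le_opNorm _ _).trans (mul_le_mul_of_nonneg_right h2 (norm_nonneg _))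
  have b4 : ‖(P t x - P t y) J₂‖ ≤ M * ra * ‖J₂‖ :=
    (ContinuousLinearMap.le_opNorm _ _).trans (mul_le_mul_of_nonneg_right h0 (norm_nonneg _))
  set N := ‖(e, J₂)‖ with hN
  set dj := ‖J - J'‖ with hdj
  have c1 : M * ra * ‖e‖ * d ≤ M * ra * N * d := by gcongr
  have c2 : M * ‖e‖ * dj ≤ M * N * dj := by gcongr
  have c3 : M * ra * ‖e‖ ≤ M * ra * N := by gcongr
  have c4 : M * ra * ‖J₂‖ ≤ M * ra * N := by gcongr
  have p1 : 0 ≤ M * ra * N := by positivity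
  have p2 : 0 ≤ M * N * dj := by positivity
  have p3 : 0 ≤ M * N * dj * d := by positivity
  calc _ ≤ ‖(fderiv ℝ (P t) x - fderiv ℝ (P t) y) e J‖ + ‖fderiv ℝ (P t) y e (J - J')‖
        + ‖(fderiv ℝ (f t) x - fderiv ℝ (f t) y) e‖ + ‖(P t x - P t y) J₂‖ := by
        refine (norm_add_le _ _).trans ?_
        gcongr
        exact norm_add₃_le
    _ ≤ M * ra * N * d + M * N * dj + M * ra * N + M * ra * N := by linarith
    _ ≤ M * (d + 3) * (ra + dj) * N := by nlinarith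

theorem linDF_continuousOn {P : Op E} {f : ℝ → E → ℝ} {I : Set ℝ} {S : Set E} (δ : ℝ)
    (h0 : ContinuousOn (fun q : ℝ × E => P q.1 q.2) (I ×ˢ S))
    (h1 : ContinuousOn (fun q : ℝ × E => fderiv ℝ (P q.1) q.2) (I ×ˢ S))
    (h2 : ContinuousOn (fun q : ℝ × E => fderiv ℝ (f q.1) q.2) (I ×ˢ S)) :
    ContinuousOn (fun q : ℝ × E × Jet E => linDF P f q.1 q.2.1 q.2.2)
      (I ×ˢ S ×ˢ ball (0 : Jet E) δ) := by
  rw [continuousOn_clm_apply]
  rintro ⟨e, J'⟩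
  have hm : MapsTo (fun q : ℝ × E × Jet E => ((q.1, q.2.1) : ℝ × E))
      (I ×ˢ S ×ˢ ball (0 : Jet E) δ) (I ×ˢ S) := fun q hq => ⟨hq.1, hq.2.1⟩
  have hc : ContinuousOn (fun q : ℝ × E × Jet E => ((q.1, q.2.1) : ℝ × E))
      (I ×ˢ S ×ˢ ball (0 : Jet E) δ) := by fun_prop
  have c1 : ContinuousOn (fun q : ℝ × E × Jet E => fderiv ℝ (P q.1) q.2.1)
      (I ×ˢ S ×ˢ ball (0 : Jet E) δ) :=
    ContinuousOn.comp (g := fun q : ℝ × E => fderiv ℝ (P q.1) q.2) h1 hc hm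
  have c2 : ContinuousOn (fun q : ℝ × E × Jet E => fderiv ℝ (f q.1) q.2.1)
      (I ×ˢ S ×ˢ ball (0 : Jet E) δ) :=
    ContinuousOn.comp (g := fun q : ℝ × E => fderiv ℝ (f q.1) q.2) h2 hc hm
  have c3 : ContinuousOn (fun q : ℝ × E × Jet E => P q.1 q.2.1)
      (I ×ˢ S ×ˢ ball (0 : Jet E) δ) :=
    ContinuousOn.comp (g := fun q : ℝ × E => P q.1 q.2) h0 hc hm
  have c4 : ContinuousOn (fun q : ℝ × E × Jet E => q.2.2) (I ×ˢ S ×ˢ ball (0 : Jet E) δ) := by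
    fun_prop
  have c5 : ContinuousOn (fun q : ℝ × E × Jet E => fderiv ℝ (P q.1) q.2.1 e)
      (I ×ˢ S ×ˢ ball (0 : Jet E) δ) := c1.clm_apply continuousOn_const
  have c6 : ContinuousOn (fun q : ℝ × E × Jet E => fderiv ℝ (P q.1) q.2.1 e q.2.2)
      (I ×ˢ S ×ˢ ball (0 : Jet E) δ) := c5.clm_apply c4
  have c7 : ContinuousOn (fun q : ℝ × E × Jet E => fderiv ℝ (f q.1) q.2.1 e)
      (I ×ˢ S ×ˢ ball (0 : Jet E) δ) := c2.clm_apply continuousOn_const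
  have c8 : ContinuousOn (fun q : ℝ × E × Jet E => P q.1 q.2.1 J')
      (I ×ˢ S ×ˢ ball (0 : Jet E) δ) := c3.clm_apply continuousOn_const
  refine ((c6.add c7).add c8).congr fun q _ => ?_
  rw [linDF_apply]
  rfl

/-- the linear case. -/
theorem exists_F1B_of_linear (α γ δ lam M : ℝ) : ∃ M' : ℝ, 0 ≤ M' ∧
    ∀ (I : Set ℝ) (S : Set E) (P : Op E) (f : ℝ → E → ℝ), IsOpen S → Adm P α γ lam M I S →
      YkB α I S 1 P M → YkB α I S 1 f M →
      F1B α γ δ lam M' I S (fun t x J => P t x J + f t x) (linDF P f) := by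
  refine ⟨|M| * (|δ| + 3), by positivity, ?_⟩
  intro I S P f hS hP hP1 hf1
  obtain ⟨hP0, hPd, hPe⟩ := hP1
  obtain ⟨hf0, hfd, hfe⟩ := hf1
  have hDP : YB α I S (fun t x => fderiv ℝ (P t) x) M := YB_fderiv_of_De hPe
  have hDf : YB α I S (fun t x => fderiv ℝ (f t) x) M := YB_fderiv_of_De hfe
  have hδ0 := abs_nonneg δ
  have hJδ : ∀ J ∈ ball (0 : Jet E) δ, ‖J‖ ≤ |δ| := fun J hJ =>
    (mem_ball_zero_iff.mp hJ).le.trans (le_abs_self δ)
  have hMM : ∀ t ∈ I, ∀ x ∈ S, 0 ≤ M := fun t ht x hx => (norm_nonneg _).trans (hP0.sup t ht x hx)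
  refine ⟨fun t ht x hx J hJ => ?_, fun t ht x hx J hJ => ?_,
    fun t ht x hx y hy J hJ J' hJ' => ?_, ?_, fun t ht s hs x hx J hJ J' hJ' B => ?_,
    fun t ht x hx J hJ ξ => ?_⟩
  · exact linDF_hasFDerivAt J ((hPd t ht x hx).differentiableAt (hS.mem_nhds hx))
      ((hfd t ht x hx).differentiableAt (hS.mem_nhds hx))
  · rw [abs_of_nonneg (hMM t ht x hx)]
    exact linDF_norm_le (hMM t ht x hx) hδ0 (hJδ J hJ) (hP0.sup t ht x hx) (hDP.sup t ht x hx)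
      (hDf.sup t ht x hx)
  · rw [abs_of_nonneg (hMM t ht x hx)]
    exact linDF_sub_le (hMM t ht x hx) hδ0 (Real.rpow_nonneg (norm_nonneg _) _) (hJδ J hJ)
      (hP0.hol t ht x hx y hy) (hDP.hol t ht x hx y hy) (hDP.sup t ht y hy) (hDf.hol t ht x hx y hy)
  · exact linDF_continuousOn δ hP0.cont hDP.cont hDf.cont
  · have hM := hMM t ht x hx
    rw [abs_of_nonneg hM, linDF_top, linDF_top]
    have h1 := hP.time t ht s hs x hx B
    have hr : 0 ≤ |t - s| ^ γ := Real.rpow_nonneg (abs_nonneg _) _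
    have hj : 0 ≤ ‖J - J'‖ := norm_nonneg _
    have hB := norm_nonneg B
    refine h1.trans ?_
    have p1 : 0 ≤ M * |t - s| ^ γ * ‖B‖ := by positivity
    have p2 : 0 ≤ M * ‖J - J'‖ * ‖B‖ := by positivity
    have p3 : 0 ≤ M * |t - s| ^ γ * ‖B‖ * |δ| := by positivity
    have p4 : 0 ≤ M * ‖J - J'‖ * ‖B‖ * |δ| := by positivity
    nlinarith
  · rw [linDF_top]
    exact hP.ell t ht x hx ξ

/-- the jet is Hölder continuous in time, locally. -/
theorem exists_jet_time_ball (α Tm ρ : ℝ) (hα : 0 < α) (hα1 : α ≤ 1) (hTm : 0 < Tm) (hρ : 0 < ρ) :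
    ∃ C : ℝ, 0 ≤ C ∧ ∀ (T K r : ℝ) (x₀ : E) (u ut : ℝ → E → ℝ), 0 < T → T ≤ Tm →
      C21 (Icc 0 T) (ball x₀ (r + ρ)) u ut → XB α (Icc 0 T) (ball x₀ (r + ρ)) u ut K →
      ∀ t ∈ Icc 0 T, ∀ s ∈ Icc 0 T, ∀ x ∈ ball x₀ r,
        ‖jet u t x - jet u s x‖ ≤ C * K * |t - s| ^ (α / (2 + α)) := by
  set m : ℝ := min 1 (ρ / 2) with hm
  have hm0 : 0 < m := lt_min one_pos (by positivity)
  set τm : ℝ := Tm ^ (1 / (2 + α)) with hτm
  have hτm0 : 0 < τm := Real.rpow_pos_of_pos hTm _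
  set c : ℝ := m / τm with hc
  have hc0 : 0 < c := by positivity
  refine ⟨18 / c ^ 2 + 8 * c ^ α, by positivity, ?_⟩
  intro T K r x₀ u ut hT hTT hu hX t ht s hs x hx
  have hxS : x ∈ ball x₀ (r + ρ) := ball_subset_ball (by linarith) hx
  have hK : 0 ≤ K := (norm_nonneg _).trans (hX.b0 t ht x hxS)
  by_cases hts : t = s
  · rw [hts, sub_self, norm_zero]
    positivity
  set d := |t - s| with hd
  have hd0 : 0 < d := abs_pos.mpr (sub_ne_zero.mpr hts)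
  have hdT : d ≤ Tm := by
    have : d ≤ T := by
      rw [hd, abs_le]
      constructor <;> linarith [ht.1, ht.2, hs.1, hs.2]
    linarith
  set σ := d ^ (1 / (2 + α)) with hσ
  have hσ0 : 0 < σ := Real.rpow_pos_of_pos hd0 _
  have hστ : σ ≤ τm := Real.rpow_le_rpow hd0.le hdT (by positivity)
  set ρ' := c * σ with hρ'
  have hρ'0 : 0 < ρ' := by positivity
  have hρ'm : ρ' ≤ m := by
    rw [hρ', hc, div_mul_eq_mul_div, div_le_iff₀ hτm0]
    exact mul_le_mul_of_nonneg_left hστ hm0.le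
  have hρ'1 : ρ' ≤ 1 := hρ'm.trans (min_le_left _ _)
  have hρ'2 : 2 * ρ' ≤ ρ := by
    have := hρ'm.trans (min_le_right _ _)
    linarith
  have hsub : ball x₀ (r + 2 * ρ') ⊆ ball x₀ (r + ρ) := ball_subset_ball (by linarith)
  obtain ⟨f1, f2, f3, f4⟩ := slice_sub_facts isOpen_ball hu hX ht hs
  have hH : HolB α (ball x₀ (r + 2 * ρ')) (fderiv ℝ (fderiv ℝ (fun y => u t y - u s y))) (K + K) := by
    intro y hy z hz
    rw [f4 y (hsub hy), f4 z (hsub hz)]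
    exact ((hX.h2 t ht).sub (hX.h2 s hs)) y (hsub hy) z (hsub hz)
  have h := interp_jet_ball hα (f1.mono hsub) hρ'0 hρ'1 (f2.subset hsub) hH (by linarith) x hx
  have e0 : jet (fun _ : ℝ => fun y => u t y - u s y) 0 x = jet u t x - jet u s x := by
    simp only [jet, D1, D2]
    rw [f3 x hxS, f4 x hxS]
    rfl
  rw [e0] at h
  obtain ⟨e1, e2⟩ := rpow_time_aux hα hd0
  refine h.trans (le_of_eq ?_)
  rw [hρ', Real.mul_rpow hc0.le hσ0.le, e2, mul_pow]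
  have e3 : 18 * (K * d) / (c ^ 2 * σ ^ 2) = 18 / c ^ 2 * K * (d / σ ^ 2) := by
    field_simp
  rw [e3, e1]
  ring

/-- the average over `σ ∈ [0,1]` of a family in `Y` is in `Y`. -/
theorem dqc_YB_integral {Z : Type*} [NormedAddCommGroup Z] [NormedSpace ℝ Z] {α K : ℝ} {I : Set ℝ}
    {S : Set E} {G : ℝ → ℝ → E → Z}
    (h1 : ∀ t ∈ I, ∀ x ∈ S, ContinuousOn (fun σ => G σ t x) (Icc 0 1))
    (h2 : ∀ σ ∈ Icc (0 : ℝ) 1, YB α I S (G σ) K) :
    YB α I S (fun t x => ∫ σ in (0 : ℝ)..1, G σ t x) K := by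
  have hI : ∀ t ∈ I, ∀ x ∈ S, IntervalIntegrable (fun σ => G σ t x) MeasureTheory.volume 0 1 :=
    fun t ht x hx => ContinuousOn.intervalIntegrable (by rw [uIcc_of_le zero_le_one]; exact h1 t ht x hx)
  have hu : uIoc (0 : ℝ) 1 = Ioc 0 1 := uIoc_of_le zero_le_one
  refine ⟨fun q₀ hq₀ => ?_, fun t ht x hx => ?_, fun t ht x hx y hy => ?_⟩
  · refine intervalIntegral.continuousWithinAt_of_dominated_interval
      (F := fun (q : ℝ × E) σ => G σ q.1 q.2) (bound := fun _ => K) ?_ ?_ intervalIntegrable_const ?_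
    · filter_upwards [self_mem_nhdsWithin] with q hq
      rw [hu]
      exact ((h1 q.1 hq.1 q.2 hq.2).mono Ioc_subset_Icc_self).aestronglyMeasurable measurableSet_Ioc
    · filter_upwards [self_mem_nhdsWithin] with q hq
      refine Eventually.of_forall fun σ hσ => ?_
      rw [hu] at hσ
      exact (h2 σ (Ioc_subset_Icc_self hσ)).sup q.1 hq.1 q.2 hq.2
    · refine Eventually.of_forall fun σ hσ => ?_
      rw [hu] at hσ
      exact (h2 σ (Ioc_subset_Icc_self hσ)).cont q₀ hq₀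
  · have := intervalIntegral.norm_integral_le_of_norm_le_const (a := 0) (b := 1) (C := K)
      (f := fun σ => G σ t x) (fun σ hσ => by
        rw [hu] at hσ
        exact (h2 σ (Ioc_subset_Icc_self hσ)).sup t ht x hx)
    simpa using this
  · rw [← intervalIntegral.integral_sub (hI t ht x hx) (hI t ht y hy)]
    have := intervalIntegral.norm_integral_le_of_norm_le_const (a := 0) (b := 1)
      (C := K * ‖x - y‖ ^ α) (f := fun σ => G σ t x - G σ t y) (fun σ hσ => by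
        rw [hu] at hσ
        exact (h2 σ (Ioc_subset_Icc_self hσ)).hol t ht x hx y hy)
    simpa using this

/-- comparison of powers on a bounded interval. -/
theorem dqc_rpow_le {τ Tm a b : ℝ} (hτ : 0 ≤ τ) (hτT : τ ≤ Tm) (hb : 0 < b) (hab : b ≤ a) :
    τ ^ a ≤ (max 1 Tm) ^ a * τ ^ b := by
  have ha : 0 < a := hb.trans_le hab
  have h1 : (1 : ℝ) ≤ (max 1 Tm) ^ a := Real.one_le_rpow (le_max_left _ _) ha.le
  rcases le_total τ 1 with h | h
  · have h2 := Real.rpow_le_rpow_of_exponent_ge' hτ h hb.le hab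
    have h3 : 0 ≤ τ ^ b := Real.rpow_nonneg hτ _
    nlinarith
  · have h2 : τ ^ a ≤ (max 1 Tm) ^ a := Real.rpow_le_rpow hτ (hτT.trans (le_max_right _ _)) ha.le
    have h3 : 1 ≤ τ ^ b := Real.one_le_rpow h hb.le
    nlinarith

/-- composition of a `Y` function with a fixed operator of norm `≤ 1`. -/
theorem dqc_YB_clm {Z Z' : Type*} [NormedAddCommGroup Z] [NormedSpace ℝ Z] [NormedAddCommGroup Z']
    [NormedSpace ℝ Z'] {α K : ℝ} {I : Set ℝ} {S : Set E} {f : ℝ → E → Z} (L : Z →L[ℝ] Z')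
    (hL : ‖L‖ ≤ 1) (hK : 0 ≤ K) (h : YB α I S f K) : YB α I S (fun t x => L (f t x)) K := by
  have h1 : ‖L‖ * K ≤ K := by nlinarith [norm_nonneg L]
  exact ⟨L.continuous.comp_continuousOn h.cont, fun t ht => ((h.sup t ht).clm_comp L).mono h1,
    fun t ht => ((h.hol t ht).clm_comp L).mono h1⟩

theorem dqc_seg_norm {Z : Type*} [NormedAddCommGroup Z] [NormedSpace ℝ Z] {a b : Z} {σ c : ℝ}
    (hσ : σ ∈ Icc (0 : ℝ) 1) (ha : ‖a‖ ≤ c) (hb : ‖b‖ ≤ c) : ‖(1 - σ) • a + σ • b‖ ≤ c := by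
  have h1 : 0 ≤ 1 - σ := by linarith [hσ.2]
  calc ‖(1 - σ) • a + σ • b‖ ≤ ‖(1 - σ) • a‖ + ‖σ • b‖ := norm_add_le _ _
    _ = (1 - σ) * ‖a‖ + σ * ‖b‖ := by
        rw [norm_smul, norm_smul, Real.norm_eq_abs, Real.norm_eq_abs, abs_of_nonneg h1,
          abs_of_nonneg hσ.1]
    _ ≤ (1 - σ) * c + σ * c := by
        have := mul_le_mul_of_nonneg_left ha h1
        have := mul_le_mul_of_nonneg_left hb hσ.1
        linarith
    _ = c := by ring

/-- the segment between the jets at `x` and at `x + h e`. -/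
noncomputable def dqcJ (u : ℝ → E → ℝ) (h : ℝ) (e : E) (σ t : ℝ) (x : E) : Jet E :=
  (1 - σ) • jet u t x + σ • jet u t (x + h • e)

/-- the integrand of the coefficient. -/
noncomputable def dqcG (DF : ℝ → E → Jet E → (E × Jet E) →L[ℝ] ℝ) (u : ℝ → E → ℝ) (h : ℝ) (e : E)
    (σ t : ℝ) (x : E) : (E × Jet E) →L[ℝ] ℝ :=
  DF t (x + σ • (h • e)) (dqcJ u h e σ t x)

theorem dqcJ_sub (u : ℝ → E → ℝ) (h : ℝ) (e : E) (σ t s : ℝ) (x y : E) :
    dqcJ u h e σ t x - dqcJ u h e σ s y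
      = (1 - σ) • (jet u t x - jet u s y) + σ • (jet u t (x + h • e) - jet u s (y + h • e)) := by
  simp only [dqcJ, smul_sub]; abel

theorem dqc_seg_mem {x₀ x e : E} {R h σ : ℝ} (he : ‖e‖ ≤ 1) (hh : 0 < h) (hhR : h ≤ R / 4)
    (hx : x ∈ ball x₀ (R / 2)) (hσ : σ ∈ Icc (0 : ℝ) 1) : x + σ • (h • e) ∈ ball x₀ (3 * R / 4) := by
  refine ball_subset_ball ?_ (seg_mem_ball (h := h) (e := e) hx hσ)
  rw [abs_of_pos hh]
  nlinarith [norm_nonneg e]

theorem dqc_mem {δ δ' R T : ℝ} (hδ : δ' < δ) (hR : 0 < R) {x₀ e : E} {h : ℝ} {u : ℝ → E → ℝ}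
    (he : ‖e‖ ≤ 1) (hh : 0 < h) (hhR : h ≤ R / 4)
    (hj : ∀ t ∈ Icc 0 T, ∀ x ∈ ball x₀ R, ‖jet u t x‖ ≤ δ') {σ t : ℝ} {x : E}
    (hσ : σ ∈ Icc (0 : ℝ) 1) (ht : t ∈ Icc 0 T) (hx : x ∈ ball x₀ (R / 2)) :
    x + σ • (h • e) ∈ ball x₀ R ∧ dqcJ u h e σ t x ∈ ball (0 : Jet E) δ := by
  have hs : ball x₀ (3 * R / 4) ⊆ ball x₀ R := ball_subset_ball (by linarith)
  have h1 : x + h • e ∈ ball x₀ R := by
    have := hs (dqc_seg_mem he hh hhR hx (right_mem_Icc.mpr zero_le_one))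
    simpa using this
  refine ⟨hs (dqc_seg_mem he hh hhR hx hσ), ?_⟩
  rw [mem_ball_zero_iff]
  exact (dqc_seg_norm hσ (hj t ht x (ball_subset_ball (by linarith) hx)) (hj t ht _ h1)).trans_lt hδ

theorem dqc_cont {α γ δ δ' lam M R T : ℝ} (hδ : δ' < δ) (hR : 0 < R) {x₀ e : E} {h : ℝ}
    {F : ℝ → E → Jet E → ℝ} {DF : ℝ → E → Jet E → (E × Jet E) →L[ℝ] ℝ} {u ut : ℝ → E → ℝ}
    (he : ‖e‖ ≤ 1) (hh : 0 < h) (hhR : h ≤ R / 4)
    (hF : F1B α γ δ lam M (Icc 0 T) (ball x₀ R) F DF) (hu : C21 (Icc 0 T) (ball x₀ R) u ut)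
    (hj : ∀ t ∈ Icc 0 T, ∀ x ∈ ball x₀ R, ‖jet u t x‖ ≤ δ') :
    ContinuousOn (fun p : ℝ × ℝ × E => dqcG DF u h e p.1 p.2.1 p.2.2)
      (Icc (0 : ℝ) 1 ×ˢ Icc 0 T ×ˢ ball x₀ (R / 2)) := by
  have jc := jet_continuousOn hu
  have hs : ball x₀ (3 * R / 4) ⊆ ball x₀ R := ball_subset_ball (by linarith)
  have c1 : ContinuousOn (fun p : ℝ × ℝ × E => jet u p.2.1 p.2.2)
      (Icc (0 : ℝ) 1 ×ˢ Icc 0 T ×ˢ ball x₀ (R / 2)) :=
    ContinuousOn.comp (g := fun q : ℝ × E => jet u q.1 q.2) (f := fun p : ℝ × ℝ × E => (p.2.1, p.2.2))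
      jc (by fun_prop) fun p hp => ⟨hp.2.1, ball_subset_ball (by linarith) hp.2.2⟩
  have c2 : ContinuousOn (fun p : ℝ × ℝ × E => jet u p.2.1 (p.2.2 + h • e))
      (Icc (0 : ℝ) 1 ×ˢ Icc 0 T ×ˢ ball x₀ (R / 2)) :=
    ContinuousOn.comp (g := fun q : ℝ × E => jet u q.1 q.2)
      (f := fun p : ℝ × ℝ × E => (p.2.1, p.2.2 + h • e)) jc (by fun_prop) fun p hp => ⟨hp.2.1, by
        have := hs (dqc_seg_mem he hh hhR hp.2.2 (right_mem_Icc.mpr zero_le_one))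
        simpa using this⟩
  have c3 : ContinuousOn (fun p : ℝ × ℝ × E => dqcJ u h e p.1 p.2.1 p.2.2)
      (Icc (0 : ℝ) 1 ×ˢ Icc 0 T ×ˢ ball x₀ (R / 2)) := by
    unfold dqcJ
    have d1 : ContinuousOn (fun p : ℝ × ℝ × E => 1 - p.1)
        (Icc (0 : ℝ) 1 ×ˢ Icc 0 T ×ˢ ball x₀ (R / 2)) := by fun_prop
    have d2 : ContinuousOn (fun p : ℝ × ℝ × E => p.1)
        (Icc (0 : ℝ) 1 ×ˢ Icc 0 T ×ˢ ball x₀ (R / 2)) := by fun_prop
    exact (d1.smul c1).add (d2.smul c2)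
  have c4 : ContinuousOn (fun p : ℝ × ℝ × E =>
      ((p.2.1, p.2.2 + p.1 • (h • e), dqcJ u h e p.1 p.2.1 p.2.2) : ℝ × E × Jet E))
      (Icc (0 : ℝ) 1 ×ˢ Icc 0 T ×ˢ ball x₀ (R / 2)) :=
    ContinuousOn.prodMk (by fun_prop) (ContinuousOn.prodMk (by fun_prop) c3)
  exact ContinuousOn.comp (g := fun q : ℝ × E × Jet E => DF q.1 q.2.1 q.2.2) hF.cont c4
    fun p hp => ⟨hp.2.1, dqc_mem hδ hR he hh hhR hj hp.1 hp.2.1 hp.2.2⟩

theorem dqc_YB {α γ δ δ' lam M K R T : ℝ} (hα : 0 < α) (hα1 : α ≤ 1) (hδ : δ' < δ) (hR : 0 < R)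
    (hM : 0 ≤ M) (hK : 0 ≤ K) {x₀ e : E} {h : ℝ}
    {F : ℝ → E → Jet E → ℝ} {DF : ℝ → E → Jet E → (E × Jet E) →L[ℝ] ℝ} {u ut : ℝ → E → ℝ}
    (he : ‖e‖ ≤ 1) (hh : 0 < h) (hhR : h ≤ R / 4)
    (hF : F1B α γ δ lam M (Icc 0 T) (ball x₀ R) F DF) (hu : C21 (Icc 0 T) (ball x₀ R) u ut)
    (hX : XB α (Icc 0 T) (ball x₀ R) u ut K)
    (hj : ∀ t ∈ Icc 0 T, ∀ x ∈ ball x₀ R, ‖jet u t x‖ ≤ δ') {σ : ℝ} (hσ : σ ∈ Icc (0 : ℝ) 1) :
    YB α (Icc 0 T) (ball x₀ (R / 2)) (dqcG DF u h e σ) (M * (1 + 3 * K)) := by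
  have hs : ball x₀ (3 * R / 4) ⊆ ball x₀ R := ball_subset_ball (by linarith)
  have hs2 : ball x₀ (R / 2) ⊆ ball x₀ R := ball_subset_ball (by linarith)
  have hsh : ∀ x ∈ ball x₀ (R / 2), x + h • e ∈ ball x₀ R := fun x hx => by
    have := hs (dqc_seg_mem he hh hhR hx (right_mem_Icc.mpr zero_le_one))
    simpa using this
  refine ⟨?_, fun t ht x hx => ?_, fun t ht x hx y hy => ?_⟩
  · exact ContinuousOn.comp (g := fun p : ℝ × ℝ × E => dqcG DF u h e p.1 p.2.1 p.2.2)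
      (f := fun q : ℝ × E => (σ, q.1, q.2)) (dqc_cont hδ hR he hh hhR hF hu hj) (by fun_prop)
      fun q hq => ⟨hσ, hq.1, hq.2⟩
  · obtain ⟨m1, m2⟩ := dqc_mem hδ hR he hh hhR hj hσ ht hx
    refine (hF.bdd t ht _ m1 _ m2).trans ?_
    nlinarith
  · obtain ⟨m1, m2⟩ := dqc_mem hδ hR he hh hhR hj hσ ht hx
    obtain ⟨m3, m4⟩ := dqc_mem hδ hR he hh hhR hj hσ ht hy
    have h1 := hF.hol t ht _ m1 _ m3 _ m2 _ m4
    have e1 : x + σ • (h • e) - (y + σ • (h • e)) = x - y := by abel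
    rw [e1] at h1
    have hJ := hX.jet_hol hα hα1 isOpen_ball (convex_ball x₀ R) hu t ht
    have h2 : ‖dqcJ u h e σ t x - dqcJ u h e σ t y‖ ≤ 3 * K * ‖x - y‖ ^ α := by
      rw [dqcJ_sub]
      refine dqc_seg_norm hσ (hJ x (hs2 hx) y (hs2 hy)) ?_
      have := hJ _ (hsh x hx) _ (hsh y hy)
      have e2 : x + h • e - (y + h • e) = x - y := by abel
      rwa [e2] at this
    refine h1.trans ?_
    calc M * (‖x - y‖ ^ α + ‖dqcJ u h e σ t x - dqcJ u h e σ t y‖)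
        ≤ M * (‖x - y‖ ^ α + 3 * K * ‖x - y‖ ^ α) := by gcongr
      _ = M * (1 + 3 * K) * ‖x - y‖ ^ α := by ring

theorem dqc_identity {α γ δ δ' lam M R T : ℝ} (hδ : δ' < δ) (hR : 0 < R) {x₀ e : E} {h : ℝ}
    {F : ℝ → E → Jet E → ℝ} {DF : ℝ → E → Jet E → (E × Jet E) →L[ℝ] ℝ} {u ut : ℝ → E → ℝ}
    (he : ‖e‖ ≤ 1) (hh : 0 < h) (hhR : h ≤ R / 4)
    (hF : F1B α γ δ lam M (Icc 0 T) (ball x₀ R) F DF) (hu : C21 (Icc 0 T) (ball x₀ R) u ut)
    (hj : ∀ t ∈ Icc 0 T, ∀ x ∈ ball x₀ R, ‖jet u t x‖ ≤ δ')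
    (hs : ∀ t ∈ Icc 0 T, ∀ x ∈ ball x₀ R, ut t x = F t x (jet u t x)) {t : ℝ} (ht : t ∈ Icc 0 T)
    {x : E} (hx : x ∈ ball x₀ (R / 2)) :
    dq h e ut t x = (∫ σ in (0 : ℝ)..1, dqcG DF u h e σ t x) (e, jet (dq h e u) t x) := by
  have hs3 : ball x₀ (3 * R / 4) ⊆ ball x₀ R := ball_subset_ball (by linarith)
  have hxR : x ∈ ball x₀ R := ball_subset_ball (by linarith) hx
  have hxh : x + h • e ∈ ball x₀ R := by
    have := hs3 (dqc_seg_mem he hh hhR hx (right_mem_Icc.mpr zero_le_one))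
    simpa using this
  have hc : ContinuousOn (fun σ => dqcG DF u h e σ t x) (Icc 0 1) :=
    ContinuousOn.comp (g := fun p : ℝ × ℝ × E => dqcG DF u h e p.1 p.2.1 p.2.2)
      (f := fun σ : ℝ => (σ, t, x)) (dqc_cont hδ hR he hh hhR hF hu hj) (by fun_prop)
      fun σ hσ => ⟨hσ, ht, hx⟩
  have hI : IntervalIntegrable (fun σ => dqcG DF u h e σ t x) MeasureTheory.volume 0 1 :=
    ContinuousOn.intervalIntegrable (by rw [uIcc_of_le zero_le_one]; exact hc)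
  set J0 := jet u t x with hJ0
  set J1 := jet u t (x + h • e) with hJ1
  have hder : ∀ σ ∈ uIcc (0 : ℝ) 1, HasDerivAt
      (fun σ : ℝ => F t (x + σ • (h • e)) (dqcJ u h e σ t x))
      (dqcG DF u h e σ t x (h • e, J1 - J0)) σ := by
    intro σ hσ
    rw [uIcc_of_le zero_le_one] at hσ
    obtain ⟨m1, m2⟩ := dqc_mem hδ hR he hh hhR hj hσ ht hx
    have h1 := hF.hd t ht _ m1 _ m2
    have c1 : HasDerivAt (fun σ : ℝ => x + σ • (h • e)) (h • e) σ := by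
      simpa using ((hasDerivAt_id σ).smul_const (h • e)).const_add x
    have c2 : HasDerivAt (fun σ : ℝ => dqcJ u h e σ t x) (J1 - J0) σ := by
      have a1 : HasDerivAt (fun σ : ℝ => (1 - σ) • J0) (-J0) σ := by
        simpa using ((hasDerivAt_id σ).const_sub 1).smul_const J0
      have a2 : HasDerivAt (fun σ : ℝ => σ • J1) J1 σ := by
        simpa using (hasDerivAt_id σ).smul_const J1
      have := a1.add a2
      rw [show -J0 + J1 = J1 - J0 by abel] at this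
      exact this
    exact HasFDerivAt.comp_hasDerivAt (f := fun σ : ℝ => (x + σ • (h • e), dqcJ u h e σ t x)) σ h1
      (c1.prodMk c2)
  have hI2 : IntervalIntegrable (fun σ => dqcG DF u h e σ t x (h • e, J1 - J0))
      MeasureTheory.volume 0 1 :=
    ContinuousOn.intervalIntegrable (by
      rw [uIcc_of_le zero_le_one]; exact hc.clm_apply continuousOn_const)
  have hftc := intervalIntegral.integral_eq_sub_of_hasDerivAt hder hI2
  rw [← ContinuousLinearMap.intervalIntegral_apply hI] at hftc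
  have e1 : ((e, jet (dq h e u) t x) : E × Jet E) = h⁻¹ • ((h • e, J1 - J0) : E × Jet E) := by
    rw [jet_dq isOpen_ball (hu.c2 t ht) hxR hxh]
    refine Prod.ext ?_ rfl
    show e = h⁻¹ • (h • e)
    rw [smul_smul, inv_mul_cancel₀ hh.ne', one_smul]
  rw [e1, map_smul, hftc]
  simp only [dq, dqcJ, one_smul, zero_smul, add_zero, sub_self, sub_zero, zero_add]
  rw [hs t ht _ hxh, hs t ht _ hxR]

/-- the linear equation satisfied by a difference quotient. -/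
theorem exists_dq_coef (α γ δ δ' lam M K Tm R : ℝ) (hα : 0 < α) (hα1 : α ≤ 1) (hγ : 0 < γ)
    (hδ : δ' < δ) (hTm : 0 < Tm) (hR : 0 < R) : ∃ M' γ' : ℝ, 0 ≤ M' ∧ 0 < γ' ∧
    ∀ (T : ℝ) (x₀ e : E) (h : ℝ) (F : ℝ → E → Jet E → ℝ)
      (DF : ℝ → E → Jet E → (E × Jet E) →L[ℝ] ℝ) (u ut : ℝ → E → ℝ), 0 < T → T ≤ Tm → ‖e‖ ≤ 1 →
      0 < h → h ≤ R / 4 → F1B α γ δ lam M (Icc 0 T) (ball x₀ R) F DF →
      C21 (Icc 0 T) (ball x₀ R) u ut → XB α (Icc 0 T) (ball x₀ R) u ut K →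
      (∀ t ∈ Icc 0 T, ∀ x ∈ ball x₀ R, ‖jet u t x‖ ≤ δ') →
      (∀ t ∈ Icc 0 T, ∀ x ∈ ball x₀ R, ut t x = F t x (jet u t x)) →
      ∃ 𝔇 : ℝ → E → (E × Jet E) →L[ℝ] ℝ,
        YB α (Icc 0 T) (ball x₀ (R / 2)) 𝔇 M' ∧
        Adm (fun t x => (𝔇 t x).comp (ContinuousLinearMap.inr ℝ E (Jet E))) α γ' lam M' (Icc 0 T)
          (ball x₀ (R / 2)) ∧
        ∀ t ∈ Icc 0 T, ∀ x ∈ ball x₀ (R / 2),
          dq h e ut t x = 𝔇 t x (e, jet (dq h e u) t x) := by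
  obtain ⟨Cj, hCj, HJ⟩ := exists_jet_time_ball (E := E) α Tm (R / 4) hα hα1 hTm (by positivity)
  have hβ : 0 < α / (2 + α) := by positivity
  refine ⟨|M| * (1 + 3 * |K|) + |M| * ((max 1 Tm) ^ γ + Cj * |K| * (max 1 Tm) ^ (α / (2 + α))),
    min γ (α / (2 + α)), by positivity, lt_min hγ hβ, ?_⟩
  intro T x₀ e h F DF u ut hT hTT he hh hhR hF hu hX hj hs
  have h0T : (0 : ℝ) ∈ Icc 0 T := ⟨le_rfl, hT.le⟩
  have hx₀ : x₀ ∈ ball x₀ R := mem_ball_self hR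
  have hK : 0 ≤ K := (norm_nonneg _).trans (hX.b0 0 h0T x₀ hx₀)
  have hδ0 : 0 < δ := ((norm_nonneg _).trans (hj 0 h0T x₀ hx₀)).trans_lt hδ
  have hM : 0 ≤ M := (norm_nonneg _).trans (hF.bdd 0 h0T x₀ hx₀ 0 (mem_ball_self hδ0))
  rw [abs_of_nonneg hM, abs_of_nonneg hK]
  set A₂ : ℝ := M * ((max 1 Tm) ^ γ + Cj * K * (max 1 Tm) ^ (α / (2 + α))) with hA₂
  have hA₂0 : 0 ≤ A₂ := by positivity
  have hA₁0 : 0 ≤ M * (1 + 3 * K) := by positivity
  have hs3 : ball x₀ (3 * R / 4) ⊆ ball x₀ R := ball_subset_ball (by linarith)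
  have hc : ∀ t ∈ Icc 0 T, ∀ x ∈ ball x₀ (R / 2),
      ContinuousOn (fun σ => dqcG DF u h e σ t x) (Icc 0 1) := fun t ht x hx =>
    ContinuousOn.comp (g := fun p : ℝ × ℝ × E => dqcG DF u h e p.1 p.2.1 p.2.2)
      (f := fun σ : ℝ => (σ, t, x)) (dqc_cont hδ hR he hh hhR hF hu hj) (by fun_prop)
      fun σ hσ => ⟨hσ, ht, hx⟩
  have hI : ∀ t ∈ Icc 0 T, ∀ x ∈ ball x₀ (R / 2),
      IntervalIntegrable (fun σ => dqcG DF u h e σ t x) MeasureTheory.volume 0 1 :=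
    fun t ht x hx => ContinuousOn.intervalIntegrable (by
      rw [uIcc_of_le zero_le_one]; exact hc t ht x hx)
  have hIv : ∀ t ∈ Icc 0 T, ∀ x ∈ ball x₀ (R / 2), ∀ v : E × Jet E,
      IntervalIntegrable (fun σ => dqcG DF u h e σ t x v) MeasureTheory.volume 0 1 :=
    fun t ht x hx v => ContinuousOn.intervalIntegrable (by
      rw [uIcc_of_le zero_le_one]; exact (hc t ht x hx).clm_apply continuousOn_const)
  have hY : YB α (Icc 0 T) (ball x₀ (R / 2)) (fun t x => ∫ σ in (0 : ℝ)..1, dqcG DF u h e σ t x)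
      (M * (1 + 3 * K)) :=
    dqc_YB_integral hc fun σ hσ => dqc_YB hα hα1 hδ hR hM hK he hh hhR hF hu hX hj hσ
  have hu' : C21 (Icc 0 T) (ball x₀ (3 * R / 4 + R / 4)) u ut := by
    rw [show 3 * R / 4 + R / 4 = R by ring]; exact hu
  have hX' : XB α (Icc 0 T) (ball x₀ (3 * R / 4 + R / 4)) u ut K := by
    rw [show 3 * R / 4 + R / 4 = R by ring]; exact hX
  have hJt := HJ T K (3 * R / 4) x₀ u ut hT hTT hu' hX'
  refine ⟨fun t x => ∫ σ in (0 : ℝ)..1, dqcG DF u h e σ t x, hY.mono (by linarith),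
    ⟨fun t ht x hx ξ => ?_, ?_, fun t ht s hs' x hx B => ?_⟩,
    fun t ht x hx => dqc_identity hδ hR he hh hhR hF hu hj hs ht hx⟩
  · rw [ContinuousLinearMap.comp_apply, ContinuousLinearMap.inr_apply,
      ContinuousLinearMap.intervalIntegral_apply (hI t ht x hx)]
    have h1 := intervalIntegral.integral_mono_on (a := 0) (b := 1) (μ := MeasureTheory.volume)
      zero_le_one (f := fun _ => lam * ‖ξ‖ ^ 2) intervalIntegrable_const
      (hIv t ht x hx (0, topJ (sqB ξ))) (fun σ hσ => by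
        obtain ⟨m1, m2⟩ := dqc_mem hδ hR he hh hhR hj hσ ht hx
        exact hF.ell t ht _ m1 _ m2 ξ)
    simpa using h1
  · exact (dqc_YB_clm ((ContinuousLinearMap.compL ℝ (Jet E) (E × Jet E) ℝ).flip
      (ContinuousLinearMap.inr ℝ E (Jet E)))
      (norm_compL_flip_le_one _ (ContinuousLinearMap.norm_inr_le_one ℝ E (Jet E))) hA₁0 hY).mono
      (by linarith)
  · rw [ContinuousLinearMap.comp_apply, ContinuousLinearMap.comp_apply,
      ContinuousLinearMap.inr_apply, ContinuousLinearMap.intervalIntegral_apply (hI t ht x hx),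
      ContinuousLinearMap.intervalIntegral_apply (hI s hs' x hx),
      ← intervalIntegral.integral_sub (hIv t ht x hx _) (hIv s hs' x hx _), ← Real.norm_eq_abs]
    set τ := |t - s| with hτ
    have hτ0 : 0 ≤ τ := abs_nonneg _
    have hτT : τ ≤ Tm := by
      have : τ ≤ T := by
        rw [hτ, abs_le]
        constructor <;> linarith [ht.1, ht.2, hs'.1, hs'.2]
      linarith
    set γ' := min γ (α / (2 + α)) with hγ'
    have hγ'0 : 0 < γ' := lt_min hγ hβ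
    have p1 := dqc_rpow_le hτ0 hτT hγ'0 (min_le_left γ (α / (2 + α)))
    have p2 := dqc_rpow_le hτ0 hτT hγ'0 (min_le_right γ (α / (2 + α)))
    have hτγ : 0 ≤ τ ^ γ' := Real.rpow_nonneg hτ0 _
    have hB := norm_nonneg B
    have hb : ∀ σ ∈ uIoc (0 : ℝ) 1,
        ‖dqcG DF u h e σ t x (0, topJ B) - dqcG DF u h e σ s x (0, topJ B)‖
          ≤ A₂ * τ ^ γ' * ‖B‖ := by
      intro σ hσ
      rw [uIoc_of_le zero_le_one] at hσ
      have hσ' := Ioc_subset_Icc_self hσ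
      obtain ⟨m1, m2⟩ := dqc_mem hδ hR he hh hhR hj hσ' ht hx
      obtain ⟨m3, m4⟩ := dqc_mem hδ hR he hh hhR hj hσ' hs' hx
      have h1 := hF.time t ht s hs' _ m1 _ m2 _ m4 B
      have h2 : ‖dqcJ u h e σ t x - dqcJ u h e σ s x‖ ≤ Cj * K * τ ^ (α / (2 + α)) := by
        rw [dqcJ_sub]
        refine dqc_seg_norm hσ' (hJt t ht s hs' x (ball_subset_ball (by linarith) hx)) ?_
        have := dqc_seg_mem he hh hhR hx (right_mem_Icc.mpr zero_le_one)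
        rw [one_smul] at this
        exact hJt t ht s hs' _ this
      rw [Real.norm_eq_abs]
      refine h1.trans ?_
      refine mul_le_mul_of_nonneg_right ?_ hB
      have hCK : 0 ≤ Cj * K := by positivity
      calc M * (τ ^ γ + ‖dqcJ u h e σ t x - dqcJ u h e σ s x‖)
          ≤ M * ((max 1 Tm) ^ γ * τ ^ γ' + Cj * K * ((max 1 Tm) ^ (α / (2 + α)) * τ ^ γ')) := by
            refine mul_le_mul_of_nonneg_left ?_ hM
            have := mul_le_mul_of_nonneg_left p2 hCK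
            linarith
        _ = A₂ * τ ^ γ' := by rw [hA₂]; ring
    have := intervalIntegral.norm_integral_le_of_norm_le_const hb
    rw [sub_zero, abs_one, mul_one] at this
    refine this.trans ?_
    refine mul_le_mul_of_nonneg_right (mul_le_mul_of_nonneg_right (by linarith) hτγ) hB

/-- `g` is `C³` if all its directional derivatives (unit directions) are `C²`. -/
theorem dqb_contDiffOn3 {S : Set E} (hS : IsOpen S) {g : E → ℝ} (hd : DifferentiableOn ℝ g S)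
    (h : ∀ e : E, ‖e‖ ≤ 1 → ContDiffOn ℝ 2 (fun x => fderiv ℝ g x e) S) : ContDiffOn ℝ 3 g S := by
  have h1 : ContDiffOn ℝ 2 (fderiv ℝ g) S := by
    rw [contDiffOn_clm_apply]
    intro e
    have h2 := (h (‖e‖⁻¹ • e) (by
      rw [norm_smul, norm_inv, norm_norm]
      exact inv_mul_le_one)).const_smul ‖e‖
    refine h2.congr fun x _ => ?_
    rw [← map_smul, smul_smul]
    by_cases he : e = 0
    · simp [he]
    · rw [mul_inv_cancel₀ (norm_ne_zero_iff.mpr he), one_smul]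
  have e3 : (3 : WithTop ℕ∞) = 2 + 1 := by norm_num
  rw [e3, contDiffOn_succ_iff_fderiv_of_isOpen hS]
  exact ⟨hd, by simp, h1⟩

/-- `C^{2+α}` bounds from bounds for the jet. -/
theorem dqb_C2aB_of_jet {α N : ℝ} {S : Set E} {w : E → ℝ} (hw : ContDiffOn ℝ 2 w S)
    (h0 : SupB S (jet (fun _ => w) 0) N) (h1 : HolB α S (jet (fun _ => w) 0) N) : C2aB α S w N := by
  refine ⟨hw, fun x hx => (norm_jet_le_iff.mp (h0 x hx)).1, fun x hx => (norm_jet_le_iff.mp (h0 x hx)).2.1,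
    fun x hx => (norm_jet_le_iff.mp (h0 x hx)).2.2, fun x hx y hy => ?_⟩
  refine le_trans ?_ (h1 x hx y hy)
  exact (norm_snd_le (jet (fun _ => w) 0 x - jet (fun _ => w) 0 y).2).trans (norm_snd_le _)

/-- difference quotients of `C^{3+α}` initial data are bounded in `C^{2+α}`. -/
theorem dqb_init {α G r h : ℝ} (hα : 0 < α) (hα1 : α ≤ 1) (hG : 0 ≤ G) (hh : h ≠ 0) {x₀ e : E}
    (he : ‖e‖ ≤ 1) {g : E → ℝ} (hg : GkB α (ball x₀ (r + |h| * ‖e‖)) 1 g G) :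
    C2aB α (ball x₀ r) (dq h e (fun _ => g) 0) (3 * G) := by
  obtain ⟨hg0, hg1⟩ := hg
  set S := ball x₀ (r + |h| * ‖e‖) with hS
  have hSo : IsOpen S := isOpen_ball
  have hSc : Convex ℝ S := convex_ball _ _
  have h3 : ContDiffOn ℝ 3 g S :=
    dqb_contDiffOn3 hSo (hg0.c2.differentiableOn (by norm_num)) fun e' he' => (hg1 e' he').c2
  have hst : C21 ({0} : Set ℝ) S (fun _ => g) (fun _ _ => 0) := C21.static hSo hg0.c2
  have hge : C2aB α S (fun x => fderiv ℝ g x e) G := hg1 e he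
  have hY : YB α ({0} : Set ℝ) S (jet (fun _ x => fderiv ℝ g x e)) (3 * G) :=
    (XB.static (I := {0}) hge hG).jet_YB hα hα1 hSo hSc (C21.static hSo hge.c2) hG
  have hY' : YB α ({0} : Set ℝ) S (De e (jet fun _ => g)) (3 * G) :=
    hY.congr fun t _ x hx => De_jet (w := fun _ => g) hSo h3 e hx
  have hdj : ∀ t ∈ ({0} : Set ℝ), DifferentiableOn ℝ (jet (fun _ => g) t) S := by
    intro t _
    have a0 : DifferentiableOn ℝ g S := h3.differentiableOn (by norm_num)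
    have a1 : DifferentiableOn ℝ (fderiv ℝ g) S :=
      (h3.fderiv_of_isOpen hSo (m := 2) (by norm_num)).differentiableOn (by norm_num)
    have a2 : DifferentiableOn ℝ (fderiv ℝ (fderiv ℝ g)) S :=
      ((h3.fderiv_of_isOpen hSo (m := 2) (by norm_num)).fderiv_of_isOpen hSo (m := 1)
        (by norm_num)).differentiableOn (by norm_num)
    exact a0.prodMk (a1.prodMk a2)
  have hq := dq_YB (φ := jet fun _ => g) hh (jet_continuousOn hst) hdj hY'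
  have hj : ∀ x ∈ ball x₀ r, jet (fun _ => dq h e (fun _ => g) 0) 0 x
      = dq h e (jet fun _ => g) 0 x := fun x hx =>
    jet_dq (u := fun _ => g) hSo hg0.c2 (self_mem_ball' hx) (shift_mem_ball hx)
  have hc2 : ContDiffOn ℝ 2 (dq h e (fun _ => g) 0) (ball x₀ r) :=
    (C21.dq (I := {0}) (r := r) (h := h) (e := e) hst).c2 0 rfl
  refine dqb_C2aB_of_jet hc2 (fun x hx => ?_) (fun x hx y hy => ?_)
  · rw [hj x hx]; exact hq.sup 0 rfl x hx
  · rw [hj x hx, hj y hy]; exact hq.hol 0 rfl x hx y hy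

/-- uniform bounds for the difference quotients. -/
theorem exists_dq_bound (α γ δ δ' lam M K G Tm R : ℝ) (hα : 0 < α) (hα1 : α < 1) (hγ : 0 < γ)
    (hδ : δ' < δ) (hlam : 0 < lam) (hTm : 0 < Tm) (hR : 0 < R) (hR1 : R ≤ 1) : ∃ C : ℝ, 0 ≤ C ∧
    ∀ (T : ℝ) (x₀ e : E) (h : ℝ) (F : ℝ → E → Jet E → ℝ)
      (DF : ℝ → E → Jet E → (E × Jet E) →L[ℝ] ℝ) (u ut : ℝ → E → ℝ), 0 < T → T ≤ Tm → ‖e‖ ≤ 1 →
      0 < h → h ≤ R / 4 → F1B α γ δ lam M (Icc 0 T) (ball x₀ R) F DF →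
      C21 (Icc 0 T) (ball x₀ R) u ut → XB α (Icc 0 T) (ball x₀ R) u ut K →
      (∀ t ∈ Icc 0 T, ∀ x ∈ ball x₀ R, ‖jet u t x‖ ≤ δ') → GkB α (ball x₀ R) 1 (u 0) G →
      (∀ t ∈ Icc 0 T, ∀ x ∈ ball x₀ R, ut t x = F t x (jet u t x)) →
      XB α (Icc 0 T) (ball x₀ (R / 4)) (dq h e u) (dq h e ut) C := by
  obtain ⟨M', γ', hM', hγ', HD⟩ := exists_dq_coef (E := E) α γ δ δ' lam M K Tm R hα hα1.le hγ hδ hTm hR
  obtain ⟨CS, hCS, HS⟩ := schauder_local (E := E) (R := R / 2) hα hα1 hγ' hlam hM' hTm (by positivity)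
    (by linarith)
  refine ⟨CS * (M' + 3 * |G| + |K|), by positivity, ?_⟩
  intro T x₀ e h F DF u ut hT hTT he hh hhR hF hu hX hj hg hs
  have h0T : (0 : ℝ) ∈ Icc 0 T := ⟨le_rfl, hT.le⟩
  have hx₀ : x₀ ∈ ball x₀ R := mem_ball_self hR
  have hK : 0 ≤ K := (norm_nonneg _).trans (hX.b0 0 h0T x₀ hx₀)
  have hG : 0 ≤ G := (norm_nonneg _).trans (hg.1.b0 x₀ hx₀)
  rw [abs_of_nonneg hK, abs_of_nonneg hG]
  obtain ⟨𝔇, hY, hA, hid⟩ := HD T x₀ e h F DF u ut hT hTT he hh hhR hF hu hX hj hs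
  have hsub : ball x₀ (R / 2 + |h| * ‖e‖) ⊆ ball x₀ R := by
    refine ball_subset_ball ?_
    rw [abs_of_pos hh]
    nlinarith [norm_nonneg e]
  have hu2 := hu.subset subset_rfl hsub
  have hX2 := hX.subset subset_rfl hsub
  have hU : C21 (Icc 0 T) (ball x₀ (R / 2)) (dq h e u) (dq h e ut) := C21.dq hu2
  have hv : ‖((e, 0) : E × Jet E)‖ ≤ 1 := by
    rw [Prod.norm_mk, norm_zero]
    exact max_le he zero_le_one
  have hL : YB α (Icc 0 T) (ball x₀ (R / 2))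
      (Lop (fun t x => (𝔇 t x).comp (ContinuousLinearMap.inr ℝ E (Jet E))) (dq h e u) (dq h e ut))
      M' := by
    refine (dqc_YB_clm (ContinuousLinearMap.apply ℝ ℝ ((e, 0) : E × Jet E))
      ((ContinuousLinearMap.opNorm_le_bound _ zero_le_one fun A => by
        rw [one_mul, ContinuousLinearMap.apply_apply]
        calc ‖A (e, 0)‖ ≤ ‖A‖ * ‖((e, 0) : E × Jet E)‖ := A.le_opNorm _
          _ ≤ ‖A‖ * 1 := mul_le_mul_of_nonneg_left hv (norm_nonneg _)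
          _ = ‖A‖ := mul_one _)) hM' hY).congr fun t ht x hx => ?_
    simp only [Lop]
    rw [hid t ht x hx, ContinuousLinearMap.comp_apply, ContinuousLinearMap.inr_apply,
      ContinuousLinearMap.apply_apply, ← map_sub]
    congr 1
    simp
  have hinit : C2aB α (ball x₀ (R / 2)) (dq h e u 0) (3 * G) :=
    dqb_init (g := u 0) hα hα1.le hG hh.ne' he (hg.subset hsub)
  have hsup : ∀ t ∈ Icc 0 T, SupB (ball x₀ (R / 2)) (dq h e u t) K := by
    intro t ht x hx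
    have h1 := mv_dir (ψ := u t) (x := x) (e := e) (h := h) (C := K)
      (fun s hs' => ((hu2.c2 t ht).differentiableOn (by norm_num) _
        (seg_mem_ball hx hs')).differentiableAt (isOpen_ball.mem_nhds (seg_mem_ball hx hs')))
      (fun s hs' => by
        calc ‖fderiv ℝ (u t) (x + s • (h • e)) e‖ ≤ ‖fderiv ℝ (u t) (x + s • (h • e))‖ * ‖e‖ :=
              ContinuousLinearMap.le_opNorm _ _
          _ ≤ K * 1 := mul_le_mul (hX2.b1 t ht _ (seg_mem_ball hx hs')) he (norm_nonneg _) hK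
          _ = K := mul_one _)
    simp only [dq]
    rw [norm_smul, norm_inv, Real.norm_eq_abs, inv_mul_le_iff₀ (abs_pos.mpr hh.ne')]
    exact h1
  have := HS T x₀ _ (dq h e u) (dq h e ut) M' (3 * G) K hT hTT hA hU
    (fun r hr => ⟨_, (XB.dq_finite hu2 hX2).subset subset_rfl (ball_subset_ball hr.le)⟩) hL hinit hsup
  rwa [show R / 2 / 2 = R / 4 by ring] at this

/-- the jet of a `C³` function is differentiable. -/
theorem dqd_jet_differentiableAt {S : Set E} (hS : IsOpen S) {u : ℝ → E → ℝ} {t : ℝ}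
    (h3 : ContDiffOn ℝ 3 (u t) S) {x : E} (hx : x ∈ S) : DifferentiableAt ℝ (jet u t) x := by
  have a0 : DifferentiableOn ℝ (u t) S := h3.differentiableOn (by norm_num)
  have a1 : DifferentiableOn ℝ (fderiv ℝ (u t)) S :=
    (h3.fderiv_of_isOpen hS (m := 2) (by norm_num)).differentiableOn (by norm_num)
  have a2 : DifferentiableOn ℝ (fderiv ℝ (fderiv ℝ (u t))) S :=
    ((h3.fderiv_of_isOpen hS (m := 2) (by norm_num)).fderiv_of_isOpen hS (m := 1)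
      (by norm_num)).differentiableOn (by norm_num)
  exact ((a0.prodMk (a1.prodMk a2)) x hx).differentiableAt (hS.mem_nhds hx)

/-- **one spatial derivative.** -/
theorem exists_first_deriv (α γ δ δ' lam M K G Tm R : ℝ) (hα : 0 < α) (hα1 : α < 1) (hγ : 0 < γ)
    (hδ : δ' < δ) (hlam : 0 < lam) (hTm : 0 < Tm) (hR : 0 < R) (hR1 : R ≤ 1) : ∃ C : ℝ, 0 ≤ C ∧
    ∀ (T : ℝ) (x₀ : E) (F : ℝ → E → Jet E → ℝ)
      (DF : ℝ → E → Jet E → (E × Jet E) →L[ℝ] ℝ) (u ut : ℝ → E → ℝ), 0 < T → T ≤ Tm →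
      F1B α γ δ lam M (Icc 0 T) (ball x₀ R) F DF →
      C21 (Icc 0 T) (ball x₀ R) u ut → XB α (Icc 0 T) (ball x₀ R) u ut K →
      (∀ t ∈ Icc 0 T, ∀ x ∈ ball x₀ R, ‖jet u t x‖ ≤ δ') → GkB α (ball x₀ R) 1 (u 0) G →
      (∀ t ∈ Icc 0 T, ∀ x ∈ ball x₀ R, ut t x = F t x (jet u t x)) →
      XkB α (Icc 0 T) (ball x₀ (R / 8)) 1 u ut C ∧
      (∀ t ∈ Icc 0 T, ContDiffOn ℝ 3 (u t) (ball x₀ (R / 8))) ∧
      ∀ e : E, ∀ t ∈ Icc 0 T, ∀ x ∈ ball x₀ (R / 8),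
        De e ut t x = DF t x (jet u t x) (e, jet (De e u) t x) := by
  obtain ⟨Cb, hCb, HB⟩ := exists_dq_bound (E := E) α γ δ δ' lam M K G Tm R hα hα1 hγ hδ hlam hTm hR hR1
  refine ⟨Cb + |K|, by positivity, ?_⟩
  intro T x₀ F DF u ut hT hTT hF hu hX hj hg hs
  have hB : IsOpen (ball x₀ (R / 8)) := isOpen_ball
  have hs8 : ball x₀ (R / 8) ⊆ ball x₀ R := ball_subset_ball (by linarith)
  -- the limit lemma in every unit direction
  have hlim : ∀ e : E, ‖e‖ ≤ 1 → ∃ Wt : ℝ → E → ℝ, C21 (Icc 0 T) (ball x₀ (R / 8)) (De e u) Wt ∧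
      XB α (Icc 0 T) (ball x₀ (R / 8)) (De e u) Wt Cb ∧
      (∀ t ∈ Icc 0 T, ∀ x ∈ ball x₀ (R / 8),
        Tendsto (fun k : ℕ => dq (R / 8 / 2 ^ k) e ut t x) atTop (𝓝 (Wt t x))) := by
    intro e he
    obtain ⟨Wt, h1, h2, _, h4⟩ := dq_limit (u := u) (ut := ut) (x₀ := x₀) (e := e) (r := R / 8)
      (h₀ := R / 8) (C := Cb) hα hα1.le hT (by positivity)
      (hu.subset subset_rfl (ball_subset_ball (by nlinarith [norm_nonneg e])))
      (fun h hh hh8 => (HB T x₀ e h F DF u ut hT hTT he hh (by linarith) hF hu hX hj hg hs).subset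
        subset_rfl (ball_subset_ball (by nlinarith [norm_nonneg e])))
    exact ⟨Wt, h1, h2, h4⟩
  have h3 : ∀ t ∈ Icc 0 T, ContDiffOn ℝ 3 (u t) (ball x₀ (R / 8)) := by
    intro t ht
    refine dqb_contDiffOn3 hB (((hu.c2 t ht).mono hs8).differentiableOn (by norm_num)) fun e he => ?_
    obtain ⟨Wt, h1, _, _⟩ := hlim e he
    exact h1.c2 t ht
  -- chain rule
  have hchain : ∀ t ∈ Icc 0 T, ∀ x ∈ ball x₀ (R / 8),
      HasFDerivAt (ut t) ((DF t x (jet u t x)).comp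
        ((ContinuousLinearMap.id ℝ E).prod (fderiv ℝ (jet u t) x))) x := by
    intro t ht x hx
    have hJ : jet u t x ∈ ball (0 : Jet E) δ := by
      rw [mem_ball_zero_iff]; exact (hj t ht x (hs8 hx)).trans_lt hδ
    have h1 := hF.hd t ht x (hs8 hx) _ hJ
    have h2 : HasFDerivAt (fun y => ((y, jet u t y) : E × Jet E))
        ((ContinuousLinearMap.id ℝ E).prod (fderiv ℝ (jet u t) x)) x :=
      (hasFDerivAt_id x).prodMk (dqd_jet_differentiableAt hB (h3 t ht) hx).hasFDerivAt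
    have h4 := HasFDerivAt.comp (g := fun p : E × Jet E => F t p.1 p.2) x h1 h2
    refine h4.congr_of_eventuallyEq ?_
    filter_upwards [isOpen_ball.mem_nhds (hs8 hx)] with y hy
    exact hs t ht y hy
  have hDe : ∀ e : E, ∀ t ∈ Icc 0 T, ∀ x ∈ ball x₀ (R / 8),
      De e ut t x = DF t x (jet u t x) (e, jet (De e u) t x) := by
    intro e t ht x hx
    rw [← De_jet hB (h3 t ht) e hx]
    simp only [De]
    rw [(hchain t ht x hx).fderiv]
    rfl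
  refine ⟨⟨⟨hu.subset subset_rfl hs8, (hX.subset subset_rfl hs8).mono ?_⟩, fun t ht => ?_,
    fun t ht x hx => (hchain t ht x hx).differentiableAt.differentiableWithinAt, fun e he => ?_⟩,
    h3, hDe⟩
  · linarith [le_abs_self K]
  · exact (h3 t ht).differentiableOn (by norm_num)
  · obtain ⟨Wt, h1, h2, h4⟩ := hlim e he
    have hW : ∀ t ∈ Icc 0 T, ∀ x ∈ ball x₀ (R / 8), De e ut t x = Wt t x := fun t ht x hx =>
      tendsto_nhds_unique (dq_tendsto (by positivity) (hchain t ht x hx).differentiableAt)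
        (h4 t ht x hx)
    exact ⟨h1.congr hB (fun _ _ _ _ => rfl) hW,
      (h2.congr hB (fun _ _ _ _ => rfl) hW).mono (by linarith [abs_nonneg K])⟩

end Claimed.Agent.R316.B8M
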