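import Claimed.Agent.R316.B8M.NLCalc
import Claimed.Agent.R316.Pack015_2
import Claimed.Agent.R316.B8.SmDq
import Claimed.Agent.R316.B8.Bridge

/-!
# B8M-REG (M7), definitions and generic calculus: classes defined by recursion on DIRECTIONAL derivatives

`B8.De e f t x = D_x f(t,x) e` (`B8/SmDefs.lean`) keeps the target space fixed.  For a "base class" `B f K` (a norm bound for functions `ℝ → E → G`):
`Rk B I S k f K` : `f` and all its iterated directional derivatives of order `≤ k` (directions in the unit ball) are in the base class with constant `K`, and the functions of order `< k` are differentiable in `x` on `S`.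
`Pk B I S k f ft K`: the same for pairs (function, time derivative).

Base classes used:  `YB α I S` (spatial Hölder; `YkB`),  `CnB n I S` (jointly `C^n` on `I ×ˢ S` with bounds; `JkB`),  pairs: `C21 ∧ XB` (`XkB`), `CnB n × CnB n × (time derivative)` (`TkB`).
The closure properties (sums, operators, products, composition with smooth functions) are proved ONCE for all base classes satisfying `IsBase`.

LEAVES (proofs only): B8M-REG-GEN = section `Generic`;  B8M-REG-BASE = section `Init`, `isBase_YB`, `exists_isBase_CnB`.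

Recipes.
* all generic statements: induction on `k`, generalising the functions (and, for `exists_Rk_app`, `exists_Rk_comp`, the target spaces).  On the open set `S`:
  `De e (f + g) = De e f + De e g`, `De e (L ∘ f) = L ∘ De e f`, `De e (A v) = (De e A) v + A (De e v)` (`fderiv_clm_apply`), `De e (f, g) = (De e f, De e g)` at points of `S`, for `t ∈ I`; use `IsBase.congr`/`Rk.congr` to replace a function by another one which
  agrees with it on `I ×ˢ S`.
* `exists_Rk_app`: `C 0 = c`, `C (k+1) = 2 C k + c`-type recursion (`Rk.mono` to a common constant).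
* `exists_Rk_comp`: `De e (fun t x => H t x (J t x)) t x = H' t x (J t x) (e, De e J t x)` with `H' t x w = fderiv ℝ (fun p : E × W => H t p.1 p.2) (x, w)`, which is `SmB` with constants `CH (· + 1)` (`SmB.fderiv_snd`); induction hypothesis for `H'`
  (target `E × W →L[ℝ] G`), then `exists_Rk_app` with `v = (e, De e J)` (`Rk.prod`, `Rk.const`, bound `max 1 K`).
* `Rk.contDiffOn`: induction on `k`; `contDiffOn_succ_iff_fderiv_of_isOpen`, `contDiffOn_clm_apply` (finite dimension), and `fderiv ℝ (f t) x e = ‖e‖ • De (‖e‖⁻¹ • e) f t x` for `e ≠ 0`.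
* `exists_GkB_of_SmB`: induction on `k` for all `C`: `x ↦ fderiv ℝ g x e` is `SmB S _ (C (· + 1))` for `‖e‖ ≤ 1` (`SmB.fderivWithin`, `fderivWithin_of_isOpen`, `SmB.clm_comp` with the evaluation at `e`), `SmB.C2aB`.
* `isBase_YB`: `B8/Basic.lean` (`YB.add`, `YB.clm_apply` with `c = 2`, …).  `comp`: sup `≤ CH 0`; for fixed `t` the slice `(x,w) ↦ H t x w` is `CH 1`-Lipschitz on the convex set `S ×ˢ ball 0 δ` (`SmB.slice`, `SmB.lip`);
  `‖H(x,Jx) - H(y,Jy)‖ ≤ CH 1 max ‖x-y‖ (K ‖x-y‖^α)`; if `‖x-y‖ ≤ 1` then `‖x-y‖ ≤ ‖x-y‖^α`, otherwise use `2 CH 0 ≤ 2 CH 0 ‖x-y‖^α`.  `C = 2 CH 0 + CH 1 (1 + K)` (`κY`).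
* `exists_isBase_CnB` (`κ CH K = n! (∑_{i ≤ n} |CH i|) (1 + |K|)^n`): `ContDiffOn.add`, `ContinuousLinearMap.norm_iteratedFDerivWithin_comp_left`, `norm_iteratedFDerivWithin_clm_apply` (`c = 2^n`), `norm_iteratedFDerivWithin_comp_le` with the inner map `q ↦ (q.1, q.2, J q.1 q.2)` (`D = 1 + K`);
  `iteratedFDerivWithin_prodMk`-type lemma / `ContinuousMultilinearMap.opNorm_prod` for pairs.
-/

set_option autoImplicit false
set_option maxSynthPendingDepth 3
set_option linter.unusedSectionVars false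

open scoped Topology ContDiff
open Set Filter Metric

namespace Claimed.Agent.R316.B8M

open Claimed.Agent.R316.B8

variable {E : Type} [NormedAddCommGroup E] [NormedSpace ℝ E]

/-- recursion on directional derivatives. -/
def Rk {G : Type} [NormedAddCommGroup G] [NormedSpace ℝ G] (B : (ℝ → E → G) → ℝ → Prop) (I : Set ℝ)
    (S : Set E) : ℕ → (ℝ → E → G) → ℝ → Prop
  | 0, f, K => B f K
  | k + 1, f, K => B f K ∧ (∀ t ∈ I, DifferentiableOn ℝ (f t) S) ∧
      ∀ e : E, ‖e‖ ≤ 1 → Rk B I S k (De e f) K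

/-- recursion on directional derivatives for pairs (function, time derivative). -/
def Pk {G : Type} [NormedAddCommGroup G] [NormedSpace ℝ G]
    (B : (ℝ → E → G) → (ℝ → E → G) → ℝ → Prop) (I : Set ℝ) (S : Set E) :
    ℕ → (ℝ → E → G) → (ℝ → E → G) → ℝ → Prop
  | 0, f, ft, K => B f ft K
  | k + 1, f, ft, K => B f ft K ∧ (∀ t ∈ I, DifferentiableOn ℝ (f t) S) ∧
      (∀ t ∈ I, DifferentiableOn ℝ (ft t) S) ∧ ∀ e : E, ‖e‖ ≤ 1 → Pk B I S k (De e f) (De e ft) K

/-- jointly `C^n` on `I ×ˢ S`, derivatives of order `≤ n` bounded by `c`. -/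
def CnB {G : Type} [NormedAddCommGroup G] [NormedSpace ℝ G] (n : ℕ) (I : Set ℝ) (S : Set E)
    (f : ℝ → E → G) (c : ℝ) : Prop :=
  ContDiffOn ℝ n (fun q : ℝ × E => f q.1 q.2) (I ×ˢ S) ∧
  ∀ j ≤ n, ∀ q ∈ I ×ˢ S, ‖iteratedFDerivWithin ℝ j (fun q : ℝ × E => f q.1 q.2) (I ×ˢ S) q‖ ≤ c

/-- `f ∈ Y^k`. -/
abbrev YkB {G : Type} [NormedAddCommGroup G] [NormedSpace ℝ G] (α : ℝ) (I : Set ℝ) (S : Set E) (k : ℕ)
    (f : ℝ → E → G) (K : ℝ) : Prop := Rk (YB α I S) I S k f K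

/-- `f` and its spatial derivatives of order `≤ k` are jointly `C^n` with bounds. -/
abbrev JkB {G : Type} [NormedAddCommGroup G] [NormedSpace ℝ G] (n : ℕ) (I : Set ℝ) (S : Set E) (k : ℕ)
    (f : ℝ → E → G) (K : ℝ) : Prop := Rk (CnB n I S) I S k f K

/-- `u ∈ X^k`. -/
abbrev XkB (α : ℝ) (I : Set ℝ) (S : Set E) (k : ℕ) (u ut : ℝ → E → ℝ) (K : ℝ) : Prop :=
  Pk (fun u ut K => C21 I S u ut ∧ XB α I S u ut K) I S k u ut K

/-- pairs: jointly `C^n` with bounds, `ft` the time derivative of `f`. -/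
abbrev TkB (n : ℕ) (I : Set ℝ) (S : Set E) (k : ℕ) (f ft : ℝ → E → ℝ) (K : ℝ) : Prop :=
  Pk (fun f ft K => CnB n I S f K ∧ CnB n I S ft K ∧
    ∀ t ∈ I, ∀ x ∈ S, HasDerivWithinAt (fun s => f s x) (ft t x) I t) I S k f ft K

/-- initial data in `C^{k+2+α}`. -/
def GkB (α : ℝ) (S : Set E) : ℕ → (E → ℝ) → ℝ → Prop
  | 0, g, K => C2aB α S g K
  | k + 1, g, K => C2aB α S g K ∧ ∀ e : E, ‖e‖ ≤ 1 → GkB α S k (fun x => fderiv ℝ g x e) K

/-- a family of classes, one for each target space. -/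
abbrev FnClass (E : Type) [NormedAddCommGroup E] [NormedSpace ℝ E] :=
  ∀ (G : Type) [NormedAddCommGroup G] [NormedSpace ℝ G], (ℝ → E → G) → ℝ → Prop

/-- the closure properties of a base class (`c` = constant of the product estimate, `κ CH K` = constant of the composition estimate). -/
structure IsBase (𝔅 : FnClass E) (I : Set ℝ) (S : Set E) (c : ℝ) (κ : (ℕ → ℝ) → ℝ → ℝ) : Prop where
  mono : ∀ {G : Type} [NormedAddCommGroup G] [NormedSpace ℝ G] {f : ℝ → E → G} {K K' : ℝ},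
    𝔅 G f K → K ≤ K' → 𝔅 G f K'
  congr : ∀ {G : Type} [NormedAddCommGroup G] [NormedSpace ℝ G] {f f' : ℝ → E → G} {K : ℝ},
    𝔅 G f K → (∀ t ∈ I, ∀ x ∈ S, f' t x = f t x) → 𝔅 G f' K
  add : ∀ {G : Type} [NormedAddCommGroup G] [NormedSpace ℝ G] {f g : ℝ → E → G} {K₁ K₂ : ℝ},
    𝔅 G f K₁ → 𝔅 G g K₂ → 𝔅 G (fun t x => f t x + g t x) (K₁ + K₂)
  clm : ∀ {G G' : Type} [NormedAddCommGroup G] [NormedSpace ℝ G] [NormedAddCommGroup G']
    [NormedSpace ℝ G'] (L : G →L[ℝ] G') {f : ℝ → E → G} {K : ℝ},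
    𝔅 G f K → 𝔅 G' (fun t x => L (f t x)) (‖L‖ * K)
  app : ∀ {G G' : Type} [NormedAddCommGroup G] [NormedSpace ℝ G] [NormedAddCommGroup G']
    [NormedSpace ℝ G'] {A : ℝ → E → G →L[ℝ] G'} {v : ℝ → E → G} {a b : ℝ},
    𝔅 (G →L[ℝ] G') A a → 𝔅 G v b → 0 ≤ a → 0 ≤ b → 𝔅 G' (fun t x => A t x (v t x)) (c * a * b)
  prod : ∀ {G G' : Type} [NormedAddCommGroup G] [NormedSpace ℝ G] [NormedAddCommGroup G']
    [NormedSpace ℝ G'] {f : ℝ → E → G} {g : ℝ → E → G'} {K : ℝ},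
    𝔅 G f K → 𝔅 G' g K → 𝔅 (G × G') (fun t x => (f t x, g t x)) K
  const : ∀ {G : Type} [NormedAddCommGroup G] [NormedSpace ℝ G] (a : G), 𝔅 G (fun _ _ => a) ‖a‖
  comp : ∀ (CH : ℕ → ℝ) (δ δ' K : ℝ), δ' < δ →
    ∀ (W G : Type) [NormedAddCommGroup W] [NormedSpace ℝ W] [NormedAddCommGroup G] [NormedSpace ℝ G]
      (H : ℝ → E → W → G) (J : ℝ → E → W),
      SmB (I ×ˢ S ×ˢ ball (0 : W) δ) (fun q : ℝ × E × W => H q.1 q.2.1 q.2.2) CH → 𝔅 W J K →
      (∀ t ∈ I, ∀ x ∈ S, ‖J t x‖ ≤ δ') → 𝔅 G (fun t x => H t x (J t x)) (κ CH K)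

section Generic

variable {𝔅 : FnClass E} {I : Set ℝ} {S : Set E} {c : ℝ} {κ : (ℕ → ℝ) → ℝ → ℝ}
variable {G G' : Type} [NormedAddCommGroup G] [NormedSpace ℝ G] [NormedAddCommGroup G']
  [NormedSpace ℝ G']

theorem Rk.base {B : (ℝ → E → G) → ℝ → Prop} {k : ℕ} {f : ℝ → E → G} {K : ℝ}
    (h : Rk B I S k f K) : B f K := by
  cases k with
  | zero => exact h
  | succ k => exact h.1

theorem Rk.of_succ {B : (ℝ → E → G) → ℝ → Prop} {k : ℕ} {f : ℝ → E → G} {K : ℝ}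
    (h : Rk B I S (k + 1) f K) : Rk B I S k f K := by
  induction k generalizing f with
  | zero => exact h.1
  | succ k ih => exact ⟨h.1, h.2.1, fun e he => ih (h.2.2 e he)⟩

theorem Rk.of_le {B : (ℝ → E → G) → ℝ → Prop} {k k' : ℕ} (hk : k' ≤ k) {f : ℝ → E → G} {K : ℝ}
    (h : Rk B I S k f K) : Rk B I S k' f K := by
  obtain ⟨d, rfl⟩ := Nat.exists_eq_add_of_le hk
  induction d with
  | zero => exact h
  | succ d ih => exact ih (Nat.le_add_right _ _) (Rk.of_succ h)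

theorem Rk.De {B : (ℝ → E → G) → ℝ → Prop} {k : ℕ} {f : ℝ → E → G} {K : ℝ}
    (h : Rk B I S (k + 1) f K) {e : E} (he : ‖e‖ ≤ 1) : Rk B I S k (De e f) K := h.2.2 e he

theorem Rk.differentiableOn {B : (ℝ → E → G) → ℝ → Prop} {k : ℕ} {f : ℝ → E → G} {K : ℝ}
    (h : Rk B I S (k + 1) f K) {t : ℝ} (ht : t ∈ I) : DifferentiableOn ℝ (f t) S := h.2.1 t ht

/-- change of the base class. -/
theorem Rk.imp {B B' : (ℝ → E → G) → ℝ → Prop} {K K' : ℝ} {I' : Set ℝ} {S' : Set E} (hI : I' ⊆ I)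
    (hS : S' ⊆ S) (hB : ∀ f, B f K → B' f K') {k : ℕ} {f : ℝ → E → G} (h : Rk B I S k f K) :
    Rk B' I' S' k f K' := by
  induction k generalizing f with
  | zero => exact hB f h
  | succ k ih =>
    exact ⟨hB f h.1, fun t ht => (h.2.1 t (hI ht)).mono hS, fun e he => ih (h.2.2 e he)⟩

/-- the slices are `C^k`. -/
theorem Rk.contDiffOn [FiniteDimensional ℝ E] {B : (ℝ → E → G) → ℝ → Prop} {K : ℝ} (hS : IsOpen S)
    (hB : ∀ f, B f K → ∀ t ∈ I, ContinuousOn (f t) S) {k : ℕ} {f : ℝ → E → G}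
    (h : Rk B I S k f K) {t : ℝ} (ht : t ∈ I) : ContDiffOn ℝ k (f t) S := by
  induction k generalizing f with
  | zero => exact contDiffOn_zero.2 (hB f h t ht)
  | succ k ih =>
    have e1 : ((k + 1 : ℕ) : WithTop ℕ∞) = (k : WithTop ℕ∞) + 1 := by push_cast; rfl
    rw [e1, contDiffOn_succ_iff_fderiv_of_isOpen hS]
    refine ⟨h.2.1 t ht, fun hk => absurd hk (by simp), ?_⟩
    rw [contDiffOn_clm_apply]
    intro e
    have h1 : ‖‖e‖⁻¹ • e‖ ≤ 1 := by
      rw [norm_smul, norm_inv, norm_norm]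
      exact inv_mul_le_one
    have h2 := ih (h.2.2 _ h1)
    have h3 : (fun x => fderiv ℝ (f t) x e) = fun x => ‖e‖ • B8.De (‖e‖⁻¹ • e) f t x := by
      funext x
      simp only [B8.De]
      rw [← map_smul]
      congr 1
      by_cases he : e = 0
      · simp [he]
      · rw [smul_smul, mul_inv_cancel₀ (norm_ne_zero_iff.2 he), one_smul]
    rw [h3]
    exact contDiffOn_const.smul h2

theorem Pk.base {B : (ℝ → E → G) → (ℝ → E → G) → ℝ → Prop} {k : ℕ} {f ft : ℝ → E → G} {K : ℝ}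
    (h : Pk B I S k f ft K) : B f ft K := by
  cases k with
  | zero => exact h
  | succ k => exact h.1

theorem Pk.of_succ {B : (ℝ → E → G) → (ℝ → E → G) → ℝ → Prop} {k : ℕ}
    {f ft : ℝ → E → G} {K : ℝ} (h : Pk B I S (k + 1) f ft K) : Pk B I S k f ft K := by
  induction k generalizing f ft with
  | zero => exact h.1
  | succ k ih => exact ⟨h.1, h.2.1, h.2.2.1, fun e he => ih (h.2.2.2 e he)⟩

theorem Pk.of_le {B : (ℝ → E → G) → (ℝ → E → G) → ℝ → Prop} {k k' : ℕ} (hk : k' ≤ k)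
    {f ft : ℝ → E → G} {K : ℝ} (h : Pk B I S k f ft K) : Pk B I S k' f ft K := by
  obtain ⟨d, rfl⟩ := Nat.exists_eq_add_of_le hk
  induction d with
  | zero => exact h
  | succ d ih => exact ih (Nat.le_add_right _ _) (Pk.of_succ h)

theorem Pk.imp {B B' : (ℝ → E → G) → (ℝ → E → G) → ℝ → Prop} {K K' : ℝ} {I' : Set ℝ} {S' : Set E}
    (hI : I' ⊆ I) (hS : S' ⊆ S) (hB : ∀ f ft, B f ft K → B' f ft K') {k : ℕ} {f ft : ℝ → E → G}
    (h : Pk B I S k f ft K) : Pk B' I' S' k f ft K' := by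
  induction k generalizing f ft with
  | zero => exact hB f ft h
  | succ k ih =>
    exact ⟨hB f ft h.1, fun t ht => (h.2.1 t (hI ht)).mono hS,
      fun t ht => (h.2.2.1 t (hI ht)).mono hS, fun e he => ih (h.2.2.2 e he)⟩

/-- pairs from the two components. -/
theorem Pk.of_Rk {B B' : (ℝ → E → G) → (ℝ → E → G) → ℝ → Prop} {B₁ B₂ : (ℝ → E → G) → ℝ → Prop}
    {K K₁ K₂ K' : ℝ} (hB : ∀ f ft, B f ft K → B₁ f K₁ → B₂ ft K₂ → B' f ft K') {k : ℕ}
    {f ft : ℝ → E → G} (h : Pk B I S k f ft K) (h₁ : Rk B₁ I S k f K₁) (h₂ : Rk B₂ I S k ft K₂) :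
    Pk B' I S k f ft K' := by
  induction k generalizing f ft with
  | zero => exact hB f ft h h₁ h₂
  | succ k ih =>
    exact ⟨hB f ft h.1 h₁.1 h₂.1, h.2.1, h.2.2.1,
      fun e he => ih (h.2.2.2 e he) (h₁.2.2 e he) (h₂.2.2 e he)⟩

/-- the two components of a pair class. -/
theorem Pk.fst {B : (ℝ → E → G) → (ℝ → E → G) → ℝ → Prop} {B₁ : (ℝ → E → G) → ℝ → Prop} {K K' : ℝ}
    (hB : ∀ f ft, B f ft K → B₁ f K') {k : ℕ} {f ft : ℝ → E → G} (h : Pk B I S k f ft K) :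
    Rk B₁ I S k f K' := by
  induction k generalizing f ft with
  | zero => exact hB f ft h
  | succ k ih => exact ⟨hB f ft h.1, h.2.1, fun e he => ih (h.2.2.2 e he)⟩

theorem Pk.snd {B : (ℝ → E → G) → (ℝ → E → G) → ℝ → Prop} {B₁ : (ℝ → E → G) → ℝ → Prop} {K K' : ℝ}
    (hB : ∀ f ft, B f ft K → B₁ ft K') {k : ℕ} {f ft : ℝ → E → G} (h : Pk B I S k f ft K) :
    Rk B₁ I S k ft K' := by
  induction k generalizing f ft with
  | zero => exact hB f ft h
  | succ k ih => exact ⟨hB f ft h.1, h.2.2.1, fun e he => ih (h.2.2.2 e he)⟩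

theorem Rk.mono (h𝔅 : IsBase 𝔅 I S c κ) {k : ℕ} {f : ℝ → E → G} {K K' : ℝ}
    (h : Rk (𝔅 G) I S k f K) (hK : K ≤ K') : Rk (𝔅 G) I S k f K' :=
  Rk.imp subset_rfl subset_rfl (fun _ hf => h𝔅.mono hf hK) h

theorem Rk.congr (h𝔅 : IsBase 𝔅 I S c κ) (hS : IsOpen S) {k : ℕ} {f f' : ℝ → E → G} {K : ℝ}
    (h : Rk (𝔅 G) I S k f K) (he : ∀ t ∈ I, ∀ x ∈ S, f' t x = f t x) : Rk (𝔅 G) I S k f' K := by
  induction k generalizing f f' with
  | zero => exact h𝔅.congr h he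
  | succ k ih =>
    refine ⟨h𝔅.congr h.1 he, fun t ht => (h.2.1 t ht).congr (he t ht), fun e hen => ?_⟩
    refine ih (h.2.2 e hen) (fun t ht x hx => ?_)
    have h1 : f' t =ᶠ[𝓝 x] f t := by
      filter_upwards [hS.mem_nhds hx] with y hy using he t ht y hy
    simp only [B8.De, h1.fderiv_eq]

theorem Rk.add (h𝔅 : IsBase 𝔅 I S c κ) (hS : IsOpen S) {k : ℕ} {f g : ℝ → E → G} {K₁ K₂ : ℝ}
    (hf : Rk (𝔅 G) I S k f K₁) (hg : Rk (𝔅 G) I S k g K₂) :
    Rk (𝔅 G) I S k (fun t x => f t x + g t x) (K₁ + K₂) := by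
  induction k generalizing f g with
  | zero => exact h𝔅.add hf hg
  | succ k ih =>
    refine ⟨h𝔅.add hf.1 hg.1, fun t ht => (hf.2.1 t ht).add (hg.2.1 t ht), fun e he => ?_⟩
    refine Rk.congr h𝔅 hS (ih (hf.2.2 e he) (hg.2.2 e he)) (fun t ht x hx => ?_)
    have h1 := ((hf.2.1 t ht).differentiableAt (hS.mem_nhds hx)).hasFDerivAt
    have h2 := ((hg.2.1 t ht).differentiableAt (hS.mem_nhds hx)).hasFDerivAt
    simp only [B8.De]
    have h3 : HasFDerivAt (fun x => f t x + g t x) (fderiv ℝ (f t) x + fderiv ℝ (g t) x) x := h1.add h2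
    rw [h3.fderiv]
    rfl

theorem Rk.clm (h𝔅 : IsBase 𝔅 I S c κ) (hS : IsOpen S) (L : G →L[ℝ] G') {k : ℕ} {f : ℝ → E → G}
    {K : ℝ} (hf : Rk (𝔅 G) I S k f K) : Rk (𝔅 G') I S k (fun t x => L (f t x)) (‖L‖ * K) := by
  induction k generalizing f with
  | zero => exact h𝔅.clm L hf
  | succ k ih =>
    refine ⟨h𝔅.clm L hf.1, fun t ht => L.differentiable.comp_differentiableOn (hf.2.1 t ht),
      fun e he => ?_⟩
    refine Rk.congr h𝔅 hS (ih (hf.2.2 e he)) (fun t ht x hx => ?_)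
    have h1 := ((hf.2.1 t ht).differentiableAt (hS.mem_nhds hx)).hasFDerivAt
    simp only [B8.De]
    have h3 : HasFDerivAt (fun x => L (f t x)) (L ∘L fderiv ℝ (f t) x) x := L.hasFDerivAt.comp x h1
    rw [h3.fderiv]
    rfl

theorem Rk.prod (h𝔅 : IsBase 𝔅 I S c κ) (hS : IsOpen S) {k : ℕ} {f : ℝ → E → G} {g : ℝ → E → G'}
    {K : ℝ} (hf : Rk (𝔅 G) I S k f K) (hg : Rk (𝔅 G') I S k g K) :
    Rk (𝔅 (G × G')) I S k (fun t x => (f t x, g t x)) K := by
  induction k generalizing f g with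
  | zero => exact h𝔅.prod hf hg
  | succ k ih =>
    refine ⟨h𝔅.prod hf.1 hg.1, fun t ht => (hf.2.1 t ht).prodMk (hg.2.1 t ht), fun e he => ?_⟩
    refine Rk.congr h𝔅 hS (ih (hf.2.2 e he) (hg.2.2 e he)) (fun t ht x hx => ?_)
    have h1 := ((hf.2.1 t ht).differentiableAt (hS.mem_nhds hx)).hasFDerivAt
    have h2 := ((hg.2.1 t ht).differentiableAt (hS.mem_nhds hx)).hasFDerivAt
    simp only [B8.De]
    rw [(h1.prodMk h2).fderiv]
    rfl

theorem Rk.const (h𝔅 : IsBase 𝔅 I S c κ) (k : ℕ) (a : G) :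
    Rk (𝔅 G) I S k (fun _ _ => a) ‖a‖ := by
  induction k generalizing a with
  | zero => exact h𝔅.const a
  | succ k ih =>
    refine ⟨h𝔅.const a, fun t _ => differentiableOn_const a, fun e _ => ?_⟩
    have h1 : B8.De e (fun (_ : ℝ) (_ : E) => a) = fun _ _ => (0 : G) := by
      funext t x
      simp [B8.De]
    rw [h1]
    have h2 := ih (0 : G)
    rw [norm_zero] at h2
    exact Rk.mono h𝔅 h2 (norm_nonneg a)

/-- application of an operator valued function (the constant depends only on `c`, `k`). -/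
theorem exists_Rk_app (c : ℝ) (hc : 0 ≤ c) (k : ℕ) : ∃ C : ℝ, 0 ≤ C ∧
    ∀ (𝔅 : FnClass E) (I : Set ℝ) (S : Set E) (κ : (ℕ → ℝ) → ℝ → ℝ), IsBase 𝔅 I S c κ → IsOpen S →
    ∀ (G G' : Type) [NormedAddCommGroup G] [NormedSpace ℝ G] [NormedAddCommGroup G']
      [NormedSpace ℝ G'] (A : ℝ → E → G →L[ℝ] G') (v : ℝ → E → G) (a b : ℝ), 0 ≤ a → 0 ≤ b →
      Rk (𝔅 (G →L[ℝ] G')) I S k A a → Rk (𝔅 G) I S k v b →
      Rk (𝔅 G') I S k (fun t x => A t x (v t x)) (C * a * b) := by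
  induction k with
  | zero =>
    exact ⟨c, hc, fun 𝔅 I S κ h𝔅 _ G G' _ _ _ _ A v a b ha hb hA hv => h𝔅.app hA hv ha hb⟩
  | succ k ih =>
    obtain ⟨C, hC, ih⟩ := ih
    refine ⟨c + 2 * C, by positivity, ?_⟩
    intro 𝔅 I S κ h𝔅 hS G G' _ _ _ _ A v a b ha hb hA hv
    have hab : 0 ≤ a * b := mul_nonneg ha hb
    refine ⟨h𝔅.mono (h𝔅.app hA.1 hv.1 ha hb) ?_, fun t ht => (hA.2.1 t ht).clm_apply (hv.2.1 t ht),
      fun e he => ?_⟩
    · nlinarith
    · have h1 := ih 𝔅 I S κ h𝔅 hS G G' (B8.De e A) v a b ha hb (hA.2.2 e he) hv.of_succ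
      have h2 := ih 𝔅 I S κ h𝔅 hS G G' A (B8.De e v) a b ha hb hA.of_succ (hv.2.2 e he)
      refine Rk.congr h𝔅 hS (Rk.mono h𝔅 (Rk.add h𝔅 hS h1 h2) ?_) (fun t ht x hx => ?_)
      · nlinarith
      · have d1 := ((hA.2.1 t ht).differentiableAt (hS.mem_nhds hx)).hasFDerivAt
        have d2 := ((hv.2.1 t ht).differentiableAt (hS.mem_nhds hx)).hasFDerivAt
        simp only [B8.De]
        rw [(d1.clm_apply d2).fderiv]
        simp [add_comm]

/-- composition with a smooth function with bounded derivatives (the constant depends only on `c`, `κ`, `k`, `CH`, `K`). -/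
theorem exists_Rk_comp (c : ℝ) (hc : 0 ≤ c) (κ : (ℕ → ℝ) → ℝ → ℝ) (k : ℕ) (CH : ℕ → ℝ) (K : ℝ) :
    ∃ C : ℝ, 0 ≤ C ∧
    ∀ (𝔅 : FnClass E) (I : Set ℝ) (S : Set E), IsBase 𝔅 I S c κ → UniqueDiffOn ℝ I → IsOpen S →
    ∀ (δ δ' : ℝ), δ' < δ →
    ∀ (W G : Type) [NormedAddCommGroup W] [NormedSpace ℝ W] [NormedAddCommGroup G] [NormedSpace ℝ G]
      (H : ℝ → E → W → G) (J : ℝ → E → W),
      SmB (I ×ˢ S ×ˢ ball (0 : W) δ) (fun q : ℝ × E × W => H q.1 q.2.1 q.2.2) CH →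
      Rk (𝔅 W) I S k J K → (∀ t ∈ I, ∀ x ∈ S, ‖J t x‖ ≤ δ') →
      Rk (𝔅 G) I S k (fun t x => H t x (J t x)) C := by
  induction k generalizing CH with
  | zero =>
    refine ⟨max (κ CH K) 0, le_max_right _ _, ?_⟩
    intro 𝔅 I S h𝔅 _ _ δ δ' hδ W G _ _ _ _ H J hH hJ hJb
    exact h𝔅.mono (h𝔅.comp CH δ δ' K hδ W G H J hH hJ hJb) (le_max_left _ _)
  | succ k ih =>
    obtain ⟨C₁, hC₁, ih⟩ := ih (fun j => CH (j + 1))
    obtain ⟨Ca, hCa, happ⟩ := exists_Rk_app (E := E) c hc k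
    refine ⟨max (κ CH K) 0 + Ca * C₁ * max 1 |K|, by positivity, ?_⟩
    intro 𝔅 I S h𝔅 hI hS δ δ' hδ W G _ _ _ _ H J hH hJ hJb
    have hU : IsOpen (S ×ˢ ball (0 : W) δ) := hS.prod isOpen_ball
    have hm : 0 ≤ Ca * C₁ * max 1 |K| := by positivity
    have hmem : ∀ t ∈ I, ∀ x ∈ S, (x, J t x) ∈ S ×ˢ ball (0 : W) δ := fun t ht x hx =>
      ⟨hx, by rw [mem_ball_zero_iff]; exact (hJb t ht x hx).trans_lt hδ⟩
    -- chain rule
    have hch : ∀ t ∈ I, ∀ x ∈ S, HasFDerivAt (fun x' => H t x' (J t x'))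
        ((fderiv ℝ (fun p : E × W => H t p.1 p.2) (x, J t x)) ∘L
          ((ContinuousLinearMap.id ℝ E).prod (fderiv ℝ (J t) x))) x := by
      intro t ht x hx
      have d1 : HasFDerivAt (fun p : E × W => H t p.1 p.2)
          (fderiv ℝ (fun p : E × W => H t p.1 p.2) (x, J t x)) (x, J t x) :=
        (SmB.differentiableAt_snd hU hH ht (hmem t ht x hx)).hasFDerivAt
      have d2 := ((hJ.2.1 t ht).differentiableAt (hS.mem_nhds hx)).hasFDerivAt
      exact HasFDerivAt.comp (g := fun p : E × W => H t p.1 p.2) (f := fun x' => (x', J t x')) x d1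
        ((hasFDerivAt_id x).prodMk d2)
    refine ⟨h𝔅.mono (h𝔅.comp CH δ δ' K hδ W G H J hH hJ.1 hJb) ?_,
      fun t ht x hx => (hch t ht x hx).differentiableAt.differentiableWithinAt, fun e he => ?_⟩
    · have := le_max_left (κ CH K) 0
      linarith
    · have hH' : SmB (I ×ˢ S ×ˢ ball (0 : W) δ) (fun q : ℝ × E × W =>
          (fun t x w => fderiv ℝ (fun p : E × W => H t p.1 p.2) (x, w)) q.1 q.2.1 q.2.2)
          (fun j => CH (j + 1)) := SmB.fderiv_snd hI hU hH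
      have h1 := ih 𝔅 I S h𝔅 hI hS δ δ' hδ W (E × W →L[ℝ] G)
        (fun t x w => fderiv ℝ (fun p : E × W => H t p.1 p.2) (x, w)) J hH' hJ.of_succ hJb
      have h2 : Rk (𝔅 (E × W)) I S k (fun t x => (e, B8.De e J t x)) (max 1 |K|) :=
        Rk.prod h𝔅 hS (Rk.mono h𝔅 (Rk.const h𝔅 k e) (he.trans (le_max_left _ _)))
          (Rk.mono h𝔅 (hJ.2.2 e he) ((le_abs_self K).trans (le_max_right _ _)))
      have h3 := happ 𝔅 I S κ h𝔅 hS (E × W) G _ _ C₁ (max 1 |K|) hC₁ (by positivity) h1 h2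
      refine Rk.congr h𝔅 hS (Rk.mono h𝔅 h3 ?_) (fun t ht x hx => ?_)
      · have := le_max_right (κ CH K) 0
        linarith
      · simp only [B8.De]
        rw [(hch t ht x hx).fderiv]
        rfl

end Generic

section Init

variable {α K K' : ℝ} {S S' : Set E} {g : E → ℝ}

theorem GkB.base {k : ℕ} (h : GkB α S k g K) : C2aB α S g K := by
  cases k with
  | zero => exact h
  | succ k => exact h.1

theorem GkB.of_succ {k : ℕ} (h : GkB α S (k + 1) g K) : GkB α S k g K := by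
  induction k generalizing g with
  | zero => exact h.1
  | succ k ih => exact ⟨h.1, fun e he => ih (h.2 e he)⟩

theorem GkB.of_le {k k' : ℕ} (hk : k' ≤ k) (h : GkB α S k g K) : GkB α S k' g K := by
  obtain ⟨d, rfl⟩ := Nat.exists_eq_add_of_le hk
  induction d with
  | zero => exact h
  | succ d ih => exact ih (Nat.le_add_right _ _) (GkB.of_succ h)

theorem GkB.subset {k : ℕ} (h : GkB α S k g K) (hS : S' ⊆ S) : GkB α S' k g K := by
  induction k generalizing g with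
  | zero => exact C2aB.subset h hS
  | succ k ih => exact ⟨C2aB.subset h.1 hS, fun e he => ih (h.2 e he)⟩

theorem GkB.mono {k : ℕ} (h : GkB α S k g K) (hK : K ≤ K') : GkB α S k g K' := by
  induction k generalizing g with
  | zero => exact C2aB.mono h hK
  | succ k ih => exact ⟨C2aB.mono h.1 hK, fun e he => ih (h.2 e he)⟩

/-- smooth functions with bounded derivatives on a convex open set. -/
theorem exists_GkB_of_SmB (α : ℝ) (hα : 0 < α) (hα1 : α ≤ 1) (k : ℕ) (C : ℕ → ℝ) : ∃ K : ℝ, 0 ≤ K ∧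
    ∀ (S : Set E) (g : E → ℝ), IsOpen S → Convex ℝ S → SmB S g C → GkB α S k g K := by
  induction k generalizing C with
  | zero =>
    refine ⟨|C 0 + C 1 + 2 * C 2 + C 3|, abs_nonneg _, fun S g hS hc h => ?_⟩
    exact (h.C2aB hS hc hα hα1).mono (le_abs_self _)
  | succ k ih =>
    obtain ⟨K₁, hK₁, ih⟩ := ih (fun j => C (j + 1))
    refine ⟨|C 0 + C 1 + 2 * C 2 + C 3| + K₁, by positivity, fun S g hS hc h => ?_⟩
    refine ⟨(h.C2aB hS hc hα hα1).mono ((le_abs_self _).trans (le_add_of_nonneg_right hK₁)),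
      fun e he => ?_⟩
    have hQ : UniqueDiffOn ℝ S := hS.uniqueDiffOn
    have h1 : SmB S (fderiv ℝ g) (fun j => C (j + 1)) :=
      (h.fderivWithin hQ).congr (fun q hq => (fderivWithin_of_isOpen hS hq).symm)
    have h2 : SmB S (fun x => fderiv ℝ g x e) (fun j => C (j + 1)) :=
      h1.clm_comp_le_one hQ (ContinuousLinearMap.apply ℝ ℝ e) (by
        refine ContinuousLinearMap.opNorm_le_bound _ zero_le_one (fun A => ?_)
        rw [one_mul]
        calc ‖ContinuousLinearMap.apply ℝ ℝ e A‖ = ‖A e‖ := rfl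
          _ ≤ ‖A‖ * ‖e‖ := A.le_opNorm e
          _ ≤ ‖A‖ * 1 := mul_le_mul_of_nonneg_left he (norm_nonneg _)
          _ = ‖A‖ := mul_one _)
    exact (ih S _ hS hc h2).mono (le_add_of_nonneg_left (abs_nonneg _))

end Init

/-- composition constant of the spatial Hölder classes. -/
def κY (CH : ℕ → ℝ) (K : ℝ) : ℝ := 2 * |CH 0| + |CH 1| * (1 + |K|)

/-- the spatial Hölder classes form a base class. -/
theorem isBase_YB {α : ℝ} (hα : 0 < α) (hα1 : α ≤ 1) {I : Set ℝ} (hI : UniqueDiffOn ℝ I) {S : Set E}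
    (hS : IsOpen S) (hc : Convex ℝ S) : IsBase (fun G _ _ => YB (F := G) α I S) I S 2 κY where
  mono := fun h hK => h.mono hK
  congr := fun h he => h.congr he
  add := fun h₁ h₂ => h₁.add h₂
  clm := fun L _ _ h => ⟨L.continuous.comp_continuousOn h.cont, fun t ht => (h.sup t ht).clm_comp L,
    fun t ht => (h.hol t ht).clm_comp L⟩
  app := fun hA hv ha hb => hA.clm_apply hv ha hb
  prod := fun hf hg => ⟨hf.cont.prodMk hg.cont,
    fun t ht x hx => max_le (hf.sup t ht x hx) (hg.sup t ht x hx),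
    fun t ht x hx y hy => max_le (hf.hol t ht x hx y hy) (hg.hol t ht x hx y hy)⟩
  const := fun a => ⟨continuousOn_const, fun _ _ _ _ => le_rfl, fun _ _ x _ y _ => by
    rw [sub_self, norm_zero]
    exact mul_nonneg (norm_nonneg _) (Real.rpow_nonneg (norm_nonneg _) _)⟩
  comp := by
    intro CH δ δ' K hδ W G _ _ _ _ H J hH hJ hJb
    have hU : IsOpen (S ×ˢ ball (0 : W) δ) := hS.prod isOpen_ball
    have hmem : ∀ t ∈ I, ∀ x ∈ S, (x, J t x) ∈ S ×ˢ ball (0 : W) δ := fun t ht x hx =>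
      ⟨hx, by rw [mem_ball_zero_iff]; exact (hJb t ht x hx).trans_lt hδ⟩
    have hsup : ∀ t ∈ I, ∀ x ∈ S, ‖H t x (J t x)‖ ≤ |CH 0| := fun t ht x hx =>
      (SmB.norm_le hH (q := (t, x, J t x)) ⟨ht, hmem t ht x hx⟩).trans (le_abs_self _)
    have hpos : 0 ≤ |CH 1| * (1 + |K|) := by positivity
    refine ⟨?_, fun t ht x hx => ?_, fun t ht x hx y hy => ?_⟩
    · refine hH.smooth.continuousOn.comp
        (f := fun q : ℝ × E => ((q.1, q.2, J q.1 q.2) : ℝ × E × W)) ?_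
        (fun q hq => ⟨hq.1, hmem _ hq.1 _ hq.2⟩)
      exact continuousOn_fst.prodMk (continuousOn_snd.prodMk hJ.cont)
    · have := hsup t ht x hx
      have h0 := abs_nonneg (CH 0)
      simp only [κY]
      linarith
    · have hs : SmB (S ×ˢ ball (0 : W) δ) (fun w : E × W => H t w.1 w.2) CH :=
        SmB.slice hI hU hH ht
      have hl := hs.lip (hc.prod (convex_ball _ _)) (hmem t ht x hx) (hmem t ht y hy)
      simp only [Prod.mk_sub_mk, Prod.norm_mk] at hl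
      have hd : 0 ≤ ‖x - y‖ := norm_nonneg _
      have hr : 0 ≤ ‖x - y‖ ^ α := Real.rpow_nonneg hd _
      have hJh : ‖J t x - J t y‖ ≤ |K| * ‖x - y‖ ^ α :=
        (hJ.hol t ht x hx y hy).trans (mul_le_mul_of_nonneg_right (le_abs_self K) hr)
      simp only [κY]
      rcases le_total ‖x - y‖ 1 with h | h
      · have h1 : ‖x - y‖ ≤ ‖x - y‖ ^ α := by
          have := Real.rpow_le_rpow_of_exponent_ge' hd h hα.le hα1
          rwa [Real.rpow_one] at this
        have h2 : max ‖x - y‖ ‖J t x - J t y‖ ≤ (1 + |K|) * ‖x - y‖ ^ α := by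
          refine max_le ?_ ?_
          · nlinarith [abs_nonneg K]
          · nlinarith [abs_nonneg K]
        calc ‖H t x (J t x) - H t y (J t y)‖ ≤ CH 1 * max ‖x - y‖ ‖J t x - J t y‖ := hl
          _ ≤ |CH 1| * max ‖x - y‖ ‖J t x - J t y‖ :=
              mul_le_mul_of_nonneg_right (le_abs_self _) (le_max_of_le_left hd)
          _ ≤ |CH 1| * ((1 + |K|) * ‖x - y‖ ^ α) := mul_le_mul_of_nonneg_left h2 (abs_nonneg _)
          _ ≤ (2 * |CH 0| + |CH 1| * (1 + |K|)) * ‖x - y‖ ^ α := by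
              nlinarith [abs_nonneg (CH 0)]
      · have h1 : 1 ≤ ‖x - y‖ ^ α := Real.one_le_rpow h hα.le
        calc ‖H t x (J t x) - H t y (J t y)‖ ≤ ‖H t x (J t x)‖ + ‖H t y (J t y)‖ := norm_sub_le _ _
          _ ≤ |CH 0| + |CH 0| := add_le_add (hsup t ht x hx) (hsup t ht y hy)
          _ ≤ (2 * |CH 0| + |CH 1| * (1 + |K|)) * ‖x - y‖ ^ α := by
              nlinarith [abs_nonneg (CH 0)]

/-- derivatives of order `≥ 1` of a linear contraction. -/
theorem norm_iteratedFDerivWithin_clm_le_one {W G : Type*} [NormedAddCommGroup W] [NormedSpace ℝ W]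
    [NormedAddCommGroup G] [NormedSpace ℝ G] {Q : Set W} (hQ : UniqueDiffOn ℝ Q) (L : W →L[ℝ] G)
    (hL : ‖L‖ ≤ 1) {i : ℕ} (hi : 1 ≤ i) {q : W} (hq : q ∈ Q) :
    ‖iteratedFDerivWithin ℝ i (fun q => L q) Q q‖ ≤ 1 := by
  have hfd : ∀ x ∈ Q, fderivWithin ℝ (fun q => L q) Q x = L := fun x hx =>
    (L.hasFDerivWithinAt).fderivWithin (hQ x hx)
  obtain ⟨k, rfl⟩ : ∃ k, i = k + 1 := ⟨i - 1, by omega⟩
  rw [← norm_iteratedFDerivWithin_fderivWithin hQ hq,
    iteratedFDerivWithin_congr (f := fun _ => L) (fun x hx => hfd x hx) hq k]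
  rcases k with _ | k
  · simpa [norm_iteratedFDerivWithin_zero] using hL
  · rw [iteratedFDerivWithin_succ_const]
    simp

/-- the jointly `C^n` classes form a base class. -/
theorem exists_isBase_CnB (n : ℕ) : ∃ κ : (ℕ → ℝ) → ℝ → ℝ,
    ∀ (I : Set ℝ) (S : Set E), UniqueDiffOn ℝ I → IsOpen S →
      IsBase (fun G _ _ => CnB (G := G) n I S) I S (2 ^ n) κ := by
  refine ⟨fun CH K => (n.factorial : ℝ) * (∑ i ∈ Finset.range (n + 1), |CH i|) * (1 + |K|) ^ n, ?_⟩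
  intro I S hI hS
  have hQ : UniqueDiffOn ℝ (I ×ˢ S) := hI.prod hS.uniqueDiffOn
  have hcast : ∀ j : ℕ, j ≤ n → ((j : ℕ) : WithTop ℕ∞) ≤ (n : WithTop ℕ∞) := fun j hj => by
    exact_mod_cast hj
  refine
    { mono := ?_, congr := ?_, add := ?_, clm := ?_, app := ?_, prod := ?_, const := ?_, comp := ?_ }
  · intro G _ _ f K K' h hK
    exact ⟨h.1, fun j hj q hq => (h.2 j hj q hq).trans hK⟩
  · intro G _ _ f f' K h he
    refine ⟨h.1.congr (fun q hq => he q.1 hq.1 q.2 hq.2), fun j hj q hq => ?_⟩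
    rw [iteratedFDerivWithin_congr (fun x hx => he x.1 hx.1 x.2 hx.2) hq j]
    exact h.2 j hj q hq
  · intro G _ _ f g K₁ K₂ hf hg
    refine ⟨hf.1.add hg.1, fun j hj q hq => ?_⟩
    rw [fun_iteratedFDerivWithin_add_apply ((hf.1 q hq).of_le (hcast j hj))
      ((hg.1 q hq).of_le (hcast j hj)) hQ hq]
    exact (norm_add_le _ _).trans (add_le_add (hf.2 j hj q hq) (hg.2 j hj q hq))
  · intro G G' _ _ _ _ L f K h
    refine ⟨L.contDiff.comp_contDiffOn h.1, fun j hj q hq => ?_⟩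
    refine (L.norm_iteratedFDerivWithin_comp_left (h.1 q hq) hQ hq (hcast j hj)).trans ?_
    exact mul_le_mul_of_nonneg_left (h.2 j hj q hq) (norm_nonneg _)
  · intro G G' _ _ _ _ A v a b hA hv ha hb
    refine ⟨hA.1.clm_apply hv.1, fun j hj q hq => ?_⟩
    refine (norm_iteratedFDerivWithin_clm_apply hA.1 hv.1 hQ hq (hcast j hj)).trans ?_
    have h1 : ∀ i ∈ Finset.range (j + 1),
        (j.choose i : ℝ) * ‖iteratedFDerivWithin ℝ i (fun q : ℝ × E => A q.1 q.2) (I ×ˢ S) q‖ *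
          ‖iteratedFDerivWithin ℝ (j - i) (fun q : ℝ × E => v q.1 q.2) (I ×ˢ S) q‖
          ≤ (j.choose i : ℝ) * (a * b) := by
      intro i hi
      have hij : i ≤ j := Nat.lt_succ_iff.1 (Finset.mem_range.1 hi)
      rw [mul_assoc]
      refine mul_le_mul_of_nonneg_left ?_ (Nat.cast_nonneg _)
      exact mul_le_mul (hA.2 i (hij.trans hj) q hq) (hv.2 (j - i) ((Nat.sub_le _ _).trans hj) q hq)
        (norm_nonneg _) ha
    refine (Finset.sum_le_sum h1).trans ?_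
    rw [← Finset.sum_mul]
    have h2 : (∑ i ∈ Finset.range (j + 1), (j.choose i : ℝ)) = 2 ^ j := by
      exact_mod_cast Nat.sum_range_choose j
    rw [h2, mul_assoc]
    refine mul_le_mul_of_nonneg_right ?_ (mul_nonneg ha hb)
    exact pow_le_pow_right₀ (by norm_num) hj
  · intro G G' _ _ _ _ f g K hf hg
    refine ⟨hf.1.prodMk hg.1, fun j hj q hq => ?_⟩
    rw [iteratedFDerivWithin_prodMk (hf.1 q hq) (hg.1 q hq) hQ hq (hcast j hj),
      ContinuousMultilinearMap.opNorm_prod]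
    exact max_le (hf.2 j hj q hq) (hg.2 j hj q hq)
  · intro G _ _ a
    refine ⟨contDiffOn_const, fun j hj q hq => ?_⟩
    rcases j with _ | j
    · rw [norm_iteratedFDerivWithin_zero]
    · rw [iteratedFDerivWithin_succ_const]
      simp
  · intro CH δ δ' K hδ W G _ _ _ _ H J hH hJ hJb
    have hU : IsOpen (S ×ˢ ball (0 : W) δ) := hS.prod isOpen_ball
    have hT : UniqueDiffOn ℝ (I ×ˢ S ×ˢ ball (0 : W) δ) := hI.prod hU.uniqueDiffOn
    have hφ : ContDiffOn ℝ n (fun q : ℝ × E => ((q.1, q.2, J q.1 q.2) : ℝ × E × W)) (I ×ˢ S) :=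
      contDiffOn_fst.prodMk (contDiffOn_snd.prodMk hJ.1)
    have hm : MapsTo (fun q : ℝ × E => ((q.1, q.2, J q.1 q.2) : ℝ × E × W)) (I ×ˢ S)
        (I ×ˢ S ×ˢ ball (0 : W) δ) := fun q hq =>
      ⟨hq.1, hq.2, by rw [mem_ball_zero_iff]; exact (hJb _ hq.1 _ hq.2).trans_lt hδ⟩
    have hHn : ContDiffOn ℝ n (fun q : ℝ × E × W => H q.1 q.2.1 q.2.2) (I ×ˢ S ×ˢ ball (0 : W) δ) :=
      hH.smooth.of_le (by exact_mod_cast le_top)
    refine ⟨hHn.comp hφ hm, fun j hj q hq => ?_⟩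
    have hD1 : (1 : ℝ) ≤ 1 + |K| := le_add_of_nonneg_right (abs_nonneg K)
    have hC0 : 0 ≤ ∑ i ∈ Finset.range (n + 1), |CH i| := Finset.sum_nonneg (fun _ _ => abs_nonneg _)
    have key := norm_iteratedFDerivWithin_comp_le (n := j) hHn hφ (hcast j hj) hT hQ hm hq
      (C := ∑ i ∈ Finset.range (n + 1), |CH i|) (D := 1 + |K|) ?_ ?_
    · refine key.trans ?_
      have a1 : (j.factorial : ℝ) ≤ n.factorial := by exact_mod_cast Nat.factorial_le hj
      have a2 : (1 + |K|) ^ j ≤ (1 + |K|) ^ n := pow_le_pow_right₀ hD1 hj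
      exact mul_le_mul (mul_le_mul_of_nonneg_right a1 hC0) a2 (by positivity) (by positivity)
    · intro i hi
      refine (hH.bdd i _ (hm hq)).trans ((le_abs_self _).trans ?_)
      exact Finset.single_le_sum (f := fun i => |CH i|) (fun _ _ => abs_nonneg _)
        (Finset.mem_range.2 (Nat.lt_succ_iff.2 (hi.trans hj)))
    · intro i hi1 hij
      have hin : i ≤ n := hij.trans hj
      have c1 : ContDiffWithinAt ℝ n (fun q : ℝ × E => q.1) (I ×ˢ S) q := contDiffWithinAt_fst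
      have c2 : ContDiffWithinAt ℝ n (fun q : ℝ × E => q.2) (I ×ˢ S) q := contDiffWithinAt_snd
      rw [iteratedFDerivWithin_prodMk c1 (c2.prodMk (hJ.1 q hq)) hQ hq (hcast i hin),
        ContinuousMultilinearMap.opNorm_prod,
        iteratedFDerivWithin_prodMk c2 (hJ.1 q hq) hQ hq (hcast i hin),
        ContinuousMultilinearMap.opNorm_prod]
      have b1 := norm_iteratedFDerivWithin_clm_le_one hQ (ContinuousLinearMap.fst ℝ ℝ E)
        (ContinuousLinearMap.norm_fst_le ℝ ℝ E) hi1 hq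
      have b2 := norm_iteratedFDerivWithin_clm_le_one hQ (ContinuousLinearMap.snd ℝ ℝ E)
        (ContinuousLinearMap.norm_snd_le ℝ ℝ E) hi1 hq
      have b3 := (hJ.2 i hin q hq).trans (le_abs_self K)
      have b4 : 1 + |K| ≤ (1 + |K|) ^ i := le_self_pow₀ hD1 (by omega)
      refine le_trans (max_le ?_ (max_le ?_ ?_)) b4
      · exact b1.trans hD1
      · exact b2.trans hD1
      · linarith

end Claimed.Agent.R316.B8M
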