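import Claimed.Agent.R316.B8M.RegDQ

/-!
# B8M-REG (M7), spatial regularity of all orders, with bounds

* `exists_lin_reg k` (`L_k`): `w ∈ X(ball x₀ R)`, `w_t - P jet w = f`, `P` admissible, `P, f ∈ Y^k`, `w(0) ∈ C^{k+2+α}`  ⟹  `w ∈ X^k(ball x₀ r)`, with `r` and the bound depending only on the constants.
* `exists_nl_reg k` (`N_k`): the same for `u_t = F(t,x,jet u)`, `F` smooth with bounded derivatives on the tube.

LEAVES (proofs only):  B8M-REG-XK = section `Classes`, `exists_adm_along`.  (`exists_lin_reg`, `exists_nl_reg` are PROVED.)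

Recipes.
* `XkB.contDiffOn3`: `De e (u t)`, `‖e‖ ≤ 1`, is `C²` on `S`, `u t` is differentiable: `contDiffOn_succ_iff_fderiv_of_isOpen`, `contDiffOn_clm_apply`, scaling in `e`.
* `XkB.jet_YkB`: induction on `k` generalising `(u, ut)`; `k = 0`: `B8.XB.jet_YB`; step: `jet u t` is differentiable on `S` (`u t ∈ C³`), `De e (jet u) = jet (De e u)` on `S` (`B8.De_jet`), `Rk.congr` with `isBase_YB`.
* `XkB.ut_YkB`: `Pk.snd` with `YB` from `C21.contt`, `XB.bt`, `XB.ht`.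
* `exists_adm_along`: `coef`: `isBase_YB.comp` for `H t x J = fderiv ℝ (F t x) J` (`SmF.fderiv_J`, `SmB.subset`) and `J = jet u` (`XB.jet_YB`, constant `3K`); `time`: `SmF.lip` for `SmF.fderiv_J` (constant `CF 2`), `exists_jet_time_ball`, `|t-s| ≤ max 1 Tm · |t-s|^{α/(2+α)}`-type inequality, `‖topJ B‖ = ‖B‖`.
* `exists_lin_reg`: induction on `k`, all constants quantified.  `k = 0`: `r = R`, `C = max K 0`.  Step `k+1`, constants `(α,γ,lam,M,K,G,Tm,R)`: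
  `M₁` from `exists_F1B_of_linear α γ (K+1) lam M`;  `C₁` from `exists_first_deriv α γ (K+1) K lam M₁ K G Tm R`;  `(C₂,r₂)` from the induction hypothesis with the same constants;  `R₂ = min (R/8) r₂`;  `C_a` from `exists_Rk_app 2 k`;
  `M₂ = M + C_a M (3 C₂)`;  `(C₃,r₃)` from the induction hypothesis with `(α,γ,lam,max M M₂,C₁,G,Tm,R₂)`;  `r = r₃`, `C = max C₁ C₃`.
  For the data: `wt = P (jet w) + f`; `exists_first_deriv` gives `XkB 1 w` on `ball x₀ (R/8)` and (`linDF_apply`) `Lop P (De e w) (De e wt) = f_e := De e f + De e P (jet w)`;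
  `f_e ∈ Y^k(ball x₀ R₂)` with constant `M₂` (`Rk.De`, `XkB.jet_YkB`, `exists_Rk_app`, `Rk.add`); `De e w 0 = fun x => fderiv ℝ (w 0) x e` (`rfl`), so `GkB k` from `GkB (k+1)`.
* `exists_nl_reg`: induction on `k`.  Step `k+1`: `M₁` from `exists_F1B_of_SmF`, `C₁` from `exists_first_deriv α 1 δ δ' lam M₁ K G Tm R`, `(C₂,r₂)` from the induction hypothesis, `R₂ = min (R/8) r₂`, `R₃ = R₂/2`, `M₃` from `exists_adm_along … (ρ = R₃)`,
  `C_c` from `exists_Rk_comp 2 κY k (CF (· + 1)) (3 C₂)`; then `exists_lin_reg k` with `(α, α/(2+α), lam, max M₃ C_c, C₁, G, Tm, R₃)` for `w = De e u`, `P t x = fderiv ℝ (F t x) (jet u t x)`, `f t x = fderiv ℝ (fun z => F t z (jet u t x)) x e`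
  (`SmF.fderiv_zJ_apply`; `f = ev_e ∘ (D_zF)(jet u)`: `SmF.fderiv_z`, `Rk.clm` with `ContinuousLinearMap.apply ℝ ℝ e`, norm `≤ 1`).
-/

set_option autoImplicit false
set_option maxSynthPendingDepth 3
set_option linter.unusedSectionVars false

open scoped Topology ContDiff
open Set Filter Metric

namespace Claimed.Agent.R316.B8M

open Claimed.Agent.R316.B8

variable {E : Type} [NormedAddCommGroup E] [InnerProductSpace ℝ E] [FiniteDimensional ℝ E]

section Classes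

variable {α K K' : ℝ} {I I' : Set ℝ} {S S' : Set E} {k : ℕ} {u ut : ℝ → E → ℝ}

theorem XkB.mono (h : XkB α I S k u ut K) (hK : K ≤ K') : XkB α I S k u ut K' :=
  Pk.imp subset_rfl subset_rfl (fun _ _ h => ⟨h.1, h.2.mono hK⟩) h

theorem XkB.subset (h : XkB α I S k u ut K) (hI : I' ⊆ I) (hS : S' ⊆ S) : XkB α I' S' k u ut K :=
  Pk.imp hI hS (fun _ _ h => ⟨h.1.subset hI hS, h.2.subset hI hS⟩) h

theorem YkB.mono {G : Type} [NormedAddCommGroup G] [NormedSpace ℝ G] {f : ℝ → E → G}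
    (h : YkB α I S k f K) (hK : K ≤ K') : YkB α I S k f K' :=
  Rk.imp subset_rfl subset_rfl (fun _ h => h.mono hK) h

theorem YkB.subset {G : Type} [NormedAddCommGroup G] [NormedSpace ℝ G] {f : ℝ → E → G}
    (h : YkB α I S k f K) (hI : I' ⊆ I) (hS : S' ⊆ S) : YkB α I' S' k f K :=
  Rk.imp hI hS (fun _ h => h.subset hI hS) h

theorem XkB.contDiffOn3 (hS : IsOpen S) (h : XkB α I S (k + 1) u ut K) :
    ∀ t ∈ I, ContDiffOn ℝ 3 (u t) S := by
  intro t ht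
  have e1 : (3 : WithTop ℕ∞) = 2 + 1 := by norm_num
  rw [e1, contDiffOn_succ_iff_fderiv_of_isOpen hS]
  refine ⟨h.2.1 t ht, fun hk => absurd hk (by decide), ?_⟩
  rw [contDiffOn_clm_apply]
  intro e
  have h1 : ‖‖e‖⁻¹ • e‖ ≤ 1 := by
    rw [norm_smul, norm_inv, norm_norm]
    exact inv_mul_le_one
  have h2 : ContDiffOn ℝ 2 (De (‖e‖⁻¹ • e) u t) S := (Pk.base (h.2.2.2 _ h1)).1.c2 t ht
  have h3 : (fun x => fderiv ℝ (u t) x e) = fun x => ‖e‖ • De (‖e‖⁻¹ • e) u t x := by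
    funext x
    simp only [De]
    rw [← map_smul]
    congr 1
    by_cases he : e = 0
    · simp [he]
    · rw [smul_smul, mul_inv_cancel₀ (norm_ne_zero_iff.2 he), one_smul]
  rw [h3]
  exact (contDiffOn_const (c := ‖e‖)).smul h2

/-- jets of `X^k` functions are in `Y^k`. -/
theorem XkB.jet_YkB (hα : 0 < α) (hα1 : α ≤ 1) (hI : UniqueDiffOn ℝ I) (hS : IsOpen S)
    (hc : Convex ℝ S) (hK : 0 ≤ K) (h : XkB α I S k u ut K) : YkB α I S k (jet u) (3 * K) := by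
  have hb := isBase_YB (E := E) hα hα1 hI hS hc
  induction k generalizing u ut with
  | zero => exact XB.jet_YB hα hα1 hS hc h.1 h.2 hK
  | succ k ih =>
    have h3 := XkB.contDiffOn3 hS h
    refine ⟨XB.jet_YB hα hα1 hS hc h.1.1 h.1.2 hK, fun t ht => ?_, fun e he => ?_⟩
    · have c3 := h3 t ht
      have d0 : DifferentiableOn ℝ (u t) S := c3.differentiableOn (by norm_num)
      have c2 : ContDiffOn ℝ 2 (fderiv ℝ (u t)) S := c3.fderiv_of_isOpen hS (by norm_num)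
      have d1 : DifferentiableOn ℝ (fderiv ℝ (u t)) S := c2.differentiableOn (by norm_num)
      have c1 : ContDiffOn ℝ 1 (fderiv ℝ (fderiv ℝ (u t))) S := c2.fderiv_of_isOpen hS (by norm_num)
      have d2 : DifferentiableOn ℝ (fderiv ℝ (fderiv ℝ (u t))) S := c1.differentiableOn (by norm_num)
      exact d0.prodMk (d1.prodMk d2)
    · exact Rk.congr hb hS (ih (h.2.2.2 e he)) (fun t ht x hx => De_jet hS (h3 t ht) e hx)

theorem XkB.ut_YkB (h : XkB α I S k u ut K) : YkB α I S k ut K :=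
  Pk.snd (fun _ _ h => ⟨h.1.contt, h.2.bt, h.2.ht⟩) h

end Classes

/-- `d ≤ max 1 Tm · d ^ γ` for `0 ≤ d ≤ Tm`, `0 ≤ γ ≤ 1`. -/
theorem le_max_one_mul_rpow {d Tm γ : ℝ} (hd : 0 ≤ d) (hdT : d ≤ Tm) (hγ : 0 ≤ γ) (hγ1 : γ ≤ 1) :
    d ≤ max 1 Tm * d ^ γ := by
  have hr : 0 ≤ d ^ γ := Real.rpow_nonneg hd _
  rcases le_total d 1 with h | h
  · have h1 : d ≤ d ^ γ := by
      have := Real.rpow_le_rpow_of_exponent_ge' hd h hγ hγ1
      rwa [Real.rpow_one] at this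
    calc d ≤ 1 * d ^ γ := by rw [one_mul]; exact h1
      _ ≤ max 1 Tm * d ^ γ := mul_le_mul_of_nonneg_right (le_max_left _ _) hr
  · have h1 : 1 ≤ d ^ γ := Real.one_le_rpow h hγ
    calc d ≤ max 1 Tm * 1 := by rw [mul_one]; exact hdT.trans (le_max_right _ _)
      _ ≤ max 1 Tm * d ^ γ := mul_le_mul_of_nonneg_left h1 (le_max_of_le_left zero_le_one)

/-- the linearisation along a solution is an admissible operator. -/
theorem exists_adm_along (α δ δ' lam K Tm ρ : ℝ) (CF : ℕ → ℝ) (hα : 0 < α) (hα1 : α ≤ 1)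
    (hδ : δ' < δ) (hTm : 0 < Tm) (hρ : 0 < ρ) : ∃ M : ℝ, 0 ≤ M ∧
    ∀ (T r : ℝ) (x₀ : E) (F : ℝ → E → Jet E → ℝ) (u ut : ℝ → E → ℝ), 0 < T → T ≤ Tm →
      ball x₀ (r + ρ) ⊆ ball (0 : E) 3 → SmF (Icc 0 T) 3 δ F CF →
      (∀ t ∈ Icc 0 T, ∀ z ∈ ball (0 : E) 3, ∀ J ∈ ball (0 : Jet E) δ, ∀ ξ : E →L[ℝ] ℝ,
        lam * ‖ξ‖ ^ 2 ≤ fderiv ℝ (F t z) J (topJ (sqB ξ))) →
      C21 (Icc 0 T) (ball x₀ (r + ρ)) u ut → XB α (Icc 0 T) (ball x₀ (r + ρ)) u ut K →
      (∀ t ∈ Icc 0 T, ∀ x ∈ ball x₀ (r + ρ), ‖jet u t x‖ ≤ δ') →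
      Adm (fun t x => fderiv ℝ (F t x) (jet u t x)) α (α / (2 + α)) lam M (Icc 0 T)
        (ball x₀ r) := by
  obtain ⟨Cj, hCj, hjt⟩ := exists_jet_time_ball (E := E) α Tm ρ hα hα1 hTm hρ
  obtain ⟨K', hK'def⟩ : ∃ K' : ℝ, K' = max K 0 := ⟨_, rfl⟩
  have hK' : 0 ≤ K' := hK'def ▸ le_max_right _ _
  have hKK' : K ≤ K' := hK'def ▸ le_max_left _ _
  have hκ : 0 ≤ κY (fun j => CF (j + 1)) (3 * K') := by
    simp only [κY]; positivity
  have hm : 0 ≤ |CF 2| * (max 1 Tm + Cj * K') := by positivity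
  refine ⟨κY (fun j => CF (j + 1)) (3 * K') + |CF 2| * (max 1 Tm + Cj * K'), by positivity, ?_⟩
  intro T r x₀ F u ut hT hTT hsub hF hell hu hX hj
  have hI : UniqueDiffOn ℝ (Icc (0 : ℝ) T) := uniqueDiffOn_Icc hT
  have hIc : Convex ℝ (Icc (0 : ℝ) T) := convex_Icc _ _
  have hG := hF.fderiv_J hI
  have hrr : ball x₀ r ⊆ ball x₀ (r + ρ) := ball_subset_ball (by linarith)
  have hX' := hX.mono hKK'
  have hJm : ∀ t ∈ Icc 0 T, ∀ x ∈ ball x₀ r, jet u t x ∈ ball (0 : Jet E) δ := fun t ht x hx => by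
    rw [mem_ball_zero_iff]; exact (hj t ht x (hrr hx)).trans_lt hδ
  refine ⟨fun t ht x hx ξ => hell t ht x (hsub (hrr hx)) _ (hJm t ht x hx) ξ, ?_,
    fun t ht s hs x hx B => ?_⟩
  · have hb := isBase_YB (E := E) hα hα1 hI (isOpen_ball (x := x₀) (ε := r)) (convex_ball x₀ r)
    have hQ' : UniqueDiffOn ℝ (Icc (0 : ℝ) T ×ˢ ball x₀ r ×ˢ ball (0 : Jet E) δ) :=
      hI.prod (isOpen_ball.uniqueDiffOn.prod isOpen_ball.uniqueDiffOn)
    have hQs : Icc (0 : ℝ) T ×ˢ ball x₀ r ×ˢ ball (0 : Jet E) δ ⊆ Tube E (Icc 0 T) 3 δ :=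
      Set.prod_mono subset_rfl (Set.prod_mono (hrr.trans hsub) subset_rfl)
    have h1 := hb.comp (fun j => CF (j + 1)) δ δ' (3 * K') hδ (Jet E) (Jet E →L[ℝ] ℝ)
      (fun t z J => fderiv ℝ (F t z) J) (jet u)
      (SmB.subset hG (uniqueDiffOn_tube hI 3 δ) hQ' hQs)
      (XB.jet_YB hα hα1 isOpen_ball (convex_ball _ _) (hu.subset subset_rfl hrr)
        (hX'.subset subset_rfl hrr) hK') (fun t ht x hx => hj t ht x (hrr hx))
    exact h1.mono (le_add_of_nonneg_right hm)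
  · have hγ0 : 0 ≤ α / (2 + α) := by positivity
    have hγ1 : α / (2 + α) ≤ 1 := by
      rw [div_le_one (by positivity)]; linarith
    have hx3 := hsub (hrr hx)
    have h1 := hG.lip hIc ht hs hx3 hx3 (hJm t ht x hx) (hJm s hs x hx)
    have h2 := hjt T K' r x₀ u ut hT hTT hu hX' t ht s hs x hx
    have hd : |t - s| ≤ Tm := by
      rw [abs_le]
      constructor <;> linarith [ht.1, ht.2, hs.1, hs.2]
    have h3 := le_max_one_mul_rpow (abs_nonneg (t - s)) hd hγ0 hγ1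
    have hr : 0 ≤ |t - s| ^ (α / (2 + α)) := Real.rpow_nonneg (abs_nonneg _) _
    have h4 : max |t - s| (max ‖x - x‖ ‖jet u t x - jet u s x‖)
        ≤ (max 1 Tm + Cj * K') * |t - s| ^ (α / (2 + α)) := by
      have a1 : 0 ≤ Cj * K' * |t - s| ^ (α / (2 + α)) := by positivity
      have a2 : 0 ≤ max 1 Tm * |t - s| ^ (α / (2 + α)) := by positivity
      refine max_le ?_ (max_le ?_ ?_)
      · nlinarith
      · rw [sub_self, norm_zero]; nlinarith
      · nlinarith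
    rw [← _root_.sub_apply, ← Real.norm_eq_abs]
    refine (ContinuousLinearMap.le_opNorm _ _).trans ?_
    rw [norm_topJ]
    refine mul_le_mul_of_nonneg_right ?_ (norm_nonneg _)
    calc ‖fderiv ℝ (F t x) (jet u t x) - fderiv ℝ (F s x) (jet u s x)‖
        ≤ CF 2 * max |t - s| (max ‖x - x‖ ‖jet u t x - jet u s x‖) := h1
      _ ≤ |CF 2| * max |t - s| (max ‖x - x‖ ‖jet u t x - jet u s x‖) :=
          mul_le_mul_of_nonneg_right (le_abs_self _) (le_max_of_le_left (abs_nonneg _))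
      _ ≤ |CF 2| * ((max 1 Tm + Cj * K') * |t - s| ^ (α / (2 + α))) :=
          mul_le_mul_of_nonneg_left h4 (abs_nonneg _)
      _ = |CF 2| * (max 1 Tm + Cj * K') * |t - s| ^ (α / (2 + α)) := by ring
      _ ≤ (κY (fun j => CF (j + 1)) (3 * K') + |CF 2| * (max 1 Tm + Cj * K'))
            * |t - s| ^ (α / (2 + α)) :=
          mul_le_mul_of_nonneg_right (le_add_of_nonneg_left hκ) hr

/-- **`L_k`: spatial regularity of order `k` for linear equations.** -/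
theorem exists_lin_reg (k : ℕ) : ∀ (α γ lam M K G Tm R : ℝ), 0 < α → α < 1 → 0 < γ → 0 < lam →
    0 < Tm → 0 < R → R ≤ 1 → ∃ C r : ℝ, 0 ≤ C ∧ 0 < r ∧ r ≤ R ∧
    ∀ (T : ℝ) (x₀ : E) (P : Op E) (f w wt : ℝ → E → ℝ), 0 < T → T ≤ Tm →
      Adm P α γ lam M (Icc 0 T) (ball x₀ R) → YkB α (Icc 0 T) (ball x₀ R) k P M →
      YkB α (Icc 0 T) (ball x₀ R) k f M → C21 (Icc 0 T) (ball x₀ R) w wt →
      XB α (Icc 0 T) (ball x₀ R) w wt K → GkB α (ball x₀ R) k (w 0) G →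
      (∀ t ∈ Icc 0 T, ∀ x ∈ ball x₀ R, Lop P w wt t x = f t x) →
      XkB α (Icc 0 T) (ball x₀ r) k w wt C := by
  induction k with
  | zero =>
    intro α γ lam M K G Tm R hα hα1 hγ hlam hTm hR hR1
    refine ⟨max K 0, R, le_max_right _ _, hR, le_rfl, ?_⟩
    intro T x₀ P f w wt hT hTm' hP hPk hfk hw hX hG hL
    exact ⟨hw, hX.mono (le_max_left _ _)⟩
  | succ k ih =>
    intro α γ lam M K G Tm R hα hα1 hγ hlam hTm hR hR1
    obtain ⟨M₁, hM₁, hF1⟩ := exists_F1B_of_linear (E := E) α γ (K + 1) lam M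
    obtain ⟨C₁, hC₁, hD1⟩ := exists_first_deriv (E := E) α γ (K + 1) K lam M₁ K G Tm R hα hα1 hγ
      (by linarith) hlam hTm hR hR1
    obtain ⟨C₂, r₂, hC₂, hr₂, hr₂R, hI1⟩ := ih α γ lam M K G Tm R hα hα1 hγ hlam hTm hR hR1
    obtain ⟨Ca, hCa, happ⟩ := exists_Rk_app (E := E) 2 (by norm_num) k
    have hR₂ : 0 < min (R / 8) r₂ := lt_min (by positivity) hr₂
    have hR₂1 : min (R / 8) r₂ ≤ 1 := (min_le_right _ _).trans (hr₂R.trans hR1)
    obtain ⟨C₃, r₃, hC₃, hr₃, hr₃R, hI2⟩ := ih α γ lam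
      (max M 0 + Ca * max M 0 * (3 * C₂)) C₁ G Tm (min (R / 8) r₂) hα hα1 hγ hlam hTm hR₂ hR₂1
    have hM' : 0 ≤ max M 0 := le_max_right _ _
    have hMle : M ≤ max M 0 + Ca * max M 0 * (3 * C₂) := by
      have : 0 ≤ Ca * max M 0 * (3 * C₂) := by positivity
      linarith [le_max_left M 0]
    have hM'le : max M 0 ≤ max M 0 + Ca * max M 0 * (3 * C₂) := by
      have : 0 ≤ Ca * max M 0 * (3 * C₂) := by positivity
      linarith
    refine ⟨max C₁ C₃, r₃, le_max_of_le_left hC₁, hr₃,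
      hr₃R.trans ((min_le_right _ _).trans hr₂R), ?_⟩
    intro T x₀ P f w wt hT hTm' hP hPk hfk hw hX hG hL
    have hI : UniqueDiffOn ℝ (Icc (0 : ℝ) T) := uniqueDiffOn_Icc hT
    have hF := hF1 (Icc 0 T) (ball x₀ R) P f isOpen_ball hP (Rk.of_le (by omega) hPk)
      (Rk.of_le (by omega) hfk)
    have heq : ∀ t ∈ Icc 0 T, ∀ x ∈ ball x₀ R, wt t x = P t x (jet w t x) + f t x := by
      intro t ht x hx
      have := hL t ht x hx
      simp only [Lop] at this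
      linarith
    obtain ⟨h1, _, hde⟩ := hD1 T x₀ _ _ w wt hT hTm' hF hw hX
      (fun t ht x hx => hX.jet_sup t ht x hx) (hG.of_le (by omega)) heq
    have h2 := hI1 T x₀ P f w wt hT hTm' hP (Rk.of_succ hPk) (Rk.of_succ hfk) hw hX
      (hG.of_le (by omega)) hL
    have hsub8 : ball x₀ (min (R / 8) r₂) ⊆ ball x₀ (R / 8) := ball_subset_ball (min_le_left _ _)
    have hsub2 : ball x₀ (min (R / 8) r₂) ⊆ ball x₀ r₂ := ball_subset_ball (min_le_right _ _)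
    have hsubR : ball x₀ (min (R / 8) r₂) ⊆ ball x₀ R :=
      ball_subset_ball ((min_le_right _ _).trans hr₂R)
    have hsub3 : ball x₀ r₃ ⊆ ball x₀ (R / 8) := (ball_subset_ball hr₃R).trans hsub8
    have hjet : YkB α (Icc 0 T) (ball x₀ (min (R / 8) r₂)) k (jet w) (3 * C₂) :=
      (h2.subset subset_rfl hsub2).jet_YkB hα hα1.le hI isOpen_ball (convex_ball _ _) hC₂
    have hb := isBase_YB hα hα1.le hI (isOpen_ball (x := x₀) (ε := min (R / 8) r₂))
      (convex_ball x₀ _)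
    have key : ∀ e : E, ‖e‖ ≤ 1 → XkB α (Icc 0 T) (ball x₀ r₃) k (De e w) (De e wt) C₃ := by
      intro e he
      have hPe : YkB α (Icc 0 T) (ball x₀ (min (R / 8) r₂)) k (De e P) (max M 0) :=
        (YkB.subset (Rk.De hPk he) subset_rfl hsubR).mono (le_max_left _ _)
      have hfe : YkB α (Icc 0 T) (ball x₀ (min (R / 8) r₂)) k (De e f) (max M 0) :=
        (YkB.subset (Rk.De hfk he) subset_rfl hsubR).mono (le_max_left _ _)
      have happ' := happ _ (Icc 0 T) (ball x₀ (min (R / 8) r₂)) κY hb isOpen_ball (Jet E) ℝ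
        (De e P) (jet w) (max M 0) (3 * C₂) hM' (by positivity) hPe hjet
      have hfe' := Rk.add hb isOpen_ball hfe happ'
      have h1e := h1.2.2.2 e he
      have hP' : Adm P α γ lam (max M 0 + Ca * max M 0 * (3 * C₂)) (Icc 0 T)
          (ball x₀ (min (R / 8) r₂)) := by
        have h := hP.subset subset_rfl hsubR
        refine ⟨h.ell, h.coef.mono hMle, fun t ht s hs x hx B => (h.time t ht s hs x hx B).trans ?_⟩
        gcongr
      refine hI2 T x₀ P _ (De e w) (De e wt) hT hTm' hP'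
        ((YkB.subset (Rk.of_succ hPk) subset_rfl hsubR).mono hMle) hfe'
        (h1e.1.subset subset_rfl hsub8) (h1e.2.subset subset_rfl hsub8)
        ((hG.2 e he).subset hsubR) ?_
      intro t ht x hx
      have := hde e t ht x (hsub8 hx)
      rw [linDF_apply] at this
      simp only [Lop]
      linarith
    exact ⟨⟨h1.1.1.subset subset_rfl hsub3, (h1.1.2.subset subset_rfl hsub3).mono (le_max_left _ _)⟩,
      fun t ht => (h1.2.1 t ht).mono hsub3, fun t ht => (h1.2.2.1 t ht).mono hsub3,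
      fun e he => (key e he).mono (le_max_right _ _)⟩

/-- **`N_k`: spatial regularity of order `k` for fully nonlinear equations.** -/
theorem exists_nl_reg (k : ℕ) : ∀ (α δ δ' lam K G Tm R : ℝ) (CF : ℕ → ℝ), 0 < α → α < 1 → δ' < δ →
    0 < lam → 0 < Tm → 0 < R → R ≤ 1 → ∃ C r : ℝ, 0 ≤ C ∧ 0 < r ∧ r ≤ R ∧
    ∀ (T : ℝ) (x₀ : E) (F : ℝ → E → Jet E → ℝ) (u ut : ℝ → E → ℝ), 0 < T → T ≤ Tm →
      ball x₀ R ⊆ ball (0 : E) 3 → SmF (Icc 0 T) 3 δ F CF →
      (∀ t ∈ Icc 0 T, ∀ z ∈ ball (0 : E) 3, ∀ J ∈ ball (0 : Jet E) δ, ∀ ξ : E →L[ℝ] ℝ,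
        lam * ‖ξ‖ ^ 2 ≤ fderiv ℝ (F t z) J (topJ (sqB ξ))) →
      C21 (Icc 0 T) (ball x₀ R) u ut → XB α (Icc 0 T) (ball x₀ R) u ut K →
      (∀ t ∈ Icc 0 T, ∀ x ∈ ball x₀ R, ‖jet u t x‖ ≤ δ') → GkB α (ball x₀ R) k (u 0) G →
      (∀ t ∈ Icc 0 T, ∀ x ∈ ball x₀ R, ut t x = F t x (jet u t x)) →
      XkB α (Icc 0 T) (ball x₀ r) k u ut C := by
  induction k with
  | zero =>
    intro α δ δ' lam K G Tm R CF hα hα1 hδ hlam hTm hR hR1
    refine ⟨max K 0, R, le_max_right _ _, hR, le_rfl, ?_⟩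
    intro T x₀ F u ut hT hTm' hsub hF hell hu hX hj hG hsol
    exact ⟨hu, hX.mono (le_max_left _ _)⟩
  | succ k ih =>
    intro α δ δ' lam K G Tm R CF hα hα1 hδ hlam hTm hR hR1
    obtain ⟨M₁, hM₁, hF1⟩ := exists_F1B_of_SmF (E := E) α lam CF hα hα1.le
    obtain ⟨C₁, hC₁, hD1⟩ := exists_first_deriv (E := E) α 1 δ δ' lam M₁ K G Tm R hα hα1 one_pos
      hδ hlam hTm hR hR1
    obtain ⟨C₂, r₂, hC₂, hr₂, hr₂R, hI1⟩ := ih α δ δ' lam K G Tm R CF hα hα1 hδ hlam hTm hR hR1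
    have hR₂ : 0 < min (R / 8) r₂ := lt_min (by positivity) hr₂
    have hR₂1 : min (R / 8) r₂ ≤ 1 := (min_le_right _ _).trans (hr₂R.trans hR1)
    set R₃ := min (R / 8) r₂ / 2 with hR₃def
    have hR₃ : 0 < R₃ := by positivity
    have hR₃1 : R₃ ≤ 1 := by rw [hR₃def]; linarith
    have hR₃le : R₃ ≤ min (R / 8) r₂ := by rw [hR₃def]; linarith
    obtain ⟨M₃, hM₃, hadm⟩ := exists_adm_along (E := E) α δ δ' lam K Tm R₃ CF hα hα1.le hδ hTm hR₃
    obtain ⟨Cc, hCc, hcomp⟩ := exists_Rk_comp (E := E) 2 (by norm_num) κY k (fun j => CF (j + 1))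
      (3 * C₂)
    have hγ : 0 < α / (2 + α) := by positivity
    obtain ⟨C₃, r₃, hC₃, hr₃, hr₃R, hL⟩ := exists_lin_reg (E := E) k α (α / (2 + α)) lam
      (max M₃ Cc) C₁ G Tm R₃ hα hα1 hγ hlam hTm hR₃ hR₃1
    refine ⟨max C₁ C₃, r₃, le_max_of_le_left hC₁, hr₃,
      hr₃R.trans (hR₃le.trans ((min_le_right _ _).trans hr₂R)), ?_⟩
    intro T x₀ F u ut hT hTm' hsub hF hell hu hX hj hG hsol
    have hI : UniqueDiffOn ℝ (Icc (0 : ℝ) T) := uniqueDiffOn_Icc hT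
    have hF' := hF1 T δ (ball x₀ R) F hT hsub hF hell
    obtain ⟨h1, _, hde⟩ := hD1 T x₀ _ _ u ut hT hTm' hF' hu hX hj (hG.of_le (by omega)) hsol
    have h2 := hI1 T x₀ F u ut hT hTm' hsub hF hell hu hX hj (hG.of_le (by omega)) hsol
    have hsub8 : ball x₀ R₃ ⊆ ball x₀ (R / 8) := ball_subset_ball (hR₃le.trans (min_le_left _ _))
    have hsub2 : ball x₀ R₃ ⊆ ball x₀ r₂ := ball_subset_ball (hR₃le.trans (min_le_right _ _))
    have hsubR : ball x₀ R₃ ⊆ ball x₀ R :=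
      ball_subset_ball (hR₃le.trans ((min_le_right _ _).trans hr₂R))
    have hsubRR : ball x₀ (R₃ + R₃) ⊆ ball x₀ R := by
      apply ball_subset_ball
      have : R₃ + R₃ = min (R / 8) r₂ := by rw [hR₃def]; ring
      rw [this]
      exact (min_le_right _ _).trans hr₂R
    have hsub3 : ball x₀ r₃ ⊆ ball x₀ (R / 8) := (ball_subset_ball hr₃R).trans hsub8
    have hjet : YkB α (Icc 0 T) (ball x₀ R₃) k (jet u) (3 * C₂) :=
      (h2.subset subset_rfl hsub2).jet_YkB hα hα1.le hI isOpen_ball (convex_ball _ _) hC₂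
    have hb := isBase_YB hα hα1.le hI (isOpen_ball (x := x₀) (ε := R₃)) (convex_ball x₀ _)
    have hj3 : ∀ t ∈ Icc 0 T, ∀ x ∈ ball x₀ R₃, ‖jet u t x‖ ≤ δ' :=
      fun t ht x hx => hj t ht x (hsubR hx)
    have hQ' : UniqueDiffOn ℝ (Icc (0 : ℝ) T ×ˢ ball x₀ R₃ ×ˢ ball (0 : Jet E) δ) :=
      hI.prod (isOpen_ball.uniqueDiffOn.prod isOpen_ball.uniqueDiffOn)
    have hQs : Icc (0 : ℝ) T ×ˢ ball x₀ R₃ ×ˢ ball (0 : Jet E) δ ⊆ Tube E (Icc 0 T) 3 δ :=
      Set.prod_mono subset_rfl (Set.prod_mono (hsubR.trans hsub) subset_rfl)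
    have hPk : YkB α (Icc 0 T) (ball x₀ R₃) k (fun t x => fderiv ℝ (F t x) (jet u t x)) Cc :=
      hcomp _ (Icc 0 T) (ball x₀ R₃) hb hI isOpen_ball δ δ' hδ (Jet E) (Jet E →L[ℝ] ℝ)
        (fun t z J => fderiv ℝ (F t z) J) (jet u)
        (SmB.subset (hF.fderiv_J hI) (uniqueDiffOn_tube hI 3 δ) hQ' hQs) hjet hj3
    have hzk : YkB α (Icc 0 T) (ball x₀ R₃) k
        (fun t x => fderiv ℝ (fun z' => F t z' (jet u t x)) x) Cc :=
      hcomp _ (Icc 0 T) (ball x₀ R₃) hb hI isOpen_ball δ δ' hδ (Jet E) (E →L[ℝ] ℝ)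
        (fun t z J => fderiv ℝ (fun z' => F t z' J) z) (jet u)
        (SmB.subset (hF.fderiv_z hI) (uniqueDiffOn_tube hI 3 δ) hQ' hQs) hjet hj3
    have hP : Adm (fun t x => fderiv ℝ (F t x) (jet u t x)) α (α / (2 + α)) lam (max M₃ Cc)
        (Icc 0 T) (ball x₀ R₃) := by
      have h := hadm T R₃ x₀ F u ut hT hTm' (hsubRR.trans hsub) hF hell
        (hu.subset subset_rfl hsubRR) (hX.subset subset_rfl hsubRR)
        (fun t ht x hx => hj t ht x (hsubRR hx))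
      refine ⟨h.ell, h.coef.mono (le_max_left _ _),
        fun t ht s hs x hx B => (h.time t ht s hs x hx B).trans ?_⟩
      gcongr
      exact le_max_left _ _
    have key : ∀ e : E, ‖e‖ ≤ 1 → XkB α (Icc 0 T) (ball x₀ r₃) k (De e u) (De e ut) C₃ := by
      intro e he
      have h1e := h1.2.2.2 e he
      have hne : ‖ContinuousLinearMap.apply ℝ ℝ e‖ ≤ 1 := by
        refine ContinuousLinearMap.opNorm_le_bound _ zero_le_one fun L => ?_
        calc ‖ContinuousLinearMap.apply ℝ ℝ e L‖ = ‖L e‖ := rfl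
          _ ≤ ‖L‖ * ‖e‖ := L.le_opNorm e
          _ ≤ ‖L‖ * 1 := by gcongr
          _ = 1 * ‖L‖ := by ring
      have hfe : YkB α (Icc 0 T) (ball x₀ R₃) k
          (fun t x => fderiv ℝ (fun z' => F t z' (jet u t x)) x e) (max M₃ Cc) := by
        have h := Rk.clm hb isOpen_ball (ContinuousLinearMap.apply ℝ ℝ e) hzk
        refine YkB.mono h ?_
        calc ‖ContinuousLinearMap.apply ℝ ℝ e‖ * Cc ≤ 1 * Cc := by gcongr
          _ = Cc := one_mul _
          _ ≤ max M₃ Cc := le_max_right _ _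
      refine hL T x₀ _ _ (De e u) (De e ut) hT hTm' hP (hPk.mono (le_max_right _ _)) hfe
        (h1e.1.subset subset_rfl hsub8) (h1e.2.subset subset_rfl hsub8)
        ((hG.2 e he).subset hsubR) ?_
      intro t ht x hx
      have h3 := hde e t ht x (hsub8 hx)
      have hJ : jet u t x ∈ ball (0 : Jet E) δ := by
        rw [mem_ball_zero_iff]
        exact lt_of_le_of_lt (hj3 t ht x hx) hδ
      rw [hF.fderiv_zJ_apply ht (hsub (hsubR hx)) hJ] at h3
      simp only [Lop]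
      linarith
    exact ⟨⟨h1.1.1.subset subset_rfl hsub3, (h1.1.2.subset subset_rfl hsub3).mono (le_max_left _ _)⟩,
      fun t ht => (h1.2.1 t ht).mono hsub3, fun t ht => (h1.2.2.1 t ht).mono hsub3,
      fun e he => (key e he).mono (le_max_right _ _)⟩

end Claimed.Agent.R316.B8M
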