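import Claimed.Agent.R316.B8M.Lin
import Claimed.Agent.R316.B8M.NLCalc

/-!
# B8M-SHORT (M6): short time existence for fully nonlinear parabolic equations on a uniform atlas

`u_t = F(t, x, jet u)`, `u(0) = 0`; `F = (F i)` smooth with bounded derivatives and uniformly parabolic on the `δ`-tube around the zero jet (`A.SmN`, `A.EllN`, `A.CompatN`).
(General smooth initial data: replace `F` by `A.shiftF`, see `Cont.lean`.)  The existence time `ε` and the bound `K` depend only on `A, α, δ, lam, CF`.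

Notation: `P₀ i t z = fderiv ℝ (F i t z) 0` (`A.lin0 F`), `Ψ i t z J = F i t z J - P₀ i t z J`.  Picard iteration `L₀ v_{n+1} = Ψ(jet v_n)`, linearisation at the ZERO jet.

THREE LEAVES (proofs only, glue of sorried statements): B8M-SHORT-A = `exists_short_start`, B8M-SHORT-B = `exists_short_step`, B8M-SHORT-C = `exists_short_time`.

Constants: `M` from `exists_adm_lin0`, `C_L` from `A.exists_lin_solve (α, γ = 1, lam, M, Tm = 1)`, `C_N` from `exists_nl_contract`, `C₀` from `exists_nl_zero`.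
`A.CompatL` of `P₀`: `A.compatL_fderiv`; `A.AdmM`: `exists_adm_lin0` + `B8.Adm.subset`.
* `exists_short_start`.  `f₀₀ = A.glue (fun i _ z => F i 0 z 0) 0` (compatible: `A.CompatN` at `J = 0`, `A.pull_zero`), `p t x = t * f₀₀ x`, `p_t = f₀₀`; `jet (rep i p) t z = t • jet (fun _ => F i 0 · 0) 0 z`, `Y`-norm `≤ 3 C₀ T`
  (`B8.XB.static` + `B8.XB.jet_YB`, or directly).  `e = A.glue (fun i t z => (F i t z 0 - F i 0 z 0) + P₀ i t z (jet (rep i p) t z))`, `|e|_Y ≤ C₀ T + 2 M 3 C₀ T`.  `w̃` solves `L₀ w̃ = e`, `w̃ 0 = 0`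
  (`A.exists_lin_solve`, `g = 0`, `K = (1 + 6M) C₀ T`), `v = p + w̃`: `L₀ v = F(t,z,0)`, jets `≤ 3 C₀ T + 3 C_L (1+6M) C₀ T`.
* `exists_short_step`.  Right hand side `A.glue` of the chart expression (compatible by `A.compat_nl`, `A.compat_op`), `Y`-norm `≤ C_N ρ D` (`exists_nl_contract`), `A.exists_lin_solve` with `g = 0`.
* `exists_short_time`.  `C₁` from start, `C₂` from step.  `ρ = min (δ/2) (1 / (6 C₂ + 1))`, `ε = min 1 (ρ / (2 C₁ + 1))`, `T = min ε T₀`.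
  `v₀` from start; `d₀` from step for `(v₀, 0)` with `D = C₁ T`; `v_{n+1} = v_n + d_n`; `d_{n+1}` from step for `(v_{n+1}, v_n)` with `D = 3 D_n`, where `XM d_n D_n`, `D_{n+1} = C₂ ρ 3 D_n ≤ D_n / 2`, `D₀ = C₂ ρ C₁ T ≤ C₁ T / 6`.
  Invariant: jets of `v_n` have `Y`-norm `≤ C₁ T + 3 ∑_{k<n} D_k ≤ 2 C₁ T ≤ ρ`; `L₀ v_{n+1} = Ψ(jet v_n)` (telescoping; `Ψ(0) = F(t,z,0)`).
  `u = v₀ + ∑' d_n` (`X_complete_on` for the series `w₀ = v₀`, `w_{k+1} = d_k`, `A = max C₁ (2 D₀)`); `L₀ u = lim L₀ v_{n+1} = lim Ψ(jet v_n) = Ψ(jet u)` because `Ψ` is Lipschitz in `J` (`SmF.lip`) and the jets converge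
  (`HasSum` ⇒ partial sums tend to the sum).  Hence `u_t = P₀ (jet u) + Ψ(jet u) = F(jet u)`.
-/

set_option autoImplicit false
set_option maxSynthPendingDepth 3
set_option linter.unusedSectionVars false

open scoped Topology ContDiff
open Set Filter Metric

namespace Claimed.Agent.R316.B8M

open Claimed.Agent.R316.B8

variable {V E : Type} [NormedAddCommGroup V] [NormedSpace ℝ V]
  [NormedAddCommGroup E] [InnerProductSpace ℝ E] [FiniteDimensional ℝ E]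

/-! ### the function `t * g z` in a chart -/

theorem sh_jet_tmul {S : Set E} (hS : IsOpen S) {g : E → ℝ} (hg : ContDiffOn ℝ 2 g S) (t : ℝ) {x : E}
    (hx : x ∈ S) : jet (fun s z => s * g z) t x = t • jet (fun _ => g) t x :=
  jet_smul (u := fun _ => g) t hS hx hg

theorem sh_C21_tmul {I : Set ℝ} {S : Set E} (hS : IsOpen S) {g : E → ℝ} (hg : ContDiffOn ℝ 2 g S) :
    C21 I S (fun s z => s * g z) (fun _ z => g z) := by
  have hst : C21 I S (fun _ => g) (fun _ _ => 0) := C21.static hS hg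
  have hfst : ContinuousOn (fun q : ℝ × E => q.1) (I ×ˢ S) := continuous_fst.continuousOn
  refine ⟨fun t _ => contDiffOn_const.mul hg, fun t _ x _ => ?_, hfst.mul hst.cont0,
    (hfst.smul hst.cont1).congr fun q hq => ?_, (hfst.smul hst.cont2).congr fun q hq => ?_,
    hst.cont0⟩
  · have := ((hasDerivAt_id t).mul_const (g x)).hasDerivWithinAt (s := I)
    simpa using this
  · exact congrArg (fun J : Jet E => J.2.1) (sh_jet_tmul hS hg q.1 hq.2)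
  · exact congrArg (fun J : Jet E => J.2.2) (sh_jet_tmul hS hg q.1 hq.2)

theorem sh_XB_tmul {α T K : ℝ} (hT1 : T ≤ 1) {S : Set E} (hS : IsOpen S) {g : E → ℝ}
    (hg : C2aB α S g K) (hα : 0 < α) (hα1 : α ≤ 1) (hc : Convex ℝ S) (hK : 0 ≤ K) :
    XB α (Icc 0 T) S (fun s z => s * g z) (fun _ z => g z) (3 * K) := by
  have h1 : ∀ t, ∀ x ∈ S, D1 (fun s z => s * g z) t x = t • fderiv ℝ g x := fun t x hx =>
    congrArg (fun J : Jet E => J.2.1) (sh_jet_tmul hS hg.c2 t hx)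
  have h2 : ∀ t, ∀ x ∈ S, D2 (fun s z => s * g z) t x = t • fderiv ℝ (fderiv ℝ g) x := fun t x hx =>
    congrArg (fun J : Jet E => J.2.2) (sh_jet_tmul hS hg.c2 t hx)
  have habs : ∀ t ∈ Icc 0 T, |t| ≤ 1 := fun t ht => by
    rw [abs_of_nonneg ht.1]; exact ht.2.trans hT1
  have hle : ∀ t ∈ Icc 0 T, |t| * K ≤ 3 * K := fun t ht => by nlinarith [habs t ht]
  refine ⟨fun t ht x hx => ?_, fun t ht x hx => ?_, fun t ht x hx => ?_, fun t ht x hx => ?_,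
    fun t ht x hx y hy => ?_, fun t ht => ?_⟩
  · exact ((hg.b0.const_smul t) x hx).trans (hle t ht)
  · rw [h1 t x hx]; exact ((hg.b1.const_smul t) x hx).trans (hle t ht)
  · rw [h2 t x hx]; exact ((hg.b2.const_smul t) x hx).trans (hle t ht)
  · exact (hg.b0 x hx).trans (by linarith)
  · rw [h2 t x hx, h2 t y hy]
    exact ((hg.h2.const_smul t).mono (hle t ht)) x hx y hy
  · exact (HolB.of_lip hα hα1 hg.b0 (lip_of_fderiv hS hc (hg.c2.differentiableOn (by norm_num)) hg.b1)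
      hK).mono (le_of_eq (by ring))

theorem sh_YB_jet_tmul {α T K : ℝ} {S : Set E} (hS : IsOpen S) {g : E → ℝ}
    (hg : C2aB α S g K) (hα : 0 < α) (hα1 : α ≤ 1) (hc : Convex ℝ S) (hK : 0 ≤ K) :
    YB α (Icc 0 T) S (jet (fun s z => s * g z)) (3 * K * T) := by
  have hst := (XB.static (I := Icc 0 T) hg hK).jet_YB hα hα1 hS hc (C21.static hS hg.c2) hK
  have hle : ∀ t ∈ Icc 0 T, |t| * (3 * K) ≤ 3 * K * T := fun t ht => by
    rw [abs_of_nonneg ht.1]; nlinarith [ht.2]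
  refine ⟨jet_continuousOn (sh_C21_tmul hS hg.c2), fun t ht x hx => ?_, fun t ht x hx y hy => ?_⟩
  · rw [sh_jet_tmul hS hg.c2 t hx]
    exact (((hst.sup t ht).const_smul t) x hx).trans (hle t ht)
  · rw [sh_jet_tmul hS hg.c2 t hx, sh_jet_tmul hS hg.c2 t hy]
    exact (((hst.hol t ht).const_smul t).mono (hle t ht)) x hx y hy

namespace UAtlas

variable (A : UAtlas V E)

/-- the linearisation of `F` at the zero jet. -/
noncomputable def lin0 (F : A.ι → ℝ → E → Jet E → ℝ) : A.ι → Op E :=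
  fun i t z => fderiv ℝ (F i t z) 0

/-- the hypotheses on the nonlinearity. -/
structure NLHyp (T₀ δ lam : ℝ) (CF : ℕ → ℝ) (F : A.ι → ℝ → E → Jet E → ℝ) : Prop where
  compat : A.CompatN (Icc 0 T₀) δ F
  smooth : A.SmN (Icc 0 T₀) δ F CF
  ell : A.EllN (Icc 0 T₀) δ lam F

section Hyp

variable {T₀ T δ lam : ℝ} {CF : ℕ → ℝ} {F : A.ι → ℝ → E → Jet E → ℝ}

theorem sh_smF (h : A.NLHyp T₀ δ lam CF F) (i : A.ι) : SmF (Icc 0 T₀) 3 δ (F i) CF := h.smooth i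

theorem sh_compatN (h : A.NLHyp T₀ δ lam CF F) (hT : T ≤ T₀) : A.CompatN (Icc 0 T) δ F :=
  fun i j t ht => h.compat i j t ⟨ht.1, ht.2.trans hT⟩

theorem sh_compatL (hδ : 0 < δ) (h : A.NLHyp T₀ δ lam CF F) (hT : T ≤ T₀) :
    A.CompatL (Icc 0 T) (A.lin0 F) :=
  A.compatL_fderiv hδ (A.sh_compatN h hT) fun i t ht z hz =>
    (A.sh_smF h i).differentiableAt_J ⟨ht.1, ht.2.trans hT⟩ hz (mem_ball_self hδ)

theorem sh_compat0 (hδ : 0 < δ) (h : A.NLHyp T₀ δ lam CF F) :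
    A.Compat (Icc 0 T₀) (fun i t z => F i t z 0) := by
  intro i j t ht z hz
  have := h.compat i j t ht z hz 0 (by simpa using hδ) (by rw [A.pull_zero]; simpa using hδ)
  rwa [A.pull_zero] at this

theorem sh_C2aM_zero (α : ℝ) {K : ℝ} (hK : 0 ≤ K) : A.C2aM α (fun _ => 0) K :=
  fun _ => ((linb_C2aB_zero α).subset (subset_univ _)).mono hK

end Hyp

/-- start of the iteration: `L₀ v = F(t,z,0)`, `v(0) = 0`, with jets of size `O(T)`. -/
theorem exists_short_start (α δ lam : ℝ) (CF : ℕ → ℝ) (hα : 0 < α) (hα1 : α < 1) (hδ : 0 < δ)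
    (hlam : 0 < lam) : ∃ C₁ : ℝ, 0 ≤ C₁ ∧
    ∀ (T₀ T : ℝ) (F : A.ι → ℝ → E → Jet E → ℝ), 0 < T → T ≤ T₀ → T ≤ 1 → A.NLHyp T₀ δ lam CF F →
      ∃ v vt : ℝ → V → ℝ, A.C21M (Icc 0 T) v vt ∧ A.XM α (Icc 0 T) v vt C₁ ∧
        (∀ i, YB α (Icc 0 T) (ball (0 : E) 3) (jet (A.rep i v)) (C₁ * T)) ∧ (∀ x, v 0 x = 0) ∧
        ∀ i, ∀ t ∈ Icc 0 T, ∀ z ∈ ball (0 : E) 3,
          Lop (A.lin0 F i) (A.rep i v) (A.rep i vt) t z = F i t z 0 := by
  obtain ⟨M, hM, HM⟩ := exists_adm_lin0 (E := E) α lam CF hα hα1.le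
  obtain ⟨CL, hCL, HL⟩ := A.exists_lin_solve α 1 lam M 1 hα hα1 one_pos hlam hM one_pos
  obtain ⟨C₀, hC₀, H0⟩ := exists_nl_zero (E := E) α CF hα hα1.le
  refine ⟨3 * C₀ + 3 * (CL * ((1 + 6 * M) * C₀)), by positivity, ?_⟩
  intro T₀ T F hT hTT₀ hT1 hF
  have hT₀ : 0 < T₀ := hT.trans_le hTT₀
  have hsub : Icc 0 T ⊆ Icc 0 T₀ := Icc_subset_Icc_right hTT₀
  have h00 : (0 : ℝ) ∈ Icc 0 T₀ := ⟨le_rfl, hT₀.le⟩
  have hB : IsOpen (ball (0 : E) 3) := isOpen_ball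
  have hBc : Convex ℝ (ball (0 : E) 3) := convex_ball _ _
  have hcompL := A.sh_compatL hδ hF hTT₀
  have hadm : A.AdmM (Icc 0 T) α 1 lam M (A.lin0 F) := fun i =>
    (HM T₀ δ (F i) hT₀ hδ (hF.smooth i) fun t ht z hz ξ =>
      hF.ell i t ht z hz 0 (mem_ball_self hδ) ξ).subset hsub subset_rfl
  have hc0 := A.sh_compat0 hδ hF
  -- the function `F(0,·,0)` on the manifold
  have hc00 : A.Compat (Icc 0 T₀) (fun i _ z => F i 0 z 0) := fun i j t _ z hz => hc0 i j 0 h00 z hz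
  obtain ⟨g₀, hg₀⟩ : ∃ g₀ : V → ℝ, ∀ i, ∀ z ∈ ball (0 : E) 3, g₀ (A.Φ i z) = F i 0 z 0 :=
    ⟨A.glue (fun i _ z => F i 0 z 0) 0, fun i z hz => A.rep_glue hc00 i h00 hz⟩
  have hgC : ∀ i, C2aB α (ball (0 : E) 3) (fun z => F i 0 z 0) C₀ := fun i =>
    (H0 T₀ δ (F i) hT₀ hδ (hF.smooth i)).1
  -- `p = t g₀`
  have hp : A.C21M (Icc 0 T) (fun t x => t * g₀ x) (fun _ x => g₀ x) := fun i =>
    (sh_C21_tmul hB (hgC i).c2).congr hB
      (fun t _ z hz => by show t * g₀ (A.Φ i z) = _; rw [hg₀ i z hz]) (fun t _ z hz => hg₀ i z hz)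
  have hpX : A.XM α (Icc 0 T) (fun t x => t * g₀ x) (fun _ x => g₀ x) (3 * C₀) := fun i =>
    (sh_XB_tmul hT1 hB (hgC i) hα hα1.le hBc hC₀).congr hB
      (fun t _ z hz => by show t * g₀ (A.Φ i z) = _; rw [hg₀ i z hz]) (fun t _ z hz => hg₀ i z hz)
  have hpJ : ∀ i, YB α (Icc 0 T) (ball (0 : E) 3) (jet (A.rep i fun t x => t * g₀ x))
      (3 * C₀ * T) := fun i =>
    (sh_YB_jet_tmul hB (hgC i) hα hα1.le hBc hC₀).congr fun t _ z hz =>
      jet_congr hB hz fun y hy => by show t * g₀ (A.Φ i y) = _; rw [hg₀ i y hy]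
  -- the right hand side
  have hc1 : A.Compat (Icc 0 T)
      (fun i t z => A.lin0 F i t z (jet (A.rep i fun t x => t * g₀ x) t z)) :=
    A.compat_op hcompL fun i t ht => (hp i).c2 t ht
  have hc : A.Compat (Icc 0 T) (fun i t z => (F i t z 0 - F i 0 z 0)
      + A.lin0 F i t z (jet (A.rep i fun t x => t * g₀ x) t z)) := by
    intro i j t ht z hz
    have h1 := hc0 i j t (hsub ht) z hz
    have h2 := hc0 i j 0 h00 z hz
    have h3 := hc1 i j t ht z hz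
    simp only at h1 h2 h3 ⊢
    rw [h1, h2, h3]
  have hK : 0 ≤ (1 + 6 * M) * C₀ * T := by positivity
  have he : A.YM α (Icc 0 T) (A.glue fun i t z => (F i t z 0 - F i 0 z 0)
      + A.lin0 F i t z (jet (A.rep i fun t x => t * g₀ x) t z)) ((1 + 6 * M) * C₀ * T) := by
    intro i
    have h1 := ((H0 T₀ δ (F i) hT₀ hδ (hF.smooth i)).2 T hT.le hTT₀).add
      ((hadm i).coef.clm_apply (hpJ i) hM (by positivity))
    refine (h1.congr fun t ht z hz => ?_).mono (le_of_eq (by ring))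
    rw [A.rep_glue hc i ht hz]
  obtain ⟨w, wt, hw, hwX, hw0, hws⟩ := HL T (A.lin0 F) _ (fun _ => 0) _ hT hT1 hK hcompL hadm he
    (A.sh_C2aM_zero α hK)
  have hKT : CL * ((1 + 6 * M) * C₀ * T) ≤ CL * ((1 + 6 * M) * C₀) := by
    have : 0 ≤ CL * ((1 + 6 * M) * C₀) := by positivity
    nlinarith
  refine ⟨fun t x => t * g₀ x + w t x, fun t x => g₀ x + wt t x, fun i => (hp i).add hB (hw i),
    fun i => ((hpX i).add hB (hp i) (hw i) (hwX i)).mono ?_, fun i => ?_, fun x => by simp [hw0], ?_⟩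
  · have : 0 ≤ CL * ((1 + 6 * M) * C₀) := by positivity
    linarith
  · have h1 := (hpJ i).add ((hwX i).jet_YB hα hα1.le hB hBc (hw i) (by positivity))
    refine (h1.congr fun t ht z hz => ?_).mono (le_of_eq (by ring))
    exact jet_add hB hz ((hp i).c2 t ht) ((hw i).c2 t ht)
  · intro i t ht z hz
    have h1 := Lop_add (A.lin0 F i) (ut := A.rep i fun _ x => g₀ x) (vt := A.rep i wt) hB hz
      ((hp i).c2 t ht) ((hw i).c2 t ht)
    have h2 := hws i t ht z hz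
    rw [A.rep_glue hc i ht hz] at h2
    have h3 : Lop (A.lin0 F i) (A.rep i fun t x => t * g₀ x) (A.rep i fun _ x => g₀ x) t z
        = F i 0 z 0 - A.lin0 F i t z (jet (A.rep i fun t x => t * g₀ x) t z) := by
      simp only [Lop]
      rw [← hg₀ i z hz]
      rfl
    have h4 : Lop (A.lin0 F i) (A.rep i fun t x => t * g₀ x + w t x)
        (A.rep i fun t x => g₀ x + wt t x) t z
        = Lop (A.lin0 F i) (fun t x => A.rep i (fun t x => t * g₀ x) t x + A.rep i w t x)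
          (fun t x => A.rep i (fun _ x => g₀ x) t x + A.rep i wt t x) t z := rfl
    rw [h4, h1, h2, h3]
    ring

/-- one step of the iteration. -/
theorem exists_short_step (α δ lam : ℝ) (CF : ℕ → ℝ) (hα : 0 < α) (hα1 : α < 1) (hδ : 0 < δ)
    (hlam : 0 < lam) : ∃ C₂ : ℝ, 0 ≤ C₂ ∧
    ∀ (T₀ T ρ D : ℝ) (F : A.ι → ℝ → E → Jet E → ℝ) (v vt v' vt' : ℝ → V → ℝ), 0 < T → T ≤ T₀ →
      T ≤ 1 → 0 < ρ → ρ < δ → 0 ≤ D → A.NLHyp T₀ δ lam CF F →
      A.C21M (Icc 0 T) v vt → A.C21M (Icc 0 T) v' vt' →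
      (∀ i, YB α (Icc 0 T) (ball (0 : E) 3) (jet (A.rep i v)) ρ) →
      (∀ i, YB α (Icc 0 T) (ball (0 : E) 3) (jet (A.rep i v')) ρ) →
      (∀ i, YB α (Icc 0 T) (ball (0 : E) 3)
        (fun t z => jet (A.rep i v) t z - jet (A.rep i v') t z) D) →
      ∃ d dt : ℝ → V → ℝ, A.C21M (Icc 0 T) d dt ∧ A.XM α (Icc 0 T) d dt (C₂ * ρ * D) ∧
        (∀ x, d 0 x = 0) ∧
        ∀ i, ∀ t ∈ Icc 0 T, ∀ z ∈ ball (0 : E) 3,
          Lop (A.lin0 F i) (A.rep i d) (A.rep i dt) t z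
            = (F i t z (jet (A.rep i v) t z) - A.lin0 F i t z (jet (A.rep i v) t z))
              - (F i t z (jet (A.rep i v') t z) - A.lin0 F i t z (jet (A.rep i v') t z)) := by
  obtain ⟨M, hM, HM⟩ := exists_adm_lin0 (E := E) α lam CF hα hα1.le
  obtain ⟨CL, hCL, HL⟩ := A.exists_lin_solve α 1 lam M 1 hα hα1 one_pos hlam hM one_pos
  obtain ⟨CN, hCN, HN⟩ := exists_nl_contract (E := E) α CF hα hα1.le
  refine ⟨CL * CN, by positivity, ?_⟩
  intro T₀ T ρ D F v vt v' vt' hT hTT₀ hT1 hρ hρδ hD hF hv hv' hJ hJ' hΔ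
  have hT₀ : 0 < T₀ := hT.trans_le hTT₀
  have hsub : Icc 0 T ⊆ Icc 0 T₀ := Icc_subset_Icc_right hTT₀
  have hcompL := A.sh_compatL hδ hF hTT₀
  have hcompN := A.sh_compatN hF hTT₀
  have hadm : A.AdmM (Icc 0 T) α 1 lam M (A.lin0 F) := fun i =>
    (HM T₀ δ (F i) hT₀ hδ (hF.smooth i) fun t ht z hz ξ =>
      hF.ell i t ht z hz 0 (mem_ball_self hδ) ξ).subset hsub subset_rfl
  have a1 := A.compat_nl hcompN (fun i t ht => (hv i).c2 t ht)
    fun i t ht z hz => ((hJ i).sup t ht z hz).trans_lt hρδ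
  have a2 := A.compat_nl hcompN (fun i t ht => (hv' i).c2 t ht)
    fun i t ht z hz => ((hJ' i).sup t ht z hz).trans_lt hρδ
  have a3 := A.compat_op hcompL fun i t ht => (hv i).c2 t ht
  have a4 := A.compat_op hcompL fun i t ht => (hv' i).c2 t ht
  have hc : A.Compat (Icc 0 T) (fun i t z =>
      (F i t z (jet (A.rep i v) t z) - A.lin0 F i t z (jet (A.rep i v) t z))
        - (F i t z (jet (A.rep i v') t z) - A.lin0 F i t z (jet (A.rep i v') t z))) := by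
    intro i j t ht z hz
    have b1 := a1 i j t ht z hz
    have b2 := a2 i j t ht z hz
    have b3 := a3 i j t ht z hz
    have b4 := a4 i j t ht z hz
    simp only at b1 b2 b3 b4 ⊢
    rw [b1, b2, b3, b4]
  have hK : 0 ≤ CN * ρ * D := by positivity
  have he : A.YM α (Icc 0 T) (A.glue fun i t z =>
      (F i t z (jet (A.rep i v) t z) - A.lin0 F i t z (jet (A.rep i v) t z))
        - (F i t z (jet (A.rep i v') t z) - A.lin0 F i t z (jet (A.rep i v') t z)))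
      (CN * ρ * D) := by
    intro i
    refine (HN T₀ δ ρ D (F i) (Icc 0 T) _ _ hT₀ hρ hρδ hD hsub (hF.smooth i) (hJ i) (hJ' i)
      (hΔ i)).congr fun t ht z hz => ?_
    rw [A.rep_glue hc i ht hz]
    rfl
  obtain ⟨w, wt, hw, hwX, hw0, hws⟩ := HL T (A.lin0 F) _ (fun _ => 0) _ hT hT1 hK hcompL hadm he
    (A.sh_C2aM_zero α hK)
  refine ⟨w, wt, hw, fun i => (hwX i).mono (le_of_eq (by ring)), hw0, fun i t ht z hz => ?_⟩
  rw [hws i t ht z hz, A.rep_glue hc i ht hz]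

/-- invariant of the Picard iteration: `v = v_n`, `v' = v_{n-1}`. -/
structure ShInv (α T ρ a C₁ : ℝ) (F : A.ι → ℝ → E → Jet E → ℝ) (n : ℕ)
    (v vt v' vt' : ℝ → V → ℝ) : Prop where
  c : A.C21M (Icc 0 T) v vt
  c' : A.C21M (Icc 0 T) v' vt'
  dj : ∀ i, YB α (Icc 0 T) (ball (0 : E) 3)
    (fun t z => jet (A.rep i v) t z - jet (A.rep i v') t z) (a * (1 / 2) ^ n)
  j : ∀ i, YB α (Icc 0 T) (ball (0 : E) 3) (jet (A.rep i v)) (a * (2 - (1 / 2) ^ n))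
  j' : ∀ i, YB α (Icc 0 T) (ball (0 : E) 3) (jet (A.rep i v')) ρ
  x : A.XM α (Icc 0 T) (fun t x => v t x - v' t x) (fun t x => vt t x - vt' t x) (C₁ * (1 / 2) ^ n)
  z : ∀ x, v 0 x = 0
  z' : ∀ x, v' 0 x = 0
  eq : ∀ i, ∀ t ∈ Icc 0 T, ∀ z ∈ ball (0 : E) 3, Lop (A.lin0 F i) (A.rep i v) (A.rep i vt) t z
    = F i t z (jet (A.rep i v') t z) - A.lin0 F i t z (jet (A.rep i v') t z)

theorem sh_inv_step {α δ lam T₀ T ρ a C₁ C₂ : ℝ} {CF : ℕ → ℝ} {F : A.ι → ℝ → E → Jet E → ℝ}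
    (hα : 0 < α) (hα1 : α < 1)
    (H : ∀ (T₀ T ρ D : ℝ) (F : A.ι → ℝ → E → Jet E → ℝ) (v vt v' vt' : ℝ → V → ℝ), 0 < T → T ≤ T₀ →
      T ≤ 1 → 0 < ρ → ρ < δ → 0 ≤ D → A.NLHyp T₀ δ lam CF F →
      A.C21M (Icc 0 T) v vt → A.C21M (Icc 0 T) v' vt' →
      (∀ i, YB α (Icc 0 T) (ball (0 : E) 3) (jet (A.rep i v)) ρ) →
      (∀ i, YB α (Icc 0 T) (ball (0 : E) 3) (jet (A.rep i v')) ρ) →
      (∀ i, YB α (Icc 0 T) (ball (0 : E) 3)
        (fun t z => jet (A.rep i v) t z - jet (A.rep i v') t z) D) →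
      ∃ d dt : ℝ → V → ℝ, A.C21M (Icc 0 T) d dt ∧ A.XM α (Icc 0 T) d dt (C₂ * ρ * D) ∧
        (∀ x, d 0 x = 0) ∧
        ∀ i, ∀ t ∈ Icc 0 T, ∀ z ∈ ball (0 : E) 3,
          Lop (A.lin0 F i) (A.rep i d) (A.rep i dt) t z
            = (F i t z (jet (A.rep i v) t z) - A.lin0 F i t z (jet (A.rep i v) t z))
              - (F i t z (jet (A.rep i v') t z) - A.lin0 F i t z (jet (A.rep i v') t z)))
    (hT : 0 < T) (hTT₀ : T ≤ T₀) (hT1 : T ≤ 1) (hρ : 0 < ρ) (hρδ : ρ < δ) (hC₂ : 0 ≤ C₂)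
    (hC₂ρ : C₂ * ρ ≤ 1 / 6) (ha : 0 ≤ a) (haρ : 2 * a ≤ ρ) (haC : a ≤ C₁)
    (hF : A.NLHyp T₀ δ lam CF F) {n : ℕ} {v vt v' vt' : ℝ → V → ℝ}
    (h : A.ShInv α T ρ a C₁ F n v vt v' vt') :
    ∃ d dt : ℝ → V → ℝ,
      A.ShInv α T ρ a C₁ F (n + 1) (fun t x => v t x + d t x) (fun t x => vt t x + dt t x) v vt := by
  have hB : IsOpen (ball (0 : E) 3) := isOpen_ball
  have hBc : Convex ℝ (ball (0 : E) 3) := convex_ball _ _
  have hp : (0 : ℝ) < (1 / 2) ^ n := by positivity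
  have hD : 0 ≤ a * (1 / 2) ^ n := by positivity
  have hjρ : ∀ i, YB α (Icc 0 T) (ball (0 : E) 3) (jet (A.rep i v)) ρ := fun i =>
    (h.j i).mono (by nlinarith)
  obtain ⟨d, dt, hd, hdX, hd0, hds⟩ := H T₀ T ρ _ F v vt v' vt' hT hTT₀ hT1 hρ hρδ hD hF h.c h.c' hjρ
    h.j' h.dj
  have hK : 0 ≤ C₂ * ρ * (a * (1 / 2) ^ n) := by positivity
  have hK6 : C₂ * ρ * (a * (1 / 2) ^ n) ≤ 1 / 6 * (a * (1 / 2) ^ n) :=
    mul_le_mul_of_nonneg_right hC₂ρ hD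
  have hdJ : ∀ i, YB α (Icc 0 T) (ball (0 : E) 3) (jet (A.rep i d)) (a * (1 / 2) ^ (n + 1)) :=
    fun i => ((hdX i).jet_YB hα hα1.le hB hBc (hd i) hK).mono (by rw [pow_succ]; linarith)
  have hja : ∀ i, ∀ t ∈ Icc 0 T, ∀ z ∈ ball (0 : E) 3,
      jet (A.rep i fun t x => v t x + d t x) t z = jet (A.rep i v) t z + jet (A.rep i d) t z :=
    fun i t ht z hz => jet_add hB hz ((h.c i).c2 t ht) ((hd i).c2 t ht)
  refine ⟨d, dt, fun i => (h.c i).add hB (hd i), h.c, fun i => ?_, fun i => ?_, hjρ, fun i => ?_,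
    fun x => by simp [h.z, hd0], h.z, fun i t ht z hz => ?_⟩
  · refine (hdJ i).congr fun t ht z hz => ?_
    rw [hja i t ht z hz]; abel
  · refine (((h.j i).add (hdJ i)).congr fun t ht z hz => hja i t ht z hz).mono
      (le_of_eq (by rw [pow_succ]; ring))
  · refine ((hdX i).congr hB (fun t _ z _ => ?_) (fun t _ z _ => ?_)).mono ?_
    · show v t _ + d t _ - v t _ = d t _
      ring
    · show vt t _ + dt t _ - vt t _ = dt t _
      ring
    · rw [pow_succ]; nlinarith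
  · have h1 := Lop_add (A.lin0 F i) (ut := A.rep i vt) (vt := A.rep i dt) hB hz
      ((h.c i).c2 t ht) ((hd i).c2 t ht)
    have h4 : Lop (A.lin0 F i) (A.rep i fun t x => v t x + d t x)
        (A.rep i fun t x => vt t x + dt t x) t z
        = Lop (A.lin0 F i) (fun t x => A.rep i v t x + A.rep i d t x)
          (fun t x => A.rep i vt t x + A.rep i dt t x) t z := rfl
    rw [h4, h1, h.eq i t ht z hz, hds i t ht z hz]
    ring

/-- **M6: short time existence.** -/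
theorem exists_short_time (α δ lam : ℝ) (CF : ℕ → ℝ) (hα : 0 < α) (hα1 : α < 1) (hδ : 0 < δ)
    (hlam : 0 < lam) : ∃ ε K : ℝ, 0 < ε ∧ 0 ≤ K ∧
    ∀ (T₀ : ℝ) (F : A.ι → ℝ → E → Jet E → ℝ), 0 < T₀ → A.NLHyp T₀ δ lam CF F →
      ∃ u ut : ℝ → V → ℝ, A.C21M (Icc 0 (min ε T₀)) u ut ∧ A.XM α (Icc 0 (min ε T₀)) u ut K ∧
        A.JetLe (Icc 0 (min ε T₀)) u (δ / 2) ∧ (∀ x, u 0 x = 0) ∧
        A.SolN (Icc 0 (min ε T₀)) F u ut := by
  obtain ⟨C₁, hC₁, H1⟩ := A.exists_short_start α δ lam CF hα hα1 hδ hlam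
  obtain ⟨C₂, hC₂, H2⟩ := A.exists_short_step α δ lam CF hα hα1 hδ hlam
  obtain ⟨ρ, hρdef⟩ : ∃ ρ, ρ = min (δ / 2) (1 / (6 * C₂ + 1)) := ⟨_, rfl⟩
  have hρ : 0 < ρ := by rw [hρdef]; positivity
  have hρ2 : ρ ≤ δ / 2 := hρdef ▸ min_le_left _ _
  have hρδ : ρ < δ := by linarith
  have hC₂ρ : C₂ * ρ ≤ 1 / 6 := by
    have h1 : ρ ≤ 1 / (6 * C₂ + 1) := hρdef ▸ min_le_right _ _
    calc C₂ * ρ ≤ C₂ * (1 / (6 * C₂ + 1)) := mul_le_mul_of_nonneg_left h1 hC₂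
      _ ≤ 1 / 6 := by
        rw [mul_one_div, div_le_div_iff₀ (by positivity) (by norm_num)]; linarith
  refine ⟨min 1 (ρ / (2 * C₁ + 1)), 2 * C₁, by positivity, by positivity, ?_⟩
  intro T₀ F hT₀ hF
  obtain ⟨T, hTdef⟩ : ∃ T, T = min (min 1 (ρ / (2 * C₁ + 1))) T₀ := ⟨_, rfl⟩
  rw [← hTdef]
  have hT : 0 < T := by rw [hTdef]; positivity
  have hTT₀ : T ≤ T₀ := hTdef ▸ min_le_right _ _
  have hT1 : T ≤ 1 := hTdef ▸ (min_le_left _ _).trans (min_le_left _ _)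
  have hTρ : T ≤ ρ / (2 * C₁ + 1) := hTdef ▸ (min_le_left _ _).trans (min_le_right _ _)
  have haρ : 2 * (C₁ * T) ≤ ρ := by
    rw [le_div_iff₀ (by positivity)] at hTρ
    nlinarith
  have haC : C₁ * T ≤ C₁ := by nlinarith
  have ha : 0 ≤ C₁ * T := by positivity
  have hB : IsOpen (ball (0 : E) 3) := isOpen_ball
  obtain ⟨v₀, vt₀, hv₀, hvX, hvJ, hv00, hvs⟩ := H1 T₀ T F hT hTT₀ hT1 hF
  have hz0 : ∀ i t z, jet (A.rep i fun _ _ => (0 : ℝ)) t z = 0 := fun i t z => jet_zero_fun t z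
  have hinv0 : A.ShInv α T ρ (C₁ * T) C₁ F 0 v₀ vt₀ (fun _ _ => 0) (fun _ _ => 0) := by
    refine ⟨hv₀, fun i => C21.static (g := fun _ => 0) hB contDiffOn_const, fun i => ?_, fun i => ?_,
      fun i => ?_, fun i => ?_, hv00, fun _ => rfl, fun i t ht z hz => ?_⟩
    · refine ((hvJ i).congr fun t _ z _ => ?_).mono (le_of_eq (by simp))
      rw [hz0, sub_zero]
    · exact (hvJ i).mono (le_of_eq (by norm_num))
    · refine (YB.static (g := fun _ => (0 : Jet E)) continuousOn_const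
        (fun x _ => by simpa using hρ.le) ((HolB.const 0).mono hρ.le)).congr fun t _ z _ => hz0 i t z
    · refine ((hvX i).congr hB (fun t _ z _ => ?_) (fun t _ z _ => ?_)).mono (le_of_eq (by simp))
      · show v₀ t _ - 0 = v₀ t _
        ring
      · show vt₀ t _ - 0 = vt₀ t _
        ring
    · rw [hvs i t ht z hz, hz0, map_zero, sub_zero]
  obtain ⟨s, hs0, hs⟩ := linc_exists_seq
    (X := (ℝ → V → ℝ) × (ℝ → V → ℝ) × (ℝ → V → ℝ) × (ℝ → V → ℝ))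
    (fun n s => A.ShInv α T ρ (C₁ * T) C₁ F n s.1 s.2.1 s.2.2.1 s.2.2.2)
    (fun _ s s' => s'.2.2.1 = s.1 ∧ s'.2.2.2 = s.2.1)
    (v₀, vt₀, fun _ _ => 0, fun _ _ => 0) hinv0 (by
      intro n s hs
      obtain ⟨d, dt, h⟩ := A.sh_inv_step hα hα1 H2 hT hTT₀ hT1 hρ hρδ hC₂ hC₂ρ ha haρ haC hF hs
      exact ⟨(_, _, s.1, s.2.1), h, rfl, rfl⟩)
  have hI := fun n => (hs n).1
  have hp1 : ∀ n, (s (n + 1)).2.2.1 = (s n).1 := fun n => (hs n).2.1
  have hp2 : ∀ n, (s (n + 1)).2.2.2 = (s n).2.1 := fun n => (hs n).2.2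
  have hp01 : (s 0).2.2.1 = fun _ _ => 0 := by rw [hs0]
  have hp02 : (s 0).2.2.2 = fun _ _ => 0 := by rw [hs0]
  have hcomp := fun i => X_complete_on (α := α) (A := C₁) hT hB
    (w := fun k => A.rep i fun t x => (s k).1 t x - (s k).2.2.1 t x)
    (wt := fun k => A.rep i fun t x => (s k).2.1 t x - (s k).2.2.2 t x)
    (fun k => ((hI k).c i).sub hB ((hI k).c' i)) (fun k => (hI k).x i)
  -- partial sums
  have hsumJ : ∀ i, ∀ t ∈ Icc 0 T, ∀ z ∈ ball (0 : E) 3, ∀ n,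
      ∑ k ∈ Finset.range (n + 1), jet (A.rep i fun t x => (s k).1 t x - (s k).2.2.1 t x) t z
        = jet (A.rep i (s n).1) t z := by
    intro i t ht z hz n
    have hsub : ∀ k, jet (A.rep i fun t x => (s k).1 t x - (s k).2.2.1 t x) t z
        = jet (A.rep i (s k).1) t z - jet (A.rep i (s k).2.2.1) t z := fun k =>
      jet_sub hB hz (((hI k).c i).c2 t ht) (((hI k).c' i).c2 t ht)
    induction n with
    | zero => rw [Finset.sum_range_one, hsub, hp01, hz0, sub_zero]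
    | succ n ih => rw [Finset.sum_range_succ, ih, hsub, hp1]; abel
  have hsumT : ∀ (t : ℝ) (x : V) (n : ℕ),
      ∑ k ∈ Finset.range (n + 1), ((s k).2.1 t x - (s k).2.2.2 t x) = (s n).2.1 t x := by
    intro t x n
    induction n with
    | zero => rw [Finset.sum_range_one, hp02, sub_zero]
    | succ n ih => rw [Finset.sum_range_succ, ih, hp2]; abel
  have hlimJ : ∀ i, ∀ t ∈ Icc 0 T, ∀ z ∈ ball (0 : E) 3,
      Tendsto (fun n => jet (A.rep i (s n).1) t z) atTop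
        (𝓝 (jet (A.rep i fun t x => ∑' k, ((s k).1 t x - (s k).2.2.1 t x)) t z)) := by
    intro i t ht z hz
    have h1 := ((hcomp i).2.2.1 t ht z hz).tendsto_sum_nat
    have h2 := (tendsto_add_atTop_iff_nat 1).2 h1
    simp only [hsumJ i t ht z hz] at h2
    exact h2
  have hlimT : ∀ i, ∀ t ∈ Icc 0 T, ∀ z ∈ ball (0 : E) 3,
      Tendsto (fun n => (s n).2.1 t (A.Φ i z)) atTop
        (𝓝 (∑' k, ((s k).2.1 t (A.Φ i z) - (s k).2.2.2 t (A.Φ i z)))) := by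
    intro i t ht z hz
    have h1 := ((hcomp i).2.2.2 t ht z hz).tendsto_sum_nat
    have h2 := (tendsto_add_atTop_iff_nat 1).2 h1
    have h3 : ∀ n, ∑ k ∈ Finset.range (n + 1),
        A.rep i (fun t x => (s k).2.1 t x - (s k).2.2.2 t x) t z = (s n).2.1 t (A.Φ i z) :=
      fun n => hsumT t (A.Φ i z) n
    simp only [h3] at h2
    exact h2
  have hjle : ∀ i, ∀ t ∈ Icc 0 T, ∀ z ∈ ball (0 : E) 3,
      ‖jet (A.rep i fun t x => ∑' k, ((s k).1 t x - (s k).2.2.1 t x)) t z‖ ≤ δ / 2 := by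
    intro i t ht z hz
    refine le_of_tendsto (hlimJ i t ht z hz).norm (Eventually.of_forall fun n => ?_)
    have h1 := ((hI n).j i).sup t ht z hz
    have h2 : (0 : ℝ) < (1 / 2) ^ n := by positivity
    refine h1.trans ?_
    nlinarith
  refine ⟨fun t x => ∑' k, ((s k).1 t x - (s k).2.2.1 t x),
    fun t x => ∑' k, ((s k).2.1 t x - (s k).2.2.2 t x), fun i => (hcomp i).1, fun i => (hcomp i).2.1,
    hjle, fun x => by simp [(hI _).z, (hI _).z'], ?_⟩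
  intro i t ht z hz
  have htT₀ : t ∈ Icc 0 T₀ := ⟨ht.1, ht.2.trans hTT₀⟩
  have hJ := hlimJ i t ht z hz
  have hTt := hlimT i t ht z hz
  have hmem : jet (A.rep i fun t x => ∑' k, ((s k).1 t x - (s k).2.2.1 t x)) t z
      ∈ ball (0 : Jet E) δ := by
    rw [mem_ball_zero_iff]
    exact (hjle i t ht z hz).trans_lt (by linarith)
  have hcF : ContinuousAt (F i t z)
      (jet (A.rep i fun t x => ∑' k, ((s k).1 t x - (s k).2.2.1 t x)) t z) :=
    (SmF.differentiableAt_J (hF.smooth i) htT₀ hz hmem).continuousAt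
  have hL := ((tendsto_add_atTop_iff_nat 1).2 hTt).sub
    (((A.lin0 F i t z).continuous.tendsto _).comp ((tendsto_add_atTop_iff_nat 1).2 hJ))
  have hR := (hcF.tendsto.comp hJ).sub (((A.lin0 F i t z).continuous.tendsto _).comp hJ)
  have heq : ∀ n, (s (n + 1)).2.1 t (A.Φ i z) - A.lin0 F i t z (jet (A.rep i (s (n + 1)).1) t z)
      = F i t z (jet (A.rep i (s n).1) t z) - A.lin0 F i t z (jet (A.rep i (s n).1) t z) := by
    intro n
    have := (hI (n + 1)).eq i t ht z hz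
    rw [hp1] at this
    exact this
  have hfin := tendsto_nhds_unique (hL.congr heq) hR
  show ∑' k, ((s k).2.1 t (A.Φ i z) - (s k).2.2.2 t (A.Φ i z)) = _
  linarith

/-- **uniqueness** of solutions with jets in the tube. -/
theorem short_unique {T₀ T δ lam : ℝ} {CF : ℕ → ℝ} {F : A.ι → ℝ → E → Jet E → ℝ} (hT₀ : 0 < T₀)
    (hT : T ≤ T₀) (hlam : 0 ≤ lam) (hF : A.NLHyp T₀ δ lam CF F) {u ut v vt : ℝ → V → ℝ}
    (hu : A.C21M (Icc 0 T) u ut) (hv : A.C21M (Icc 0 T) v vt)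
    (hju : ∀ i, ∀ t ∈ Icc 0 T, ∀ z ∈ ball (0 : E) 3, ‖jet (A.rep i u) t z‖ < δ)
    (hjv : ∀ i, ∀ t ∈ Icc 0 T, ∀ z ∈ ball (0 : E) 3, ‖jet (A.rep i v) t z‖ < δ)
    (hsu : A.SolN (Icc 0 T) F u ut) (hsv : A.SolN (Icc 0 T) F v vt)
    (h0 : ∀ x ∈ A.X, u 0 x = v 0 x) : ∀ t ∈ Icc 0 T, ∀ x ∈ A.X, u t x = v t x := by
  have hsub : Icc 0 T ⊆ Icc 0 T₀ := Icc_subset_Icc_right hT
  have hI : UniqueDiffOn ℝ (Icc (0 : ℝ) T₀) := uniqueDiffOn_Icc hT₀
  have hbd : ∀ w : ℝ → V → ℝ, (∀ i, ∀ t ∈ Icc 0 T, ∀ z ∈ ball (0 : E) 3, ‖jet (A.rep i w) t z‖ < δ) →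
      ∀ t ∈ Icc 0 T, ∀ x ∈ A.X, |w t x| ≤ δ := by
    intro w hw t ht x hx
    obtain ⟨i, z, hz, rfl⟩ := A.cover x hx
    exact (norm_jet_le_iff.mp (hw i t ht z (ball_subset_ball (by norm_num) hz)).le).1
  have key : ∀ (u ut v vt : ℝ → V → ℝ), A.C21M (Icc 0 T) u ut → A.C21M (Icc 0 T) v vt →
      (∀ i, ∀ t ∈ Icc 0 T, ∀ z ∈ ball (0 : E) 3, ‖jet (A.rep i u) t z‖ < δ) →
      (∀ i, ∀ t ∈ Icc 0 T, ∀ z ∈ ball (0 : E) 3, ‖jet (A.rep i v) t z‖ < δ) →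
      A.SolN (Icc 0 T) F u ut → A.SolN (Icc 0 T) F v vt → (∀ x ∈ A.X, u 0 x = v 0 x) →
      ∀ t ∈ Icc 0 T, ∀ x ∈ A.X, u t x ≤ v t x := by
    intro u ut v vt hu hv hju hjv hsu hsv h0
    refine A.compareN (M := CF 1) (F := F) (𝒦 := fun _ _ _ => ball (0 : Jet E) δ)
      (fun _ _ _ => convex_ball _ _)
      (fun i t ht z hz J hJ => (A.sh_smF hF i).differentiableAt_J (hsub ht) hz hJ)
      (fun i t ht z hz J hJ => ((A.sh_smF hF i).fderiv_J hI).norm_le (hsub ht) hz hJ)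
      (fun i t ht z hz J hJ ξ => le_trans (by positivity) (hF.ell i t (hsub ht) z hz J hJ ξ))
      hu hv (fun i t ht z hz => by simpa using hju i t ht z hz)
      (fun i t ht z hz => by simpa using hjv i t ht z hz)
      ⟨δ + δ, fun t ht x hx => ?_⟩ (fun i t ht z hz => (hsu i t ht z hz).le)
      (fun i t ht z hz => (hsv i t ht z hz).ge) (fun x hx => (h0 x hx).le)
    have a := abs_le.mp (hbd u hju t ht x hx)
    have b := abs_le.mp (hbd v hjv t ht x hx)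
    linarith [a.2, b.1]
  intro t ht x hx
  exact le_antisymm (key u ut v vt hu hv hju hjv hsu hsv h0 t ht x hx)
    (key v vt u ut hv hu hjv hju hsv hsu (fun x hx => (h0 x hx).symm) t ht x hx)

end UAtlas

end Claimed.Agent.R316.B8M
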